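import Mathlib

/-!
# P130: the skew product over an odometer with values in the orthogonal group O(2)

The circle is `𝕋 = AddCircle (1 : ℝ)` with its normalized Haar measure; `O(2)` is represented by
pairs `(a, s) : 𝕋 × ℤˣ` acting by `t ↦ a + s • t`.
-/

open MeasureTheory Filter Topology
open scoped ENNReal

namespace P130

/-- the circle `ℝ/ℤ` -/
abbrev 𝕋 : Type := AddCircle (1 : ℝ)

/-- normalized Haar measure on the circle -/
noncomputable abbrev mT : Measure 𝕋 := AddCircle.haarAddCircle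

/-! ### the group O(2) -/

/-- action of `(a, s)` on the circle: `t ↦ a + s t`. -/
def act (p : 𝕋 × ℤˣ) (t : 𝕋) : 𝕋 := p.1 + p.2 • t

/-- composition -/
def mul2 (p q : 𝕋 × ℤˣ) : 𝕋 × ℤˣ := (p.1 + p.2 • q.1, p.2 * q.2)

/-- inverse -/
def inv2 (p : 𝕋 × ℤˣ) : 𝕋 × ℤˣ := (-(p.2 • p.1), p.2)

theorem act_mul2 (p q : 𝕋 × ℤˣ) (t : 𝕋) : act (mul2 p q) t = act p (act q t) := by
  simp [act, mul2, smul_add, add_assoc, mul_smul]

theorem act_inv2_act (p : 𝕋 × ℤˣ) (t : 𝕋) : act (inv2 p) (act p t) = t := by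
  simp [act, inv2, smul_add, smul_smul, Int.units_mul_self]

theorem act_act_inv2 (p : 𝕋 × ℤˣ) (t : 𝕋) : act p (act (inv2 p) t) = t := by
  simp [act, inv2, smul_add, smul_smul, Int.units_mul_self]

theorem mul2_assoc (p q r : 𝕋 × ℤˣ) : mul2 (mul2 p q) r = mul2 p (mul2 q r) := by
  simp [mul2, smul_add, add_assoc, mul_smul, mul_assoc]

theorem mul2_one (p : 𝕋 × ℤˣ) : mul2 p (0, 1) = p := by
  simp [mul2]

theorem one_mul2 (p : 𝕋 × ℤˣ) : mul2 (0, 1) p = p := by
  simp [mul2]

theorem mul2_inv2 (p : 𝕋 × ℤˣ) : mul2 p (inv2 p) = (0, 1) := by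
  simp [mul2, inv2, smul_smul, Int.units_mul_self]

theorem inv2_mul2 (p : 𝕋 × ℤˣ) : mul2 (inv2 p) p = (0, 1) := by
  simp [mul2, inv2, Int.units_mul_self]

theorem inv2_mul2_rev (p q : 𝕋 × ℤˣ) : inv2 (mul2 p q) = mul2 (inv2 q) (inv2 p) := by
  obtain ⟨a, s⟩ := p
  obtain ⟨b, u⟩ := q
  simp only [inv2, mul2, Prod.mk.injEq]
  constructor
  · simp only [smul_add, smul_neg, smul_smul, neg_add_rev]
    rw [mul_comm s u, mul_assoc, Int.units_mul_self, mul_one]
  · exact mul_comm s u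

theorem act_one (t : 𝕋) : act (0, 1) t = t := by
  simp [act]

/-! ### block data -/

/-- The data of the construction: the cutting numbers `m n`, and in block `n` the elements
`g_j = (a n j, s n j)` of `O(2)`, `j < m n`. -/
structure Blk where
  /-- cutting numbers -/
  m : ℕ → ℕ
  hm : ∀ n, 2 ≤ m n
  /-- translation parts -/
  a : ℕ → ℕ → 𝕋
  /-- linear parts -/
  s : ℕ → ℕ → ℤˣ

namespace Blk

variable (B : Blk)

/-- heights of the towers -/
def M (n : ℕ) : ℕ := ∏ i ∈ Finset.range n, B.m i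

theorem M_zero : B.M 0 = 1 := by simp [M]

theorem M_succ (n : ℕ) : B.M (n + 1) = B.M n * B.m n := by
  simp [M, Finset.prod_range_succ]

theorem m_pos (n : ℕ) : 0 < B.m n := lt_of_lt_of_le (by norm_num) (B.hm n)

theorem M_pos (n : ℕ) : 0 < B.M n := Finset.prod_pos fun i _ => B.m_pos i

instance (n : ℕ) : NeZero (B.M n) := ⟨(B.M_pos n).ne'⟩

theorem M_dvd_succ (n : ℕ) : B.M n ∣ B.M (n + 1) := by
  rw [M_succ]
  exact Dvd.intro _ rfl

theorem M_dvd {n N : ℕ} (h : n ≤ N) : B.M n ∣ B.M N := by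
  induction N, h using Nat.le_induction with
  | base => exact dvd_rfl
  | succ N _ ih => exact ih.trans (B.M_dvd_succ N)

theorem two_pow_le_M (n : ℕ) : 2 ^ n ≤ B.M n := by
  induction n with
  | zero => simp [M_zero]
  | succ n ih =>
    rw [M_succ, pow_succ]
    exact Nat.mul_le_mul ih (B.hm n)

/-- the element of `O(2)` attached to level `i` of tower `n`. -/
noncomputable def A : ℕ → ℕ → 𝕋 × ℤˣ
  | 0, _ => (0, 1)
  | n + 1, i => mul2 (A n (i % B.M n)) (B.a n (i / B.M n), B.s n (i / B.M n))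

/-! ### the odometer -/

/-- the odometer group, as a subgroup of the product of the `ZMod (M n)`. -/
def odo : AddSubgroup (∀ n, ZMod (B.M n)) where
  carrier := {x | ∀ n, ZMod.castHom (B.M_dvd_succ n) (ZMod (B.M n)) (x (n + 1)) = x n}
  add_mem' := by
    intro x y hx hy n
    rw [Pi.add_apply, map_add, hx n, hy n, Pi.add_apply]
  zero_mem' := by
    intro n
    simp
  neg_mem' := by
    intro x hx n
    rw [Pi.neg_apply, map_neg, hx n, Pi.neg_apply]

/-- the odometer group -/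
abbrev X : Type := B.odo

/-- the element `1` of the odometer -/
def one : B.X := ⟨fun _ => 1, fun _ => map_one _⟩

/-- the index of the level of tower `n` containing `x`. -/
def idx (n : ℕ) (x : B.X) : ℕ := (x.1 n).val

theorem idx_lt (n : ℕ) (x : B.X) : B.idx n x < B.M n := ZMod.val_lt _

open Classical in
/-- the cocycle: `ψ x = A_n(i - 1) A_n(i)⁻¹` where `i = idx n x > 0`, for the least `n` with
`idx n x ≠ 0`. -/
noncomputable def psi (x : B.X) : 𝕋 × ℤˣ :=
  if h : ∃ n, B.idx n x ≠ 0 then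
    mul2 (B.A (Nat.find h) (B.idx (Nat.find h) x - 1)) (inv2 (B.A (Nat.find h)
      (B.idx (Nat.find h) x)))
  else (0, 1)

/-- the phase space -/
abbrev Y : Type := B.X × 𝕋

/-- the transformation -/
noncomputable def T (y : B.Y) : B.Y := (y.1 - B.one, act (B.psi y.1) y.2)

/-- its inverse -/
noncomputable def Tinv (y : B.Y) : B.Y :=
  (y.1 + B.one, act (inv2 (B.psi (y.1 + B.one))) y.2)

/-- the vectors `E_{n,i,k}`: character `k` on level `i` of tower `n`. -/
noncomputable def E (n i : ℕ) (k : ℤ) (y : B.Y) : ℂ :=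
  if B.idx n y.1 = i then (Real.sqrt (B.M n) : ℂ) * fourier k (act (inv2 (B.A n i)) y.2) else 0

end Blk

end P130
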