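import Mathlib
import Vale.Agent.Lib.P130.Defs

/-!
# P130: the action of `O(2)` on the circle
-/

open MeasureTheory Filter Topology
open scoped ENNReal

namespace P130

instance instMSC : MeasurableSingletonClass ℤˣ := by
  refine ⟨fun u => ⟨{(u : ℤ)}, measurableSet_singleton _, ?_⟩⟩
  ext v
  simp [Units.ext_iff]

theorem units_smul_eq (s : ℤˣ) (t : 𝕋) : s • t = t ∨ s • t = -t := by
  rcases Int.units_eq_one_or s with h | h
  · left
    rw [h, one_smul]
  · right
    rw [h, Units.smul_def]
    simp

theorem continuous_units_smul (s : ℤˣ) : Continuous fun t : 𝕋 => s • t := by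
  rcases Int.units_eq_one_or s with h | h
  · rw [h]
    have h1 : (fun t : 𝕋 => (1 : ℤˣ) • t) = fun t => t := by
      funext t
      simp
    rw [h1]
    exact continuous_id
  · rw [h]
    have h1 : (fun t : 𝕋 => (-1 : ℤˣ) • t) = fun t => -t := by
      funext t
      rw [Units.smul_def]
      simp
    rw [h1]
    exact continuous_neg

theorem continuous_act (p : 𝕋 × ℤˣ) : Continuous (act p) := by
  unfold act
  exact continuous_const.add (continuous_units_smul p.2)

theorem measurePreserving_units_smul (s : ℤˣ) :
    MeasurePreserving (fun t : 𝕋 => s • t) mT mT := by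
  rcases Int.units_eq_one_or s with h | h
  · rw [h]
    have h1 : (fun t : 𝕋 => (1 : ℤˣ) • t) = id := by
      funext t
      simp
    rw [h1]
    exact MeasurePreserving.id _
  · rw [h]
    have h1 : (fun t : 𝕋 => (-1 : ℤˣ) • t) = fun t => -t := by
      funext t
      rw [Units.smul_def]
      simp
    rw [h1]
    exact Measure.measurePreserving_neg mT

/-- every element of `O(2)` preserves Haar measure. -/
theorem measurePreserving_act (p : 𝕋 × ℤˣ) : MeasurePreserving (act p) mT mT := by
  have h1 := (measurePreserving_add_left mT p.1).comp (measurePreserving_units_smul p.2)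
  exact h1

theorem fourier_map_add (k : ℤ) (s t : 𝕋) : fourier k (s + t) = fourier k s * fourier k t := by
  rw [fourier_apply, fourier_apply, fourier_apply, smul_add, AddCircle.toCircle_add,
    Circle.coe_mul]

theorem fourier_units_smul (k : ℤ) (s : ℤˣ) (t : 𝕋) :
    fourier k (s • t) = fourier ((s : ℤ) * k) t := by
  rw [fourier_apply, fourier_apply, Units.smul_def, smul_smul, mul_comm]

/-- `χ_k(a + s t) = χ_k(a) χ_{sk}(t)`. -/
theorem fourier_act (k : ℤ) (p : 𝕋 × ℤˣ) (t : 𝕋) :
    fourier k (act p t) = fourier k p.1 * fourier ((p.2 : ℤ) * k) t := by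
  unfold act
  rw [fourier_map_add, fourier_units_smul]

/-- the action is jointly measurable (`ℤˣ` is finite). -/
theorem measurable_act : Measurable fun q : (𝕋 × ℤˣ) × 𝕋 => act q.1 q.2 := by
  have h1 : Measurable fun q : (𝕋 × ℤˣ) × 𝕋 => q.1.2 • q.2 := by
    have h2 : Measurable (Function.uncurry fun (s : ℤˣ) (t : 𝕋) => s • t) :=
      measurable_from_prod_countable_right fun s => (continuous_units_smul s).measurable
    exact h2.comp ((measurable_snd.comp measurable_fst).prodMk measurable_snd)
  exact (measurable_fst.comp measurable_fst).add h1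

theorem measurable_inv2 : Measurable inv2 := by
  have h1 : Measurable fun q : 𝕋 × ℤˣ => q.2 • q.1 := by
    have h2 : Measurable (Function.uncurry fun (s : ℤˣ) (t : 𝕋) => s • t) :=
      measurable_from_prod_countable_right fun s => (continuous_units_smul s).measurable
    exact h2.comp (measurable_snd.prodMk measurable_fst)
  exact (h1.neg).prodMk measurable_snd

end P130
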