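import Mathlib
import Vale.Agent.Lib.P130.Defs

/-!
# P130: cutting a spectral measure

If `σ` is the spectral measure of `f` for the unitary `U`, then for every measurable `A` the measure
`1_A σ` is the spectral measure of some vector `f'` of the cyclic space of `f`.

Proof: for a trigonometric polynomial `p = ∑ c_j z^j` let `p(U) f = ∑ c_j U^j f`.  Then
`⟨p(U) f, q(U) f⟩ = ∫ conj(p) q dσ` (for `j < 0` take conjugates in the hypothesis).
Trigonometric polynomials are dense in `L²(σ)` (`span_fourier_closure_eq_top` and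
`ContinuousMap.toLp_denseRange`, `σ` is a finite measure on a compact metric space), so there are
`p_k → 1_A` in `L²(σ)`; `p_k(U) f` is Cauchy, let `f'` be its limit.
-/

open MeasureTheory Filter Topology
open scoped ENNReal ComplexConjugate

namespace P130

section cut

variable {H : Type*} [NormedAddCommGroup H] [InnerProductSpace ℂ H]
variable {K : Type*} [NormedAddCommGroup K] [InnerProductSpace ℂ K]

/-- equal Gram matrices give equal inner products of linear combinations -/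
private theorem cut_gram {v : ℤ → H} {w : ℤ → K}
    (h : ∀ i j, inner ℂ (v i) (v j) = inner ℂ (w i) (w j)) (c d : ℤ →₀ ℂ) :
    inner ℂ (Finsupp.linearCombination ℂ v c) (Finsupp.linearCombination ℂ v d) =
      inner ℂ (Finsupp.linearCombination ℂ w c) (Finsupp.linearCombination ℂ w d) := by
  simp only [Finsupp.linearCombination_apply, Finsupp.sum, sum_inner, inner_sum, inner_smul_left,
    inner_smul_right, h]

private theorem cut_norm {v : ℤ → H} {w : ℤ → K}
    (h : ∀ i j, inner ℂ (v i) (v j) = inner ℂ (w i) (w j)) (c : ℤ →₀ ℂ) :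
    ‖Finsupp.linearCombination ℂ v c‖ = ‖Finsupp.linearCombination ℂ w c‖ := by
  rw [@norm_eq_sqrt_re_inner ℂ, @norm_eq_sqrt_re_inner ℂ, cut_gram h]

end cut

/-- the Fourier characters in `L²(σ)` -/
private noncomputable def cutw (σ : Measure 𝕋) [IsFiniteMeasure σ] (j : ℤ) : Lp ℂ 2 σ :=
  ContinuousMap.toLp (E := ℂ) 2 σ ℂ (fourier j)

private theorem cutw_lc (σ : Measure 𝕋) [IsFiniteMeasure σ] (c : ℤ →₀ ℂ) :
    Finsupp.linearCombination ℂ (cutw σ) c =
      ContinuousMap.toLp (E := ℂ) 2 σ ℂ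
        (Finsupp.linearCombination ℂ (fun j : ℤ => (fourier j : C(𝕋, ℂ))) c) := by
  rw [Finsupp.linearCombination_apply, Finsupp.linearCombination_apply, map_finsuppSum]
  simp only [map_smul]
  rfl

private theorem cutw_dense (σ : Measure 𝕋) [IsFiniteMeasure σ] :
    DenseRange (fun c : ℤ →₀ ℂ => Finsupp.linearCombination ℂ (cutw σ) c) := by
  have h1 : DenseRange (fun c : ℤ →₀ ℂ =>
      Finsupp.linearCombination ℂ (fun j : ℤ => (fourier j : C(𝕋, ℂ))) c) := by
    have h2 : (Submodule.span ℂ (Set.range fun j : ℤ => (fourier j : C(𝕋, ℂ)))).topologicalClosure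
        = ⊤ := span_fourier_closure_eq_top
    rw [← Finsupp.range_linearCombination] at h2
    have h3 := Submodule.dense_iff_topologicalClosure_eq_top.2 h2
    rwa [LinearMap.coe_range] at h3
  have h3 : DenseRange (ContinuousMap.toLp (E := ℂ) 2 σ ℂ : C(𝕋, ℂ) →L[ℂ] Lp ℂ 2 σ) :=
    ContinuousMap.toLp_denseRange ℂ σ ℂ (by norm_num)
  have h4 := h3.comp h1 (ContinuousMap.toLp (E := ℂ) 2 σ ℂ).continuous
  have e : (fun c : ℤ →₀ ℂ => Finsupp.linearCombination ℂ (cutw σ) c) =
      (ContinuousMap.toLp (E := ℂ) 2 σ ℂ : C(𝕋, ℂ) →L[ℂ] Lp ℂ 2 σ) ∘ (fun c : ℤ →₀ ℂ =>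
      Finsupp.linearCombination ℂ (fun j : ℤ => (fourier j : C(𝕋, ℂ))) c) := by
    funext c
    exact cutw_lc σ c
  rw [e]
  exact h4

private theorem cutw_inner (σ : Measure 𝕋) [IsFiniteMeasure σ] (i j : ℤ) :
    inner ℂ (cutw σ i) (cutw σ j) = ∫ t, fourier (j - i) t ∂σ := by
  rw [L2.inner_def]
  refine integral_congr_ae ?_
  have h1 : (cutw σ i : 𝕋 → ℂ) =ᵐ[σ] (fourier i : 𝕋 → ℂ) :=
    ContinuousMap.coeFn_toLp (𝕜 := ℂ) σ (fourier i : C(𝕋, ℂ))
  have h2 : (cutw σ j : 𝕋 → ℂ) =ᵐ[σ] (fourier j : 𝕋 → ℂ) :=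
    ContinuousMap.coeFn_toLp (𝕜 := ℂ) σ (fourier j : C(𝕋, ℂ))
  filter_upwards [h1, h2] with t ht1 ht2
  rw [ht1, ht2, RCLike.inner_apply, ← fourier_neg, ← fourier_add, sub_eq_add_neg]

/-- shift of coefficients -/
private noncomputable def cutsh (n : ℤ) (c : ℤ →₀ ℂ) : ℤ →₀ ℂ := c.mapDomain (fun j => j + n)

private theorem cutsh_eval (n : ℤ) (c : ℤ →₀ ℂ) (t : 𝕋) :
    (Finsupp.linearCombination ℂ (fun j : ℤ => (fourier j : C(𝕋, ℂ))) (cutsh n c)) t =
      fourier n t * (Finsupp.linearCombination ℂ (fun j : ℤ => (fourier j : C(𝕋, ℂ))) c) t := by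
  rw [cutsh, Finsupp.linearCombination_mapDomain, Finsupp.linearCombination_apply,
    Finsupp.linearCombination_apply, Finsupp.sum, Finsupp.sum, ContinuousMap.sum_apply,
    ContinuousMap.sum_apply, Finset.mul_sum]
  refine Finset.sum_congr rfl fun j _ => ?_
  simp only [Function.comp_apply, ContinuousMap.smul_apply, smul_eq_mul]
  rw [fourier_add]
  ring

/-- the function `z ^ n 1_A` in `L²(σ)` -/
private noncomputable def cutg (σ : Measure 𝕋) [IsFiniteMeasure σ] (A : Set 𝕋) (n : ℤ) : 𝕋 → ℂ :=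
  A.indicator (fun t => fourier n t)

private theorem cutg_memLp (σ : Measure 𝕋) [IsFiniteMeasure σ] {A : Set 𝕋}
    (hA : MeasurableSet A) (n : ℤ) : MemLp (cutg σ A n) 2 σ := by
  have h1 : MemLp (fun t : 𝕋 => (fourier n t : ℂ)) 2 σ := by
    refine MemLp.of_bound (fourier n : C(𝕋, ℂ)).continuous.aestronglyMeasurable 1 ?_
    filter_upwards with t
    rw [fourier_apply, Circle.norm_coe]
  exact h1.indicator hA

/-- distance after the shift -/
private theorem cut_dist (σ : Measure 𝕋) [IsFiniteMeasure σ] {A : Set 𝕋} (hA : MeasurableSet A)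
    (n : ℤ) (c : ℤ →₀ ℂ) :
    ‖Finsupp.linearCombination ℂ (cutw σ) (cutsh n c) - (cutg_memLp σ hA n).toLp‖ =
      ‖Finsupp.linearCombination ℂ (cutw σ) c - (cutg_memLp σ hA 0).toLp‖ := by
  rw [Lp.norm_def, Lp.norm_def]
  congr 1
  refine eLpNorm_congr_norm_ae ?_
  have h1 : (Finsupp.linearCombination ℂ (cutw σ) (cutsh n c) : 𝕋 → ℂ) =ᵐ[σ]
      (Finsupp.linearCombination ℂ (fun j : ℤ => (fourier j : C(𝕋, ℂ))) (cutsh n c) : 𝕋 → ℂ) := by
    rw [cutw_lc]
    exact ContinuousMap.coeFn_toLp (𝕜 := ℂ) σ _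
  have h2 : (Finsupp.linearCombination ℂ (cutw σ) c : 𝕋 → ℂ) =ᵐ[σ]
      (Finsupp.linearCombination ℂ (fun j : ℤ => (fourier j : C(𝕋, ℂ))) c : 𝕋 → ℂ) := by
    rw [cutw_lc]
    exact ContinuousMap.coeFn_toLp (𝕜 := ℂ) σ _
  filter_upwards [h1, h2, Lp.coeFn_sub (Finsupp.linearCombination ℂ (cutw σ) (cutsh n c))
    (cutg_memLp σ hA n).toLp, Lp.coeFn_sub (Finsupp.linearCombination ℂ (cutw σ) c)
    (cutg_memLp σ hA 0).toLp, (cutg_memLp σ hA n).coeFn_toLp, (cutg_memLp σ hA 0).coeFn_toLp]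
    with t e1 e2 e3 e4 e5 e6
  rw [e3, e4, Pi.sub_apply, Pi.sub_apply, e1, e2, e5, e6, cutsh_eval]
  have e7 : cutg σ A n t = fourier n t * cutg σ A 0 t := by
    unfold cutg
    by_cases ht : t ∈ A
    · rw [Set.indicator_of_mem ht, Set.indicator_of_mem ht, fourier_zero, mul_one]
    · rw [Set.indicator_of_notMem ht, Set.indicator_of_notMem ht, mul_zero]
  rw [e7, ← mul_sub, norm_mul]
  have e8 : ‖(fourier n t : ℂ)‖ = 1 := by rw [fourier_apply, Circle.norm_coe]
  rw [e8, one_mul]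

private theorem cut_inner_g (σ : Measure 𝕋) [IsFiniteMeasure σ] {A : Set 𝕋}
    (hA : MeasurableSet A) (n : ℤ) :
    inner ℂ (cutg_memLp σ hA 0).toLp (cutg_memLp σ hA n).toLp = ∫ t in A, fourier n t ∂σ := by
  rw [L2.inner_def, ← integral_indicator hA]
  refine integral_congr_ae ?_
  filter_upwards [(cutg_memLp σ hA n).coeFn_toLp, (cutg_memLp σ hA 0).coeFn_toLp] with t e1 e2
  rw [e1, e2]
  unfold cutg
  by_cases ht : t ∈ A
  · simp only [Set.indicator_of_mem ht]
    rw [fourier_zero, RCLike.inner_apply]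
    simp
  · simp only [Set.indicator_of_notMem ht]
    simp

private theorem cut_zpow {H : Type*} [NormedAddCommGroup H] [InnerProductSpace ℂ H]
    (U : H ≃ₗᵢ[ℂ] H) (i j : ℤ) (x : H) : (U ^ (i + j)) x = (U ^ i) ((U ^ j) x) := by
  rw [zpow_add]
  rfl

theorem exists_cut {H : Type*} [NormedAddCommGroup H] [InnerProductSpace ℂ H] [CompleteSpace H]
    (U : H ≃ₗᵢ[ℂ] H) (f : H) (σ : Measure 𝕋) [IsFiniteMeasure σ]
    (hσ : ∀ n : ℕ, ∫ t, fourier (n : ℤ) t ∂σ = inner ℂ f ((U ^ n) f))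
    (A : Set 𝕋) (hA : MeasurableSet A) :
    ∃ f' ∈ (Submodule.span ℂ (Set.range fun j : ℤ => (U ^ j) f)).topologicalClosure,
      ∀ n : ℕ, ∫ t in A, fourier (n : ℤ) t ∂σ = inner ℂ f' ((U ^ n) f') := by
  set v : ℤ → H := fun j => (U ^ j) f with hv
  -- the spectral measure for all integers
  have hσ' : ∀ n : ℤ, inner ℂ f (v n) = ∫ t, fourier n t ∂σ := by
    intro n
    rcases le_total 0 n with hn | hn
    · obtain ⟨m, rfl⟩ := Int.eq_ofNat_of_zero_le hn
      rw [hσ m]
      simp [hv]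
    · obtain ⟨m, hm⟩ := Int.eq_ofNat_of_zero_le (neg_nonneg.2 hn)
      have hn' : n = -(m : ℤ) := by omega
      subst hn'
      have h1 : inner ℂ f (v (-(m : ℤ))) = inner ℂ ((U ^ m) f) f := by
        have h2 := (U ^ m).inner_map_map f (v (-(m : ℤ)))
        rw [← h2]
        congr 1
        show (U ^ m) ((U ^ (-(m : ℤ))) f) = f
        have h3 := cut_zpow U (m : ℤ) (-(m : ℤ)) f
        rw [add_neg_cancel, zpow_zero] at h3
        rw [← zpow_natCast]
        exact h3.symm
      rw [h1, ← inner_conj_symm, ← hσ m, ← integral_conj]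
      refine integral_congr_ae ?_
      filter_upwards with t
      rw [fourier_neg]
  have hgram : ∀ i j, inner ℂ (v i) (v j) = inner ℂ (cutw σ i) (cutw σ j) := by
    intro i j
    rw [cutw_inner, ← hσ']
    have h2 := (U ^ i).inner_map_map f (v (j - i))
    rw [← h2]
    congr 1
    show (U ^ j) f = (U ^ i) ((U ^ (j - i)) f)
    rw [← cut_zpow, add_sub_cancel]
  -- approximating sequence
  set g : Lp ℂ 2 σ := (cutg_memLp σ hA 0).toLp with hg
  obtain ⟨s, hs1, hs2⟩ := mem_closure_iff_seq_limit.1 (cutw_dense σ g)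
  choose c hc using hs1
  set y : ℕ → H := fun k => Finsupp.linearCombination ℂ v (c k) with hy
  have hdist : ∀ k l, dist (y k) (y l) = dist (s k) (s l) := by
    intro k l
    rw [dist_eq_norm, dist_eq_norm, ← hc k, ← hc l, hy]
    simp only
    rw [← map_sub, cut_norm hgram, map_sub]
  have hcau : CauchySeq y := by
    have h1 := hs2.cauchySeq
    rw [Metric.cauchySeq_iff] at h1 ⊢
    intro ε hε
    obtain ⟨N, hN⟩ := h1 ε hε
    exact ⟨N, fun k hk l hl => by rw [hdist]; exact hN k hk l hl⟩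
  obtain ⟨f', hf'⟩ := cauchySeq_tendsto_of_complete hcau
  refine ⟨f', ?_, ?_⟩
  · show f' ∈ closure ((Submodule.span ℂ (Set.range v) : Submodule ℂ H) : Set H)
    refine mem_closure_of_tendsto hf' (Eventually.of_forall fun k => ?_)
    have h1 : y k ∈ LinearMap.range (Finsupp.linearCombination ℂ v) := ⟨c k, rfl⟩
    rw [Finsupp.range_linearCombination] at h1
    exact h1
  · intro n
    have hU : ∀ d : ℤ →₀ ℂ, (U ^ n) (Finsupp.linearCombination ℂ v d) =
        Finsupp.linearCombination ℂ v (cutsh (n : ℤ) d) := by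
      intro d
      rw [cutsh, Finsupp.linearCombination_mapDomain, Finsupp.linearCombination_apply,
        Finsupp.linearCombination_apply, map_finsuppSum]
      refine Finsupp.sum_congr fun j _ => ?_
      rw [map_smul]
      congr 1
      show (U ^ n) ((U ^ j) f) = (U ^ (j + (n : ℤ))) f
      rw [add_comm j, cut_zpow, zpow_natCast]
    have T1 : Tendsto (fun k => inner ℂ (y k) ((U ^ n) (y k))) atTop
        (𝓝 (inner ℂ f' ((U ^ n) f'))) :=
      hf'.inner (((U ^ n).continuous.tendsto f').comp hf')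
    have hsh : Tendsto (fun k => Finsupp.linearCombination ℂ (cutw σ) (cutsh (n : ℤ) (c k))) atTop
        (𝓝 ((cutg_memLp σ hA (n : ℤ)).toLp)) := by
      rw [tendsto_iff_norm_sub_tendsto_zero]
      have h1 := tendsto_iff_norm_sub_tendsto_zero.1 hs2
      refine h1.congr fun k => ?_
      rw [cut_dist σ hA, ← hc k]
    have T2 : Tendsto (fun k => inner ℂ (s k)
        (Finsupp.linearCombination ℂ (cutw σ) (cutsh (n : ℤ) (c k)))) atTop
        (𝓝 (inner ℂ g ((cutg_memLp σ hA (n : ℤ)).toLp))) := hs2.inner hsh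
    have e : (fun k => inner ℂ (y k) ((U ^ n) (y k))) = fun k => inner ℂ (s k)
        (Finsupp.linearCombination ℂ (cutw σ) (cutsh (n : ℤ) (c k))) := by
      funext k
      rw [hy]
      simp only
      rw [hU, cut_gram hgram, ← hc k]
    rw [e] at T1
    have h1 := tendsto_nhds_unique T2 T1
    rw [← h1, hg, cut_inner_g σ hA]

end P130
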