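import Mathlib

/-!
# P130: limits of partial isometries given by almost compatible orthonormal families

`J_n f = ∑_i ⟨e_{n,i}, f⟩ b_{n,i}`, `P_n` the orthogonal projection onto `span (e n)`.
`‖J_n f‖ = ‖P_n f‖ ≤ ‖f‖`, `J_n f = J_n P_n f`.  For `f = ∑ x_i e_{n,i}` in `span (e n)`:
`J_{n+1} f - J_n f = ∑ x_i (J_{n+1} e_{n,i} - b_{n,i})`, of norm `≤ δ_n ‖f‖`.  Since `span (e n)` is
increasing, for `f ∈ span (e n)` and `N ≥ n`, `‖J_{N+1} f - J_N f‖ ≤ δ_N ‖f‖`, hence convergence of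
`J_N f`, `‖J f‖ = lim ‖J_N f‖ = lim ‖P_N f‖ = ‖f‖`, `‖J f - J_n f‖ ≤ (∑_{k ≥ n} δ_k) ‖f‖`.
By density and uniform boundedness `J_N f` converges for every `f` in the closure of the union; for
`f` orthogonal to it `J_N f = 0`.
-/

open Filter Topology

namespace P130

section Lim

variable {H K : Type*} [NormedAddCommGroup H] [InnerProductSpace ℂ H]
  [NormedAddCommGroup K] [InnerProductSpace ℂ K]

/-- the partial isometry attached to two finite orthonormal families -/
noncomputable def pJ {ι : Type*} [Fintype ι] (e : ι → H) (b : ι → K) : H →L[ℂ] K :=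
  ∑ i, (innerSL ℂ (e i)).smulRight (b i)

theorem pJ_apply {ι : Type*} [Fintype ι] (e : ι → H) (b : ι → K) (f : H) :
    pJ e b f = ∑ i, (inner ℂ (e i) f : ℂ) • b i := by
  unfold pJ
  rw [sum_apply]
  rfl

theorem norm_sq_pJ {ι : Type*} [Fintype ι] (e : ι → H) (b : ι → K) (hb : Orthonormal ℂ b)
    (f : H) : ‖pJ e b f‖ ^ 2 = ∑ i, ‖(inner ℂ (e i) f : ℂ)‖ ^ 2 := by
  rw [pJ_apply, ← @inner_self_eq_norm_sq ℂ, hb.inner_sum, map_sum]
  refine Finset.sum_congr rfl fun i _ => ?_
  rw [← RCLike.normSq_eq_def', RCLike.normSq_eq_def']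
  rw [RCLike.conj_mul]
  norm_cast

theorem norm_pJ_le {ι : Type*} [Fintype ι] (e : ι → H) (b : ι → K) (he : Orthonormal ℂ e)
    (hb : Orthonormal ℂ b) (f : H) : ‖pJ e b f‖ ≤ ‖f‖ := by
  have h1 := norm_sq_pJ e b hb f
  have h2 : ∑ i, ‖(inner ℂ (e i) f : ℂ)‖ ^ 2 ≤ ‖f‖ ^ 2 :=
    he.sum_inner_products_le f (s := Finset.univ)
  rw [← h1] at h2
  exact (sq_le_sq₀ (norm_nonneg _) (norm_nonneg _)).1 h2

theorem expand_span {ι : Type*} [Fintype ι] (e : ι → H) (he : Orthonormal ℂ e) (f : H)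
    (hf : f ∈ Submodule.span ℂ (Set.range e)) : f = ∑ i, (inner ℂ (e i) f : ℂ) • e i := by
  classical
  rw [Submodule.mem_span_range_iff_exists_fun] at hf
  obtain ⟨c, rfl⟩ := hf
  refine Finset.sum_congr rfl fun i _ => ?_
  rw [he.inner_right_fintype]

theorem norm_pJ_eq {ι : Type*} [Fintype ι] (e : ι → H) (b : ι → K) (he : Orthonormal ℂ e)
    (hb : Orthonormal ℂ b) (f : H) (hf : f ∈ Submodule.span ℂ (Set.range e)) :
    ‖pJ e b f‖ = ‖f‖ := by
  have h1 := norm_sq_pJ e b hb f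
  have h2 : ‖f‖ ^ 2 = ∑ i, ‖(inner ℂ (e i) f : ℂ)‖ ^ 2 := by
    have h3 := expand_span e he f hf
    have h4 := norm_sq_pJ e e he f
    rw [pJ_apply, ← h3] at h4
    exact h4
  rw [← h2] at h1
  exact (pow_left_inj₀ (norm_nonneg _) (norm_nonneg _) two_ne_zero).1 h1

theorem exists_limit {H K : Type*} [NormedAddCommGroup H] [InnerProductSpace ℂ H]
    [CompleteSpace H] [NormedAddCommGroup K] [InnerProductSpace ℂ K] [CompleteSpace K]
    {ι : ℕ → Type} [∀ n, Fintype (ι n)] (e : ∀ n, ι n → H) (b : ∀ n, ι n → K)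
    (he : ∀ n, Orthonormal ℂ (e n)) (hb : ∀ n, Orthonormal ℂ (b n))
    (hspan : ∀ n i, e n i ∈ Submodule.span ℂ (Set.range (e (n + 1))))
    (δ : ℕ → ℝ) (hδ : Summable δ)
    (hd : ∀ n i, ‖∑ j, (inner ℂ (e (n + 1) j) (e n i) : ℂ) • b (n + 1) j - b n i‖ *
      Fintype.card (ι n) ≤ δ n) :
    ∃ J : H →L[ℂ] K,
      (∀ f ∈ (⨆ n, Submodule.span ℂ (Set.range (e n))).topologicalClosure, ‖J f‖ = ‖f‖) ∧
      (∀ f ∈ ((⨆ n, Submodule.span ℂ (Set.range (e n))).topologicalClosure)ᗮ, J f = 0) ∧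
      (∀ n i, ‖J (e n i) - b n i‖ ≤ ∑' k, δ (k + n)) ∧
      (∀ f, Tendsto (fun n => ∑ i, (inner ℂ (e n i) f : ℂ) • b n i) atTop (𝓝 (J f))) := by
  obtain ⟨S, hS⟩ : ∃ S : ℕ → Submodule ℂ H, S = fun n => Submodule.span ℂ (Set.range (e n)) :=
    ⟨_, rfl⟩
  have hSn : ∀ n, S n = Submodule.span ℂ (Set.range (e n)) := fun n => by rw [hS]
  have hmono : Monotone S := by
    refine monotone_nat_of_le_succ fun n => ?_
    rw [hSn, hSn, Submodule.span_le]
    rintro _ ⟨i, rfl⟩
    exact hspan n i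
  have hsup : (⨆ n, Submodule.span ℂ (Set.range (e n))) = ⨆ n, S n := by rw [hS]
  rw [hsup]
  obtain ⟨Q, hQ⟩ : ∃ Q : Submodule ℂ H, Q = (⨆ n, S n).topologicalClosure := ⟨_, rfl⟩
  rw [← hQ]
  obtain ⟨J, hJ⟩ : ∃ J : ℕ → H →L[ℂ] K, J = fun n => pJ (e n) (b n) := ⟨_, rfl⟩
  have hJn : ∀ n, J n = pJ (e n) (b n) := fun n => by rw [hJ]
  have hJe : ∀ n i, J n (e n i) = b n i := by
    classical
    intro n i
    rw [hJn, pJ_apply, Finset.sum_eq_single i]
    · have h1 := orthonormal_iff_ite.1 (he n) i i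
      rw [h1, if_pos rfl, one_smul]
    · intro j _ hj
      have h1 := orthonormal_iff_ite.1 (he n) j i
      rw [h1, if_neg hj, zero_smul]
    · intro h
      exact absurd (Finset.mem_univ i) h
  have hJle : ∀ n f, ‖J n f‖ ≤ ‖f‖ := by
    intro n f
    rw [hJn]
    exact norm_pJ_le _ _ (he n) (hb n) f
  -- step
  have hstep0 : ∀ n, ∀ f ∈ S n, ‖J (n + 1) f - J n f‖ ≤ δ n * ‖f‖ := by
    intro n f hf
    rw [hSn] at hf
    have h1 := expand_span (e n) (he n) f hf
    have h2 : J (n + 1) f - J n f =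
        ∑ i, (inner ℂ (e n i) f : ℂ) • (J (n + 1) (e n i) - b n i) := by
      conv_lhs => rw [h1]
      rw [map_sum, map_sum, ← Finset.sum_sub_distrib]
      refine Finset.sum_congr rfl fun i _ => ?_
      rw [map_smul, map_smul, hJe, smul_sub]
    rw [h2]
    rcases isEmpty_or_nonempty (ι n) with hemp | hne
    · have hf0 : f = 0 := by
        rw [h1]
        exact Finset.sum_eq_zero fun i _ => hemp.elim i
      rw [Finset.univ_eq_empty, Finset.sum_empty, norm_zero, hf0, norm_zero, mul_zero]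
    have hcard : (0 : ℝ) < Fintype.card (ι n) := by exact_mod_cast Fintype.card_pos
    have h3 : ∀ i, ‖J (n + 1) (e n i) - b n i‖ ≤ δ n / Fintype.card (ι n) := by
      intro i
      rw [le_div_iff₀ hcard, hJn, pJ_apply]
      exact hd n i
    calc ‖∑ i, (inner ℂ (e n i) f : ℂ) • (J (n + 1) (e n i) - b n i)‖
        ≤ ∑ i, ‖(inner ℂ (e n i) f : ℂ) • (J (n + 1) (e n i) - b n i)‖ := norm_sum_le _ _
      _ ≤ ∑ _i : ι n, ‖f‖ * (δ n / Fintype.card (ι n)) := by
        refine Finset.sum_le_sum fun i _ => ?_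
        rw [norm_smul]
        refine mul_le_mul ?_ (h3 i) (norm_nonneg _) (norm_nonneg _)
        refine (norm_inner_le_norm _ _).trans ?_
        rw [(he n).1 i, one_mul]
      _ = δ n * ‖f‖ := by
        rw [Finset.sum_const, Finset.card_univ, nsmul_eq_mul]
        field_simp
  have hstep : ∀ n N, n ≤ N → ∀ f ∈ S n, ‖J (N + 1) f - J N f‖ ≤ δ N * ‖f‖ :=
    fun n N hnN f hf => hstep0 N f (hmono hnN hf)
  have hcau0 : ∀ n, ∀ f ∈ S n, CauchySeq fun N => J N f := by
    intro n f hf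
    rw [← cauchySeq_shift n]
    refine cauchySeq_of_dist_le_of_summable (fun k => δ (k + n) * ‖f‖) (fun k => ?_) ?_
    · rw [dist_comm, dist_eq_norm]
      have h1 := hstep n (k + n) (Nat.le_add_left n k) f hf
      have h2 : k.succ + n = k + n + 1 := by omega
      rw [h2]
      exact h1
    · exact ((summable_nat_add_iff n).2 hδ).mul_right _
  have hQc : IsClosed (Q : Set H) := by
    rw [hQ]
    exact Submodule.isClosed_topologicalClosure _
  have : CompleteSpace Q := hQc.completeSpace_coe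
  have hcau : ∀ f : H, CauchySeq fun N => J N f := by
    intro f
    rw [Metric.cauchySeq_iff']
    intro ε hε
    obtain ⟨p, hp, q, hq, hpq⟩ := Submodule.exists_add_mem_mem_orthogonal (K := Q) f
    have hJq : ∀ N, J N q = 0 := by
      intro N
      rw [hJn, pJ_apply]
      refine Finset.sum_eq_zero fun i _ => ?_
      have h1 : e N i ∈ Q := by
        rw [hQ]
        refine Submodule.le_topologicalClosure _ ?_
        refine Submodule.mem_iSup_of_mem N ?_
        rw [hSn]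
        exact Submodule.subset_span ⟨i, rfl⟩
      rw [(Submodule.mem_orthogonal Q q).1 hq _ h1, zero_smul]
    have hp' : p ∈ closure ((⨆ n, S n : Submodule ℂ H) : Set H) := by
      rw [hQ] at hp
      exact hp
    rw [Metric.mem_closure_iff] at hp'
    obtain ⟨p', hp'1, hp'2⟩ := hp' (ε / 4) (by linarith)
    rw [SetLike.mem_coe, Submodule.mem_iSup_of_directed _ hmono.directed_le] at hp'1
    obtain ⟨n, hn⟩ := hp'1
    have h2 := hcau0 n p' hn
    rw [Metric.cauchySeq_iff'] at h2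
    obtain ⟨N, hN⟩ := h2 (ε / 4) (by linarith)
    refine ⟨N, fun m hm => ?_⟩
    have h3 := hN m hm
    rw [dist_eq_norm] at h3 hp'2 ⊢
    have h4 : J m f - J N f = (J m (p - p')) - (J N (p - p')) + (J m p' - J N p') := by
      rw [hpq, map_add, map_add, hJq, hJq, map_sub, map_sub]
      abel
    rw [h4]
    have h5 : ‖J m (p - p')‖ < ε / 4 := (hJle m _).trans_lt hp'2
    have h6 : ‖J N (p - p')‖ < ε / 4 := (hJle N _).trans_lt hp'2
    calc _ ≤ ‖(J m (p - p')) - (J N (p - p'))‖ + ‖J m p' - J N p'‖ := norm_add_le _ _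
      _ ≤ (‖J m (p - p')‖ + ‖J N (p - p')‖) + ‖J m p' - J N p'‖ := by
        gcongr
        exact norm_sub_le _ _
      _ < ε := by linarith
  have hlim : ∀ f : H, ∃ g : K, Tendsto (fun N => J N f) atTop (𝓝 g) := fun f =>
    cauchySeq_tendsto_of_complete (hcau f)
  choose g hg using hlim
  obtain ⟨J', hJ'⟩ : ∃ J' : H →L[ℂ] K, ∀ f, J' f = g f := by
    refine ⟨continuousLinearMapOfTendsto J (f := g) (tendsto_pi_nhds.2 hg), fun f => rfl⟩
  have hT : ∀ f, Tendsto (fun N => J N f) atTop (𝓝 (J' f)) := fun f => by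
    rw [hJ']
    exact hg f
  refine ⟨J', ?_, ?_, ?_, ?_⟩
  · have hcl : IsClosed {f : H | ‖J' f‖ = ‖f‖} :=
      isClosed_eq J'.continuous.norm continuous_norm
    have h1 : ∀ f ∈ (⨆ n, S n), ‖J' f‖ = ‖f‖ := by
      intro f hf
      rw [Submodule.mem_iSup_of_directed _ hmono.directed_le] at hf
      obtain ⟨n, hn⟩ := hf
      refine tendsto_nhds_unique (hT f).norm ?_
      refine tendsto_const_nhds.congr' ?_
      filter_upwards [eventually_ge_atTop n] with N hN
      rw [hJn]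
      refine (norm_pJ_eq _ _ (he N) (hb N) f ?_).symm
      rw [← hSn]
      exact hmono hN hn
    intro f hf
    rw [hQ] at hf
    have h2 : closure ((⨆ n, S n : Submodule ℂ H) : Set H) ⊆ {f : H | ‖J' f‖ = ‖f‖} :=
      closure_minimal h1 hcl
    exact h2 hf
  · intro f hf
    refine tendsto_nhds_unique (hT f) ?_
    refine tendsto_const_nhds.congr fun N => ?_
    rw [hJn, pJ_apply]
    symm
    refine Finset.sum_eq_zero fun i _ => ?_
    have h1 : e N i ∈ Q := by
      rw [hQ]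
      refine Submodule.le_topologicalClosure _ ?_
      refine Submodule.mem_iSup_of_mem N ?_
      rw [hSn]
      exact Submodule.subset_span ⟨i, rfl⟩
    rw [(Submodule.mem_orthogonal Q f).1 hf _ h1, zero_smul]
  · intro n i
    have h1 : e n i ∈ S n := by
      rw [hSn]
      exact Submodule.subset_span ⟨i, rfl⟩
    have h2 : ∀ k : ℕ, dist (J (k + n) (e n i)) (J (k.succ + n) (e n i)) ≤ δ (k + n) := by
      intro k
      rw [dist_comm, dist_eq_norm]
      have h3 := hstep n (k + n) (Nat.le_add_left n k) _ h1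
      rw [(he n).1 i, mul_one] at h3
      have h4 : k.succ + n = k + n + 1 := by omega
      rw [h4]
      exact h3
    have h5 : Tendsto (fun k => J (k + n) (e n i)) atTop (𝓝 (J' (e n i))) :=
      (hT (e n i)).comp (tendsto_add_atTop_nat n)
    have h6 := dist_le_tsum_of_dist_le_of_tendsto₀ (fun k => δ (k + n)) h2
      ((summable_nat_add_iff n).2 hδ) h5
    rw [zero_add, hJe, dist_comm, dist_eq_norm] at h6
    exact h6
  · intro f
    refine (hT f).congr fun N => ?_
    rw [hJn, pJ_apply]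

end Lim

end P130
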