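import Mathlib
import Vale.Agent.Lib.P130.Defs

/-!
# P130: the chirp blocks: definitions
-/

open MeasureTheory Filter Topology
open scoped ENNReal

namespace P130

/-- The phase of the `j`-th element of a block of type `κ` with segment length `L`
(the block has `2 κ L` elements): writing `j mod κ L = r L + i`, `i < L`, it is
`r i / κ + i² / (4 κ L)`. -/
noncomputable def chA (κ L j : ℕ) : 𝕋 :=
  (((((j % (κ * L)) / L : ℕ) : ℝ) * (((j % (κ * L)) % L : ℕ) : ℝ) / κ +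
    (((j % (κ * L)) % L : ℕ) : ℝ) ^ 2 / (4 * κ * L) : ℝ) : 𝕋)

/-- the sign of the `j`-th element: `1` in the first half, `-1` in the second half. -/
def chS (κ L j : ℕ) : ℤˣ := if j < κ * L then 1 else -1

/-- the basic chirp polynomial `∑_{i < L} e(i² / (4 κ L)) e(i t)`. -/
noncomputable def chC (κ L : ℕ) (t : 𝕋) : ℂ :=
  ∑ i ∈ Finset.range L, fourier 1 ((((i : ℝ) ^ 2 / (4 * κ * L) : ℝ)) : 𝕋) * fourier (i : ℤ) t

/-- the polynomial of half a block. -/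
noncomputable def chP (κ L : ℕ) (t : 𝕋) : ℂ :=
  ∑ j ∈ Finset.range (κ * L), fourier 1 (chA κ L j) * fourier (j : ℤ) t

/-- `[1/2, 1)` in the circle. -/
def Ihalf : Set 𝕋 := (fun x : ℝ => (x : 𝕋)) '' Set.Ico (1 / 2) 1

/-- the set `K_κ = {t : κ t ∈ [1/2, 1)}`. -/
def Kset (κ : ℕ) : Set 𝕋 := {t | κ • t ∈ Ihalf}

/-- the arc `[-1/(2κ), 0)`. -/
def Iset (κ : ℕ) : Set 𝕋 := (fun x : ℝ => (x : 𝕋)) '' Set.Ico (-(1 / (2 * (κ : ℝ)))) 0

/-- the flatness defect of a block of type `κ` with segment length `L`. -/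
noncomputable def flatErr (κ L : ℕ) : ℝ :=
  ∫ t, (‖chP κ L t‖ / Real.sqrt (2 * κ * L) - (Kset κ).indicator (fun _ => (1 : ℝ)) t) ^ 2 ∂mT

/-- A good choice of parameters. -/
structure Good (B : Blk) where
  /-- types -/
  κ : ℕ → ℕ
  /-- segment lengths -/
  L : ℕ → ℕ
  hκ : ∀ n, 2 ≤ κ n
  hL : ∀ n, 0 < L n
  hLn : ∀ n, n ≤ L n
  hm : ∀ n, B.m n = 2 * κ n * L n
  ha : ∀ n j, B.a n j = chA (κ n) (L n) j
  hs : ∀ n j, B.s n j = chS (κ n) (L n) j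
  hfreq : ∀ k, 2 ≤ k → ∀ N, ∃ n ≥ N, κ n = k
  hflat : ∀ n, (B.M n : ℝ) ^ 2 * flatErr (κ n) (L n) ≤ (1 / 4) ^ n / 8

end P130
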