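import Mathlib
import Vale.Agent.Lib.P130.Defs

/-!
# P130: multiplication by characters on `L²(𝕋)`
-/

open MeasureTheory Filter Topology
open scoped ENNReal

namespace P130

/-- the space `L²(𝕋)` -/
abbrev LT : Type := Lp ℂ 2 mT

theorem norm_fourier_apply (n : ℤ) (t : 𝕋) : ‖(fourier n t : ℂ)‖ = 1 := by
  rw [fourier_apply]
  exact Circle.norm_coe _

theorem memLp_fourier_mul (n : ℤ) (g : LT) : MemLp (fun t => fourier n t * g t) 2 mT := by
  have h1 := Lp.memLp g
  refine h1.congr_norm ?_ ?_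
  · exact ((map_continuous (fourier n)).aestronglyMeasurable).mul (Lp.aestronglyMeasurable g)
  · refine Filter.Eventually.of_forall fun t => ?_
    rw [norm_mul, norm_fourier_apply, one_mul]

/-- multiplication by `fourier n` is an isometry of `L²(𝕋)` -/
theorem exists_mulF (n : ℤ) : ∃ Z : LT →ₗᵢ[ℂ] LT, ∀ g : LT,
    (Z g : 𝕋 → ℂ) =ᵐ[mT] fun t => fourier n t * g t := by
  refine ⟨{ toFun := fun g => (memLp_fourier_mul n g).toLp _
            map_add' := ?_
            map_smul' := ?_
            norm_map' := ?_ }, ?_⟩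
  · intro f g
    apply Lp.ext
    have h1 := (memLp_fourier_mul n (f + g)).coeFn_toLp
    have h2 := (memLp_fourier_mul n f).coeFn_toLp
    have h3 := (memLp_fourier_mul n g).coeFn_toLp
    have h4 := Lp.coeFn_add ((memLp_fourier_mul n f).toLp _) ((memLp_fourier_mul n g).toLp _)
    have h5 := Lp.coeFn_add f g
    filter_upwards [h1, h2, h3, h4, h5] with t e1 e2 e3 e4 e5
    rw [e1, e4, Pi.add_apply, e2, e3, e5, Pi.add_apply, mul_add]
  · intro c f
    apply Lp.ext
    have h1 := (memLp_fourier_mul n (c • f)).coeFn_toLp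
    have h2 := (memLp_fourier_mul n f).coeFn_toLp
    have h4 := Lp.coeFn_smul c ((memLp_fourier_mul n f).toLp _)
    have h5 := Lp.coeFn_smul c f
    filter_upwards [h1, h2, h4, h5] with t e1 e2 e4 e5
    rw [e1, RingHom.id_apply, e4, Pi.smul_apply, e2, e5, Pi.smul_apply, smul_eq_mul, smul_eq_mul]
    ring
  · intro f
    change ‖(memLp_fourier_mul n f).toLp _‖ = ‖f‖
    rw [Lp.norm_toLp, Lp.norm_def]
    congr 1
    apply eLpNorm_congr_norm_ae
    refine Filter.Eventually.of_forall fun t => ?_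
    rw [norm_mul, norm_fourier_apply, one_mul]
  · intro g
    exact (memLp_fourier_mul n g).coeFn_toLp

/-- multiplication by `fourier n` on `L²(𝕋)` -/
noncomputable def mulF (n : ℤ) : LT →ₗᵢ[ℂ] LT := (exists_mulF n).choose

theorem coeFn_mulF (n : ℤ) (g : LT) : (mulF n g : 𝕋 → ℂ) =ᵐ[mT] fun t => fourier n t * g t :=
  (exists_mulF n).choose_spec g

theorem mulF_add (n m : ℤ) (g : LT) : mulF (n + m) g = mulF n (mulF m g) := by
  apply Lp.ext
  filter_upwards [coeFn_mulF (n + m) g, coeFn_mulF n (mulF m g), coeFn_mulF m g] with t e1 e2 e3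
  rw [e1, e2, e3, fourier_add, mul_assoc]

theorem mulF_zero (g : LT) : mulF 0 g = g := by
  apply Lp.ext
  filter_upwards [coeFn_mulF 0 g] with t e1
  rw [e1, fourier_zero, one_mul]

theorem mulF_iterate (n : ℕ) (g : LT) : (mulF 1)^[n] g = mulF n g := by
  induction n with
  | zero =>
    rw [Function.iterate_zero, id, Nat.cast_zero, mulF_zero]
  | succ n ih =>
    rw [Function.iterate_succ_apply', ih, ← mulF_add, Nat.cast_succ, add_comm]

/-- `⟨g, z^n g⟩ = ∫ z^n |g|²` -/
theorem inner_mulF (n : ℤ) (g : LT) :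
    inner ℂ g (mulF n g) = ∫ t, fourier n t * ((‖g t‖ : ℂ) ^ 2) ∂mT := by
  rw [L2.inner_def]
  apply integral_congr_ae
  filter_upwards [coeFn_mulF n g] with t e1
  rw [e1, RCLike.inner_apply', mul_left_comm]
  congr 1
  exact Complex.conj_mul' (g t)

end P130
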