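import Mathlib
import Vale.Agent.Lib.P130.ChirpDefs
import Vale.Agent.Lib.P130.MulF

/-!
# P130: the model vectors on the circle: definitions

Level vector `(n, i, σ)`, `σ = ± 1`, is sent to `e(i t) V_n(t) √2 1_{K^σ_n}(M_n t)`.
-/

open MeasureTheory Filter Topology
open scoped ENNReal ComplexConjugate

namespace P130

/-- the phase of a complex number (`1` at `0`). -/
noncomputable def ph (z : ℂ) : ℂ := if z = 0 then 1 else z / (‖z‖ : ℂ)

theorem norm_ph (z : ℂ) : ‖ph z‖ = 1 := by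
  unfold ph
  split_ifs with h
  · simp
  · rw [norm_div, Complex.norm_real, norm_norm, div_self (norm_ne_zero_iff.2 h)]

theorem conj_ph_mul (z : ℂ) : conj (ph z) * z = (‖z‖ : ℂ) := by
  unfold ph
  split_ifs with h
  · simp [h]
  · have h1 : (‖z‖ : ℂ) ≠ 0 := by
      simpa using h
    rw [map_div₀, Complex.conj_ofReal, div_mul_eq_mul_div, Complex.conj_mul', sq,
      mul_div_assoc, div_self h1, mul_one]

/-- `Ks κ 1 = Kset κ`, `Ks κ (-1)` its complement -/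
def Ks (κ : ℕ) (σ : ℤˣ) : Set 𝕋 := if σ = 1 then Kset κ else (Kset κ)ᶜ

/-- `∑_{j < κL} χ_σ(a_j) e(j s)`. -/
noncomputable def chPs (κ L : ℕ) (σ : ℤˣ) (s : 𝕋) : ℂ :=
  ∑ j ∈ Finset.range (κ * L), fourier (σ : ℤ) (chA κ L j) * fourier (j : ℤ) s

namespace Good

variable {B : Blk} (G : Good B)

/-- `θ_σ(t) = 1_{K'^σ}(M' t) + e((κL) M t) 1_{K'^{-σ}}(M' t)`, `K', M'` at level `n + 1`. -/
noncomputable def theta (n : ℕ) (σ : ℤˣ) (t : 𝕋) : ℂ :=
  (Ks (G.κ (n + 1)) σ).indicator (fun _ => (1 : ℂ)) (B.M (n + 1) • t) +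
    fourier ((G.κ n * G.L n * B.M n : ℕ) : ℤ) t *
      (Ks (G.κ (n + 1)) (-σ)).indicator (fun _ => (1 : ℂ)) (B.M (n + 1) • t)

open Classical in
/-- the accumulated phases -/
noncomputable def V : ℕ → 𝕋 → ℂ
  | 0, _ => 1
  | n + 1, t => V n t * conj (ph (if B.M n • t ∈ Kset (G.κ n) then
      chPs (G.κ n) (G.L n) 1 (B.M n • t) * G.theta n 1 t
      else chPs (G.κ n) (G.L n) (-1) (B.M n • t) * G.theta n (-1) t))

/-- the model vectors, as functions -/
noncomputable def bf (n i : ℕ) (σ : ℤˣ) (t : 𝕋) : ℂ :=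
  fourier (i : ℤ) t * (G.V n t * ((Real.sqrt 2 : ℂ) *
    (Ks (G.κ n) σ).indicator (fun _ => (1 : ℂ)) (B.M n • t)))

end Good

end P130
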