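import Mathlib
import Vale.Agent.Lib.P130.ModelDefs

/-!
# P130: the sets `Kset κ`; integrals of `F (M t)`
-/

open MeasureTheory Filter Topology
open scoped ENNReal ComplexConjugate

namespace P130

/-- every point of the circle has a representative in `[0, 1)`. -/
theorem exists_rep (t : 𝕋) : ∃ x : ℝ, 0 ≤ x ∧ x < 1 ∧ (x : 𝕋) = t := by
  refine ⟨(AddCircle.equivIco 1 0 t : ℝ), (AddCircle.equivIco 1 0 t).2.1, ?_,
    AddCircle.coe_equivIco⟩
  have := (AddCircle.equivIco 1 0 t).2.2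
  linarith

theorem coe_inj {x y : ℝ} (hx0 : 0 ≤ x) (hx1 : x < 1) (hy0 : 0 ≤ y) (hy1 : y < 1)
    (h : (x : 𝕋) = (y : 𝕋)) : x = y := by
  have hx : x ∈ Set.Ico (0 : ℝ) (0 + 1) := ⟨hx0, by rwa [zero_add]⟩
  have hy : y ∈ Set.Ico (0 : ℝ) (0 + 1) := ⟨hy0, by rwa [zero_add]⟩
  exact (AddCircle.coe_eq_coe_iff_of_mem_Ico hx hy).1 h

theorem coe_mem_Ihalf {x : ℝ} (hx0 : 0 ≤ x) (hx1 : x < 1) : (x : 𝕋) ∈ Ihalf ↔ 1 / 2 ≤ x := by
  unfold Ihalf
  constructor
  · rintro ⟨y, hy, hyx⟩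
    have h1 := coe_inj (by linarith [hy.1]) hy.2 hx0 hx1 hyx
    rw [← h1]
    exact hy.1
  · intro h
    exact ⟨x, ⟨h, hx1⟩, rfl⟩

theorem measurableSet_Ihalf : MeasurableSet Ihalf := by
  have h1 : Ihalf = (AddCircle.measurableEquivIco 1 0) ⁻¹'
      {x : Set.Ico (0 : ℝ) (0 + 1) | 1 / 2 ≤ (x : ℝ)} := by
    ext t
    obtain ⟨x, hx0, hx1, rfl⟩ := exists_rep t
    rw [coe_mem_Ihalf hx0 hx1]
    have hx : x ∈ Set.Ico (0 : ℝ) (0 + 1) := ⟨hx0, by rwa [zero_add]⟩
    have h2 : (AddCircle.measurableEquivIco 1 0) (x : 𝕋) = ⟨x, hx⟩ :=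
      AddCircle.equivIco_coe_eq hx
    rw [Set.mem_preimage, h2]
    rfl
  rw [h1]
  exact (AddCircle.measurableEquivIco 1 0).measurable
    (measurable_subtype_coe measurableSet_Ici)

theorem measurableSet_Kset (κ : ℕ) : MeasurableSet (Kset κ) := by
  have h1 : Continuous fun t : 𝕋 => κ • t := continuous_const_smul κ
  exact h1.measurable measurableSet_Ihalf

theorem measurableSet_Ks (κ : ℕ) (σ : ℤˣ) : MeasurableSet (Ks κ σ) := by
  unfold Ks
  split_ifs
  · exact measurableSet_Kset κ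
  · exact (measurableSet_Kset κ).compl

/-- `t ↦ M t` preserves Haar measure for `M ≥ 1`. -/
theorem measurePreserving_nsmul (M : ℕ) (hM : 0 < M) :
    MeasurePreserving (fun t : 𝕋 => M • t) mT mT := by
  have hcont : Continuous (nsmulAddMonoidHom (α := 𝕋) M) := by
    change Continuous fun t : 𝕋 => M • t
    exact continuous_const_smul M
  have hsurj : Function.Surjective (nsmulAddMonoidHom (α := 𝕋) M) := by
    intro t
    obtain ⟨x, -, -, rfl⟩ := exists_rep t
    refine ⟨((x / M : ℝ) : 𝕋), ?_⟩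
    change M • ((x / M : ℝ) : 𝕋) = _
    rw [← AddCircle.coe_nsmul]
    congr 1
    rw [nsmul_eq_mul]
    have : (M : ℝ) ≠ 0 := by exact_mod_cast hM.ne'
    field_simp
  exact AddMonoidHom.measurePreserving (f := nsmulAddMonoidHom (α := 𝕋) M) hcont hsurj rfl

instance instNontrivialT : Nontrivial 𝕋 := by
  refine ⟨⟨((1 / 2 : ℝ) : 𝕋), ((0 : ℝ) : 𝕋), fun h => ?_⟩⟩
  have := coe_inj (x := 1 / 2) (y := 0) (by norm_num) (by norm_num) le_rfl (by norm_num) h
  norm_num at this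

instance instNullSingletonT : NullSingletonClass mT :=
  Measure.IsAddHaarMeasure.nullSingletonClass mT

theorem ae_ne (a : 𝕋) : ∀ᵐ t ∂mT, t ≠ a := by
  have h1 : mT {a} = 0 := measure_singleton a
  rw [← compl_mem_ae_iff] at h1
  filter_upwards [h1] with t ht
  exact ht

theorem neg_Ihalf_ae : ∀ᵐ t ∂mT, (-t ∈ Ihalf ↔ t ∉ Ihalf) := by
  filter_upwards [ae_ne ((0 : ℝ) : 𝕋), ae_ne ((1 / 2 : ℝ) : 𝕋)] with t h0 h1
  obtain ⟨x, hx0, hx1, rfl⟩ := exists_rep t
  have hx0' : x ≠ 0 := fun h => h0 (by rw [h])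
  have hx1' : x ≠ 1 / 2 := fun h => h1 (by rw [h])
  have h2 : -(x : 𝕋) = ((1 - x : ℝ) : 𝕋) := by
    rw [AddCircle.coe_sub, AddCircle.coe_period, zero_sub]
  have h3 : 0 < x := lt_of_le_of_ne hx0 (Ne.symm hx0')
  rw [h2, coe_mem_Ihalf (by linarith) (by linarith), coe_mem_Ihalf hx0 hx1, not_le]
  constructor
  · intro h
    exact lt_of_le_of_ne (by linarith) hx1'
  · intro h
    linarith

/-- `-Kset κ` is the complement of `Kset κ` up to a null set
(`κ t = 0` or `κ t = 1/2` on the exceptional set). -/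
theorem neg_Kset_ae (κ : ℕ) (hκ : 0 < κ) : ∀ᵐ t ∂mT, (-t ∈ Kset κ ↔ t ∉ Kset κ) := by
  have h1 := (measurePreserving_nsmul κ hκ).quasiMeasurePreserving.ae neg_Ihalf_ae
  filter_upwards [h1] with t ht
  rw [← smul_neg] at ht
  exact ht

theorem measure_Kset (κ : ℕ) (hκ : 0 < κ) : mT (Kset κ) = 1 / 2 := by
  have h1 : mT ((fun t => -t) ⁻¹' Kset κ) = mT (Kset κ) :=
    (Measure.measurePreserving_neg mT).measure_preimage (measurableSet_Kset κ).nullMeasurableSet
  have h2 : mT ((fun t => -t) ⁻¹' Kset κ) = mT (Kset κ)ᶜ := by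
    apply measure_congr
    filter_upwards [neg_Kset_ae κ hκ] with t ht
    exact propext ht
  have h3 : mT (Kset κ) + mT (Kset κ)ᶜ = 1 := by
    rw [measure_add_measure_compl (measurableSet_Kset κ), measure_univ]
  rw [← h2, h1, ← two_mul] at h3
  rw [ENNReal.eq_div_iff (by norm_num) (by norm_num)]
  exact h3

theorem measure_Ks (κ : ℕ) (hκ : 0 < κ) (σ : ℤˣ) : mT (Ks κ σ) = 1 / 2 := by
  unfold Ks
  split_ifs
  · exact measure_Kset κ hκ
  · have h3 : mT (Kset κ)ᶜ = mT Set.univ - mT (Kset κ) :=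
      measure_compl (measurableSet_Kset κ) (measure_ne_top _ _)
    rw [h3, measure_univ, measure_Kset κ hκ]
    simp

/-- `∫ e(l t) F(M t) dt = 0` if `M` does not divide `l` (translate by `1/M`). -/
theorem integral_fourier_comp (M : ℕ) (hM : 0 < M) (l : ℤ) (hl : ¬ (M : ℤ) ∣ l) (F : 𝕋 → ℂ) :
    ∫ t, fourier l t * F (M • t) ∂mT = 0 := by
  obtain ⟨s, hs⟩ : ∃ s : 𝕋, s = ((1 / M : ℝ) : 𝕋) := ⟨_, rfl⟩
  have hM0 : (M : ℝ) ≠ 0 := by exact_mod_cast hM.ne'
  have hMs : M • s = 0 := by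
    rw [hs, ← AddCircle.coe_nsmul, nsmul_eq_mul, mul_one_div_cancel hM0]
    exact AddCircle.coe_period 1
  have hne : (fourier l s : ℂ) ≠ 1 := by
    intro h
    rw [fourier_apply] at h
    have h1 : AddCircle.toCircle (l • s) = AddCircle.toCircle (0 : 𝕋) := by
      apply Circle.ext
      rw [h, AddCircle.toCircle_zero]
      rfl
    have h2 := AddCircle.injective_toCircle one_ne_zero h1
    rw [hs, ← AddCircle.coe_zsmul, AddCircle.coe_eq_zero_iff] at h2
    obtain ⟨n, hn⟩ := h2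
    apply hl
    refine ⟨n, ?_⟩
    rw [zsmul_eq_mul, zsmul_eq_mul, mul_one] at hn
    have h3 : (l : ℝ) = M * n := by
      rw [hn]
      field_simp
    exact_mod_cast h3
  have h1 : ∫ t, fourier l t * F (M • t) ∂mT =
      ∫ t, fourier l (t + s) * F (M • (t + s)) ∂mT :=
    (integral_add_right_eq_self (fun t => fourier l t * F (M • t)) s).symm
  have h2 : ∀ t : 𝕋, fourier l (t + s) * F (M • (t + s)) =
      (fourier l s : ℂ) * (fourier l t * F (M • t)) := by
    intro t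
    have h3 : (fourier l (t + s) : ℂ) = fourier l t * fourier l s := by
      rw [fourier_apply, fourier_apply, fourier_apply, smul_add, AddCircle.toCircle_add,
        Circle.coe_mul]
    rw [h3, smul_add, hMs, add_zero]
    ring
  simp_rw [h2] at h1
  rw [integral_const_mul] at h1
  have h4 : (1 - (fourier l s : ℂ)) * ∫ t, fourier l t * F (M • t) ∂mT = 0 := by
    linear_combination h1
  rcases mul_eq_zero.1 h4 with h5 | h5
  · exact absurd (by linear_combination -h5) hne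
  · exact h5

end P130
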