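import Mathlib
import Vale.Agent.Lib.P130.KsetM

/-!
# P130: the model vectors: measurability, moduli, orthonormality
-/

open MeasureTheory Filter Topology
open scoped ENNReal ComplexConjugate

namespace P130

theorem Ks_neg (κ : ℕ) (σ : ℤˣ) : Ks κ (-σ) = (Ks κ σ)ᶜ := by
  rcases Int.units_eq_one_or σ with h | h
  · rw [h]
    unfold Ks
    rw [if_neg (by decide), if_pos rfl]
  · rw [h, neg_neg]
    unfold Ks
    rw [if_pos rfl, if_neg (by decide), compl_compl]

theorem measurable_ph : Measurable ph := by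
  unfold ph
  refine Measurable.ite (measurableSet_singleton 0) measurable_const ?_
  exact measurable_id.div (Complex.measurable_ofReal.comp measurable_norm)

theorem continuous_chPs (κ L : ℕ) (σ : ℤˣ) : Continuous (chPs κ L σ) := by
  unfold chPs
  fun_prop

theorem measurable_smul_T (M : ℕ) : Measurable fun t : 𝕋 => M • t :=
  (continuous_const_smul M : Continuous fun t : 𝕋 => M • t).measurable

theorem norm_fourier_one (n : ℤ) (t : 𝕋) : ‖(fourier n t : ℂ)‖ = 1 := by
  rw [fourier_apply]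
  exact Circle.norm_coe _

namespace Good

variable {B : Blk} (G : Good B)

theorem norm_theta (n : ℕ) (σ : ℤˣ) (t : 𝕋) : ‖G.theta n σ t‖ = 1 := by
  unfold theta
  rw [Ks_neg]
  by_cases h : B.M (n + 1) • t ∈ Ks (G.κ (n + 1)) σ
  · rw [Set.indicator_of_mem h, Set.indicator_of_notMem
      (show B.M (n + 1) • t ∉ (Ks (G.κ (n + 1)) σ)ᶜ from fun h' => h' h), mul_zero, add_zero,
      norm_one]
  · rw [Set.indicator_of_notMem h, Set.indicator_of_mem (show _ ∈ (Ks (G.κ (n + 1)) σ)ᶜ from h),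
      mul_one, zero_add]
    exact norm_fourier_one _ _

theorem norm_V (n : ℕ) (t : 𝕋) : ‖G.V n t‖ = 1 := by
  induction n with
  | zero =>
    unfold V
    exact norm_one
  | succ n ih =>
    unfold V
    rw [norm_mul, ih, one_mul, RCLike.norm_conj, norm_ph]

theorem measurable_theta (n : ℕ) (σ : ℤˣ) : Measurable (G.theta n σ) := by
  unfold theta
  have h1 : ∀ τ : ℤˣ, Measurable fun t : 𝕋 =>
      (Ks (G.κ (n + 1)) τ).indicator (fun _ => (1 : ℂ)) (B.M (n + 1) • t) := fun τ =>
    ((measurable_const.indicator (measurableSet_Ks _ _))).comp (measurable_smul_T _)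
  exact (h1 σ).add (((map_continuous (fourier _)).measurable).mul (h1 (-σ)))

theorem measurable_V (n : ℕ) : Measurable (G.V n) := by
  classical
  induction n with
  | zero =>
    have h0 : G.V 0 = fun _ => 1 := by
      funext t
      rw [V]
    rw [h0]
    exact measurable_const
  | succ n ih =>
    have h1 : ∀ σ : ℤˣ, Measurable fun t : 𝕋 =>
        chPs (G.κ n) (G.L n) σ (B.M n • t) * G.theta n σ t := fun σ =>
      ((continuous_chPs _ _ _).measurable.comp (measurable_smul_T _)).mul (G.measurable_theta n σ)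
    have h2 : MeasurableSet {t : 𝕋 | B.M n • t ∈ Kset (G.κ n)} :=
      measurable_smul_T _ (measurableSet_Kset _)
    have h3 : Measurable fun t : 𝕋 => if B.M n • t ∈ Kset (G.κ n) then
        chPs (G.κ n) (G.L n) 1 (B.M n • t) * G.theta n 1 t
        else chPs (G.κ n) (G.L n) (-1) (B.M n • t) * G.theta n (-1) t :=
      Measurable.ite h2 (h1 1) (h1 (-1))
    have h4 : G.V (n + 1) = fun t => G.V n t * conj (ph (if B.M n • t ∈ Kset (G.κ n) then
        chPs (G.κ n) (G.L n) 1 (B.M n • t) * G.theta n 1 t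
        else chPs (G.κ n) (G.L n) (-1) (B.M n • t) * G.theta n (-1) t)) := by
      funext t
      rw [V]
    rw [h4]
    exact ih.mul (Complex.continuous_conj.measurable.comp (measurable_ph.comp h3))

theorem measurable_bf (n i : ℕ) (σ : ℤˣ) : Measurable (G.bf n i σ) := by
  unfold bf
  refine ((map_continuous (fourier _)).measurable).mul ((G.measurable_V n).mul
    (measurable_const.mul ?_))
  exact ((measurable_const.indicator (measurableSet_Ks _ _))).comp (measurable_smul_T _)

theorem norm_bf (n i : ℕ) (σ : ℤˣ) (t : 𝕋) : ‖G.bf n i σ t‖ =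
    Real.sqrt 2 * (Ks (G.κ n) σ).indicator (fun _ => (1 : ℝ)) (B.M n • t) := by
  unfold bf
  rw [norm_mul, norm_fourier_one, one_mul, norm_mul, G.norm_V, one_mul, norm_mul,
    Complex.norm_real, Real.norm_of_nonneg (Real.sqrt_nonneg _)]
  congr 1
  by_cases h : B.M n • t ∈ Ks (G.κ n) σ
  · rw [Set.indicator_of_mem h, Set.indicator_of_mem h, norm_one]
  · rw [Set.indicator_of_notMem h, Set.indicator_of_notMem h, norm_zero]

theorem memLp_bf (n i : ℕ) (σ : ℤˣ) : MemLp (G.bf n i σ) 2 mT := by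
  refine MemLp.of_bound (G.measurable_bf n i σ).aestronglyMeasurable (Real.sqrt 2) ?_
  refine Filter.Eventually.of_forall fun t => ?_
  rw [G.norm_bf]
  have h1 : (Ks (G.κ n) σ).indicator (fun _ => (1 : ℝ)) (B.M n • t) ≤ 1 :=
    Set.indicator_apply_le' (fun _ => le_rfl) (fun _ => zero_le_one)
  calc _ ≤ Real.sqrt 2 * 1 := mul_le_mul_of_nonneg_left h1 (Real.sqrt_nonneg _)
    _ = Real.sqrt 2 := mul_one _

/-- the model vectors in `L²(𝕋)` -/
noncomputable def b (n i : ℕ) (σ : ℤˣ) : LT := (G.memLp_bf n i σ).toLp (G.bf n i σ)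

theorem coeFn_b (n i : ℕ) (σ : ℤˣ) : (G.b n i σ : 𝕋 → ℂ) =ᵐ[mT] G.bf n i σ :=
  MemLp.coeFn_toLp _

/-- orthonormality: `∫ e((i' - i) t) 2 1_{K^σ}(M t) dt` (`integral_fourier_comp`,
`measure_Ks`, `measurePreserving_nsmul`) -/
theorem orthonormal_b (n : ℕ) :
    Orthonormal ℂ (fun p : Fin (B.M n) × ℤˣ => G.b n p.1 p.2) := by
  classical
  rw [orthonormal_iff_ite]
  rintro ⟨i, σ⟩ ⟨i', σ'⟩
  change (inner ℂ (G.b n i σ) (G.b n i' σ') : ℂ) = _
  rw [L2.inner_def]
  have h1 : ∫ t, (inner ℂ ((G.b n i σ : 𝕋 → ℂ) t) ((G.b n i' σ' : 𝕋 → ℂ) t) : ℂ) ∂mT =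
      ∫ t, conj (G.bf n i σ t) * G.bf n i' σ' t ∂mT := by
    apply integral_congr_ae
    filter_upwards [G.coeFn_b n i σ, G.coeFn_b n i' σ'] with t e1 e2
    rw [e1, e2, RCLike.inner_apply']
  rw [h1]
  have hVV : ∀ t, conj (G.V n t) * G.V n t = 1 := by
    intro t
    rw [Complex.conj_mul', G.norm_V]
    norm_num
  have h22 : ((Real.sqrt 2 : ℝ) : ℂ) * (Real.sqrt 2 : ℝ) = 2 := by
    rw [← Complex.ofReal_mul, Real.mul_self_sqrt (by norm_num)]
    norm_num
  by_cases hσ : σ = σ'
  · subst hσ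
    have h2 : ∀ t, conj (G.bf n i σ t) * G.bf n i' σ t =
        fourier (((i' : ℕ) : ℤ) - ((i : ℕ) : ℤ)) t *
          (2 * (Ks (G.κ n) σ).indicator (fun _ => (1 : ℂ)) (B.M n • t)) := by
      intro t
      unfold bf
      have h3 : (((i' : ℕ) : ℤ) - ((i : ℕ) : ℤ)) = -((i : ℕ) : ℤ) + ((i' : ℕ) : ℤ) := by ring
      rw [h3, fourier_add, fourier_neg, map_mul, map_mul, map_mul, Complex.conj_ofReal]
      by_cases h : B.M n • t ∈ Ks (G.κ n) σ
      · rw [Set.indicator_of_mem h, map_one, mul_one, mul_one]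
        linear_combination (conj (fourier ((i : ℕ) : ℤ) t : ℂ) * fourier ((i' : ℕ) : ℤ) t) *
          (((Real.sqrt 2 : ℝ) : ℂ) * (Real.sqrt 2 : ℝ) * hVV t + h22)
      · rw [Set.indicator_of_notMem h, map_zero]
        ring
    simp_rw [h2]
    by_cases hi : i = i'
    · subst hi
      have h4 : ∀ t : 𝕋, fourier (((i : ℕ) : ℤ) - ((i : ℕ) : ℤ)) t *
          (2 * (Ks (G.κ n) σ).indicator (fun _ => (1 : ℂ)) (B.M n • t)) =
          ((fun t : 𝕋 => B.M n • t) ⁻¹' (Ks (G.κ n) σ)).indicator (fun _ => (2 : ℂ)) t := by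
        intro t
        rw [sub_self, fourier_zero, one_mul]
        by_cases h : B.M n • t ∈ Ks (G.κ n) σ
        · rw [Set.indicator_of_mem h, Set.indicator_of_mem
            (show t ∈ (fun t : 𝕋 => B.M n • t) ⁻¹' (Ks (G.κ n) σ) from h), mul_one]
        · rw [Set.indicator_of_notMem h, Set.indicator_of_notMem
            (show t ∉ (fun t : 𝕋 => B.M n • t) ⁻¹' (Ks (G.κ n) σ) from h), mul_zero]
      simp_rw [h4]
      have hmp := measurePreserving_nsmul (B.M n) (B.M_pos n)
      rw [integral_indicator (hmp.measurable (measurableSet_Ks _ _)), setIntegral_const,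
        Measure.real, hmp.measure_preimage (measurableSet_Ks _ _).nullMeasurableSet,
        measure_Ks _ (by have := G.hκ n; omega)]
      simp
    · rw [if_neg (fun h => hi (congrArg Prod.fst h))]
      refine integral_fourier_comp (B.M n) (B.M_pos n) _ ?_
        (fun s => 2 * (Ks (G.κ n) σ).indicator (fun _ => (1 : ℂ)) s)
      intro hdvd
      have h5 : ((i : ℕ) : ℤ) < B.M n := by exact_mod_cast i.2
      have h6 : ((i' : ℕ) : ℤ) < B.M n := by exact_mod_cast i'.2
      have h7 : (((i' : ℕ) : ℤ) - ((i : ℕ) : ℤ)) = 0 := by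
        refine Int.eq_zero_of_abs_lt_dvd hdvd ?_
        rw [abs_lt]
        constructor
        · have := Int.natCast_nonneg (i' : ℕ)
          omega
        · have := Int.natCast_nonneg (i : ℕ)
          omega
      exact hi (Fin.ext (by omega))
  · rw [if_neg (fun h => hσ (congrArg Prod.snd h))]
    have h2 : ∀ t, conj (G.bf n i σ t) * G.bf n i' σ' t = 0 := by
      intro t
      have h3 : σ' = -σ := by
        rcases Int.units_eq_one_or σ with h | h <;> rcases Int.units_eq_one_or σ' with h' | h'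
        · exact absurd (h.trans h'.symm) hσ
        · rw [h, h']
        · rw [h, h', neg_neg]
        · exact absurd (h.trans h'.symm) hσ
      unfold bf
      rw [h3, Ks_neg]
      by_cases h : B.M n • t ∈ Ks (G.κ n) σ
      · rw [Set.indicator_of_notMem (show B.M n • t ∉ (Ks (G.κ n) σ)ᶜ from fun h' => h' h)]
        ring
      · rw [Set.indicator_of_notMem h]
        simp
    simp_rw [h2]
    exact integral_zero _ _

theorem mulF_b (n i : ℕ) (σ : ℤˣ) : mulF 1 (G.b n i σ) = G.b n (i + 1) σ := by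
  apply Lp.ext
  filter_upwards [coeFn_mulF 1 (G.b n i σ), G.coeFn_b n i σ, G.coeFn_b n (i + 1) σ]
    with t e1 e2 e3
  rw [e1, e2, e3]
  unfold bf
  rw [← mul_assoc, ← fourier_add]
  congr 3
  push_cast
  ring

theorem sum_sq_b (n : ℕ) : ∀ᵐ t ∂mT, ‖G.b n 0 1 t‖ ^ 2 + ‖G.b n 0 (-1) t‖ ^ 2 = 2 := by
  filter_upwards [G.coeFn_b n 0 1, G.coeFn_b n 0 (-1)] with t e1 e2
  rw [e1, e2, G.norm_bf, G.norm_bf, Ks_neg]
  have h2 : Real.sqrt 2 ^ 2 = 2 := Real.sq_sqrt (by norm_num)
  by_cases h : B.M n • t ∈ Ks (G.κ n) 1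
  · rw [Set.indicator_of_mem h, Set.indicator_of_notMem
      (show B.M n • t ∉ (Ks (G.κ n) 1)ᶜ from fun h' => h' h), mul_one, mul_zero, h2]
    norm_num
  · rw [Set.indicator_of_notMem h, Set.indicator_of_mem
      (show B.M n • t ∈ (Ks (G.κ n) 1)ᶜ from h), mul_one, mul_zero, h2]
    norm_num

end Good

end P130
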