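import Mathlib
import Vale.Agent.Lib.P130.ModelA

/-!
# P130: the model vectors: approximate refinement

Pointwise, with `m = 2 κ L`, `M = M_n`,
`∑_{j < m} χ_σ(a_j) bf (n+1) (j M + i) (s_j σ) t = e(i t) V_{n+1}(t) √2 P_σ(M t) θ_σ(t)`
(split `j < κL`, `j = j' + κL`: `a_{j'+κL} = a_{j'}`, `s = 1`, resp. `-1`), so that
`‖bf n i σ t - m^{-1/2} ∑ ...‖ = √2 | |P_σ(M t)|/√m - 1_{K^σ}(M t) |` by the choice of `V_{n+1}`
(`conj_ph_mul`).  Since `|P_{-1}(s)| = |P_1(-s)|` and `1_{K^{-1}}(s) = 1_K(-s)` a.e., the square of the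
`L²` norm is `2 flatErr (κ n) (L n)` for both signs (`measurePreserving_nsmul`, invariance of Haar
measure under negation).
-/

open MeasureTheory Filter Topology
open scoped ENNReal ComplexConjugate

namespace P130

theorem fourier_mul_nsmul (j M : ℕ) (t : 𝕋) :
    (fourier ((j * M : ℕ) : ℤ) t : ℂ) = fourier (j : ℤ) (M • t) := by
  rw [fourier_apply, fourier_apply]
  congr 2
  rw [natCast_zsmul, natCast_zsmul, smul_smul]

theorem chA_add (κ L j : ℕ) : chA κ L (κ * L + j) = chA κ L j := by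
  unfold chA
  rw [Nat.add_mod_left]

theorem norm_chPs_neg (κ L : ℕ) (s : 𝕋) : ‖chPs κ L (-1) s‖ = ‖chP κ L (-s)‖ := by
  have h1 : chPs κ L (-1) s = conj (chP κ L (-s)) := by
    unfold chPs chP
    rw [map_sum]
    refine Finset.sum_congr rfl fun j _ => ?_
    rw [map_mul, ← fourier_neg, ← fourier_neg]
    congr 1
    rw [fourier_apply, fourier_apply]
    congr 2
    rw [neg_smul, smul_neg, neg_neg]
  rw [h1, RCLike.norm_conj]

theorem chPs_one (κ L : ℕ) (s : 𝕋) : chPs κ L 1 s = chP κ L s := rfl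

namespace Good

variable {B : Blk} (G : Good B)

theorem sum_bf (n i : ℕ) (σ : ℤˣ) (t : 𝕋) :
    ∑ j ∈ Finset.range (B.m n), fourier (σ : ℤ) (B.a n j) *
      G.bf (n + 1) (j * B.M n + i) (B.s n j * σ) t =
    fourier (i : ℤ) t * (G.V (n + 1) t * ((Real.sqrt 2 : ℂ) *
      (chPs (G.κ n) (G.L n) σ (B.M n • t) * G.theta n σ t))) := by
  obtain ⟨P, hP⟩ : ∃ P, P = G.κ n * G.L n := ⟨_, rfl⟩
  have hm : B.m n = P + P := by
    rw [G.hm, hP]
    ring
  rw [hm, Finset.sum_range_add]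
  have h1 : ∀ j ∈ Finset.range P, (fourier (σ : ℤ) (B.a n j) : ℂ) *
      G.bf (n + 1) (j * B.M n + i) (B.s n j * σ) t =
      (fourier (σ : ℤ) (chA (G.κ n) (G.L n) j) * fourier (j : ℤ) (B.M n • t)) *
      (fourier (i : ℤ) t * (G.V (n + 1) t * ((Real.sqrt 2 : ℂ) *
        (Ks (G.κ (n + 1)) σ).indicator (fun _ => (1 : ℂ)) (B.M (n + 1) • t)))) := by
    intro j hj
    have hs : B.s n j = 1 := by
      rw [G.hs]
      unfold chS
      rw [if_pos]
      rw [← hP]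
      exact Finset.mem_range.1 hj
    rw [hs, one_mul, G.ha]
    unfold bf
    rw [Nat.cast_add, fourier_add, fourier_mul_nsmul]
    ring
  have h2 : ∀ j ∈ Finset.range P, (fourier (σ : ℤ) (B.a n (P + j)) : ℂ) *
      G.bf (n + 1) ((P + j) * B.M n + i) (B.s n (P + j) * σ) t =
      (fourier (σ : ℤ) (chA (G.κ n) (G.L n) j) * fourier (j : ℤ) (B.M n • t)) *
      (fourier (i : ℤ) t * (G.V (n + 1) t * ((Real.sqrt 2 : ℂ) *
        (fourier ((P * B.M n : ℕ) : ℤ) t *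
        (Ks (G.κ (n + 1)) (-σ)).indicator (fun _ => (1 : ℂ)) (B.M (n + 1) • t))))) := by
    intro j hj
    have hs : B.s n (P + j) = -1 := by
      rw [G.hs]
      unfold chS
      rw [if_neg]
      rw [← hP]
      omega
    rw [hs, neg_one_mul, G.ha, hP, chA_add]
    unfold bf
    rw [Nat.cast_add, fourier_add, add_mul, Nat.cast_add, fourier_add, fourier_mul_nsmul j]
    ring
  rw [Finset.sum_congr rfl h1, Finset.sum_congr rfl h2, ← Finset.sum_mul, ← Finset.sum_mul]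
  unfold chPs theta
  rw [← hP]
  ring

theorem norm_diff (n i : ℕ) (σ : ℤˣ) (t : 𝕋) :
    ‖G.bf n i σ t - ((Real.sqrt (B.m n) : ℂ)⁻¹) * ∑ j ∈ Finset.range (B.m n),
      fourier (σ : ℤ) (B.a n j) * G.bf (n + 1) (j * B.M n + i) (B.s n j * σ) t‖ =
    Real.sqrt 2 * |‖chPs (G.κ n) (G.L n) σ (B.M n • t)‖ / Real.sqrt (B.m n) -
      (Ks (G.κ n) σ).indicator (fun _ => (1 : ℝ)) (B.M n • t)| := by
  rw [G.sum_bf]
  have hs : 0 < Real.sqrt (B.m n) := Real.sqrt_pos.2 (by exact_mod_cast B.m_pos n)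
  obtain ⟨z, hz⟩ : ∃ z, z = chPs (G.κ n) (G.L n) σ (B.M n • t) * G.theta n σ t := ⟨_, rfl⟩
  have hzn : ‖z‖ = ‖chPs (G.κ n) (G.L n) σ (B.M n • t)‖ := by
    rw [hz, norm_mul, G.norm_theta, mul_one]
  rw [← hz]
  unfold bf
  by_cases h : B.M n • t ∈ Ks (G.κ n) σ
  · have hV : G.V (n + 1) t * z = G.V n t * (‖z‖ : ℂ) := by
      have h1 : G.V (n + 1) t = G.V n t * conj (ph z) := by
        rw [V]
        congr 3
        rcases Int.units_eq_one_or σ with hσ | hσ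
        · have h2 : B.M n • t ∈ Kset (G.κ n) := by
            rw [hσ] at h
            unfold Ks at h
            rwa [if_pos rfl] at h
          rw [if_pos h2, hz, hσ]
        · have h2 : B.M n • t ∉ Kset (G.κ n) := by
            rw [hσ] at h
            unfold Ks at h
            rwa [if_neg (by decide)] at h
          rw [if_neg h2, hz, hσ]
      rw [h1, mul_assoc, conj_ph_mul]
    rw [Set.indicator_of_mem h, Set.indicator_of_mem h, ← hzn]
    have h3 : fourier (i : ℤ) t * (G.V n t * (((Real.sqrt 2 : ℝ) : ℂ) * 1)) -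
        ((Real.sqrt (B.m n) : ℝ) : ℂ)⁻¹ * (fourier (i : ℤ) t * (G.V (n + 1) t *
          (((Real.sqrt 2 : ℝ) : ℂ) * z))) =
        (fourier (i : ℤ) t * G.V n t) * (((Real.sqrt 2 : ℝ) : ℂ) *
          ((1 - ‖z‖ / Real.sqrt (B.m n) : ℝ) : ℂ)) := by
      have h4 : ((Real.sqrt (B.m n) : ℝ) : ℂ)⁻¹ * (fourier (i : ℤ) t * (G.V (n + 1) t *
          (((Real.sqrt 2 : ℝ) : ℂ) * z))) = ((Real.sqrt (B.m n) : ℝ) : ℂ)⁻¹ *
          (fourier (i : ℤ) t * (((Real.sqrt 2 : ℝ) : ℂ) * (G.V (n + 1) t * z))) := by ring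
      rw [h4, hV]
      push_cast
      ring
    rw [h3, norm_mul, norm_mul, norm_fourier_one, G.norm_V, one_mul, one_mul, norm_mul,
      Complex.norm_real, Complex.norm_real, Real.norm_of_nonneg (Real.sqrt_nonneg _),
      Real.norm_eq_abs, abs_sub_comm]
  · rw [Set.indicator_of_notMem h, Set.indicator_of_notMem h, mul_zero, mul_zero, mul_zero,
      zero_sub, norm_neg, sub_zero, norm_mul, norm_mul, norm_mul, norm_mul, norm_fourier_one,
      G.norm_V, one_mul, one_mul, norm_inv, Complex.norm_real, Complex.norm_real,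
      Real.norm_of_nonneg (Real.sqrt_nonneg _), Real.norm_of_nonneg (Real.sqrt_nonneg _), hzn,
      abs_of_nonneg (by positivity)]
    field_simp

theorem flat_integral (n : ℕ) (σ : ℤˣ) :
    ∫ s, (‖chPs (G.κ n) (G.L n) σ s‖ / Real.sqrt (B.m n) -
      (Ks (G.κ n) σ).indicator (fun _ => (1 : ℝ)) s) ^ 2 ∂mT = flatErr (G.κ n) (G.L n) := by
  have hm : ((B.m n : ℕ) : ℝ) = 2 * G.κ n * G.L n := by
    rw [G.hm]
    push_cast
    ring
  rw [hm]
  rcases Int.units_eq_one_or σ with hσ | hσ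
  · rw [hσ]
    rfl
  · rw [hσ]
    unfold flatErr
    rw [← integral_neg_eq_self (fun t => (‖chP (G.κ n) (G.L n) t‖ /
      Real.sqrt (2 * (G.κ n : ℝ) * (G.L n : ℝ)) -
      (Kset (G.κ n)).indicator (fun _ => (1 : ℝ)) t) ^ 2) mT]
    apply integral_congr_ae
    filter_upwards [neg_Kset_ae (G.κ n) (by have := G.hκ n; omega)] with s hs
    rw [norm_chPs_neg]
    congr 2
    have hK : Ks (G.κ n) (-1) = (Kset (G.κ n))ᶜ := by
      unfold Ks
      rw [if_neg (by decide)]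
    rw [hK]
    by_cases h : s ∈ Kset (G.κ n)
    · rw [Set.indicator_of_notMem (show s ∉ (Kset (G.κ n))ᶜ from fun h' => h' h),
        Set.indicator_of_notMem (fun h' => hs.1 h' h)]
    · rw [Set.indicator_of_mem (show s ∈ (Kset (G.κ n))ᶜ from h),
        Set.indicator_of_mem (hs.2 h)]

theorem refine_b (n i : ℕ) (σ : ℤˣ) :
    ‖G.b n i σ - ((Real.sqrt (B.m n) : ℂ)⁻¹) • ∑ j ∈ Finset.range (B.m n),
      (fourier (σ : ℤ) (B.a n j) : ℂ) • G.b (n + 1) (j * B.M n + i) (B.s n j * σ)‖ *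
      (2 * B.M n) ≤ (1 / 2) ^ n := by
  obtain ⟨d, hd⟩ : ∃ d : LT, d = G.b n i σ - ((Real.sqrt (B.m n) : ℂ)⁻¹) •
      ∑ j ∈ Finset.range (B.m n),
      (fourier (σ : ℤ) (B.a n j) : ℂ) • G.b (n + 1) (j * B.M n + i) (B.s n j * σ) := ⟨_, rfl⟩
  rw [← hd]
  have hco : (d : 𝕋 → ℂ) =ᵐ[mT] fun t => G.bf n i σ t - ((Real.sqrt (B.m n) : ℂ)⁻¹) *
      ∑ j ∈ Finset.range (B.m n),
      fourier (σ : ℤ) (B.a n j) * G.bf (n + 1) (j * B.M n + i) (B.s n j * σ) t := by
    have h1 := Lp.coeFn_sub (G.b n i σ) (((Real.sqrt (B.m n) : ℂ)⁻¹) •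
      ∑ j ∈ Finset.range (B.m n),
      (fourier (σ : ℤ) (B.a n j) : ℂ) • G.b (n + 1) (j * B.M n + i) (B.s n j * σ))
    have h2 := Lp.coeFn_smul ((Real.sqrt (B.m n) : ℂ)⁻¹) (∑ j ∈ Finset.range (B.m n),
      (fourier (σ : ℤ) (B.a n j) : ℂ) • G.b (n + 1) (j * B.M n + i) (B.s n j * σ))
    have h3 : ((∑ j ∈ Finset.range (B.m n), (fourier (σ : ℤ) (B.a n j) : ℂ) •
        G.b (n + 1) (j * B.M n + i) (B.s n j * σ) : LT) : 𝕋 → ℂ) =ᵐ[mT]
        fun t => ∑ j ∈ Finset.range (B.m n),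
        fourier (σ : ℤ) (B.a n j) * G.bf (n + 1) (j * B.M n + i) (B.s n j * σ) t := by
      have h4 := Lp.coeFn_finsetSum (Finset.range (B.m n)) (fun j =>
        (fourier (σ : ℤ) (B.a n j) : ℂ) • G.b (n + 1) (j * B.M n + i) (B.s n j * σ))
      have h5 : ∀ᵐ t ∂mT, ∀ j : ℕ, (((fourier (σ : ℤ) (B.a n j) : ℂ) •
          G.b (n + 1) (j * B.M n + i) (B.s n j * σ) : LT) : 𝕋 → ℂ) t =
          fourier (σ : ℤ) (B.a n j) * G.bf (n + 1) (j * B.M n + i) (B.s n j * σ) t := by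
        rw [ae_all_iff]
        intro j
        filter_upwards [Lp.coeFn_smul (fourier (σ : ℤ) (B.a n j) : ℂ)
          (G.b (n + 1) (j * B.M n + i) (B.s n j * σ)),
          G.coeFn_b (n + 1) (j * B.M n + i) (B.s n j * σ)] with t e1 e2
        rw [e1, Pi.smul_apply, e2, smul_eq_mul]
      filter_upwards [h4, h5] with t e4 e5
      rw [e4, Finset.sum_apply]
      exact Finset.sum_congr rfl fun j _ => e5 j
    rw [hd]
    filter_upwards [h1, h2, h3, G.coeFn_b n i σ] with t e1 e2 e3 e4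
    rw [e1, Pi.sub_apply, e2, Pi.smul_apply, e3, e4, smul_eq_mul]
  have h1 : ‖d‖ ^ 2 = 2 * flatErr (G.κ n) (G.L n) := by
    have h2 : ‖d‖ ^ 2 = ∫ t, ‖(d : 𝕋 → ℂ) t‖ ^ 2 ∂mT := by
      rw [← @inner_self_eq_norm_sq ℂ, L2.inner_def, ← integral_re]
      · apply integral_congr_ae
        exact Filter.Eventually.of_forall fun t => by
          simp only [inner_self_eq_norm_sq]
      · exact L2.integrable_inner _ _
    have h3 : ∫ t, ‖(d : 𝕋 → ℂ) t‖ ^ 2 ∂mT = ∫ t : 𝕋, (fun s : 𝕋 => 2 *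
        (‖chPs (G.κ n) (G.L n) σ s‖ / Real.sqrt (B.m n) -
        (Ks (G.κ n) σ).indicator (fun _ => (1 : ℝ)) s) ^ 2) (B.M n • t) ∂mT := by
      apply integral_congr_ae
      filter_upwards [hco] with t e1
      rw [e1, G.norm_diff, mul_pow, sq_abs, Real.sq_sqrt (by norm_num)]
    have hmp := measurePreserving_nsmul (B.M n) (B.M_pos n)
    have hmeas : AEStronglyMeasurable (fun s : 𝕋 => 2 *
        (‖chPs (G.κ n) (G.L n) σ s‖ / Real.sqrt (B.m n) -
        (Ks (G.κ n) σ).indicator (fun _ => (1 : ℝ)) s) ^ 2) mT := by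
      have h6 : Measurable fun s : 𝕋 => ‖chPs (G.κ n) (G.L n) σ s‖ :=
        (continuous_chPs _ _ _).norm.measurable
      have h7 : Measurable fun s : 𝕋 => (Ks (G.κ n) σ).indicator (fun _ => (1 : ℝ)) s :=
        measurable_const.indicator (measurableSet_Ks _ _)
      exact (((h6.div_const _).sub h7).pow_const 2 |>.const_mul 2).aestronglyMeasurable
    have h8 := integral_map hmp.measurable.aemeasurable (hmp.map_eq.symm ▸ hmeas)
    rw [hmp.map_eq] at h8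
    rw [h2, h3, ← h8, integral_const_mul, G.flat_integral]
  have h9 := G.hflat n
  have hM : (0 : ℝ) < B.M n := by exact_mod_cast B.M_pos n
  have h10 : (‖d‖ * (2 * B.M n)) ^ 2 ≤ ((1 / 2 : ℝ) ^ n) ^ 2 := by
    have h11 : (‖d‖ * (2 * B.M n)) ^ 2 = 8 * ((B.M n : ℝ) ^ 2 * flatErr (G.κ n) (G.L n)) := by
      rw [mul_pow, h1]
      ring
    have h12 : ((1 / 2 : ℝ) ^ n) ^ 2 = (1 / 4) ^ n := by
      rw [← pow_mul, mul_comm n 2, pow_mul]
      norm_num
    rw [h11, h12]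
    linarith
  exact (sq_le_sq₀ (by positivity) (by positivity)).1 h10

end Good

end P130
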