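import Mathlib
import Vale.Agent.Lib.P130.Defs

/-!
# P130: the odometer group: topology, Haar measure, level sets
-/

open MeasureTheory Filter Topology
open scoped ENNReal

namespace P130

namespace Blk

variable (B : Blk)

theorem isClosed_odo : IsClosed (B.odo : Set (∀ n, ZMod (B.M n))) := by
  have h : (B.odo : Set (∀ n, ZMod (B.M n))) =
      ⋂ n, {x | ZMod.castHom (B.M_dvd_succ n) (ZMod (B.M n)) (x (n + 1)) = x n} := by
    ext x
    simp [odo]
  rw [h]
  refine isClosed_iInter fun n => isClosed_eq ?_ (continuous_apply n)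
  exact (continuous_of_discreteTopology).comp (continuous_apply (n + 1))

instance : CompactSpace B.X := isCompact_iff_compactSpace.1 B.isClosed_odo.isCompact

instance : PolishSpace B.X := B.isClosed_odo.polishSpace

instance : SecondCountableTopology B.X := inferInstance

/-- Haar probability measure on the odometer -/
noncomputable def muX : Measure B.X := Measure.addHaarMeasure ⊤

instance : IsProbabilityMeasure B.muX := ⟨Measure.addHaarMeasure_self⟩

instance : B.muX.IsAddHaarMeasure := by
  unfold muX
  infer_instance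

/-- the measure on the phase space -/
noncomputable def mu : Measure B.Y := B.muX.prod mT

instance : IsProbabilityMeasure B.mu := by
  unfold mu
  infer_instance

instance : StandardBorelSpace B.Y := inferInstance

theorem coord_eq (n : ℕ) (x : B.X) : x.1 n = ((B.idx n x : ℕ) : ZMod (B.M n)) :=
  (ZMod.natCast_zmod_val (x.1 n)).symm

theorem idx_of_coord (n : ℕ) (x : B.X) (k : ℕ) (h : x.1 n = (k : ZMod (B.M n))) :
    B.idx n x = k % B.M n := by
  unfold idx
  rw [h, ZMod.val_natCast]

theorem idx_succ_mod (n : ℕ) (x : B.X) : B.idx (n + 1) x % B.M n = B.idx n x := by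
  symm
  apply B.idx_of_coord
  have h1 := x.2 n
  rw [B.coord_eq (n + 1) x, map_natCast] at h1
  exact h1.symm

theorem idx_mod {n N : ℕ} (h : n ≤ N) (x : B.X) : B.idx N x % B.M n = B.idx n x := by
  induction N, h using Nat.le_induction with
  | base => exact Nat.mod_eq_of_lt (B.idx_lt n x)
  | succ N hN ih =>
    rw [← ih, ← B.idx_succ_mod N x, Nat.mod_mod_of_dvd _ (B.M_dvd hN)]

theorem one_coord (n : ℕ) : B.one.1 n = 1 := rfl

theorem nsmul_one_coord (n h : ℕ) : (h • B.one).1 n = (h : ZMod (B.M n)) := by
  rw [AddSubgroup.coe_nsmul, Pi.smul_apply, B.one_coord, nsmul_eq_mul, mul_one]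

/-- `idx n (x - h) = idx n x - h mod M n`, in the form: if `h ≤ M n` then
`idx n (x - h) = (idx n x + (M n - h)) % M n`. -/
theorem idx_sub_nsmul (n : ℕ) (x : B.X) (h : ℕ) (hh : h ≤ B.M n) :
    B.idx n (x - h • B.one) = (B.idx n x + (B.M n - h)) % B.M n := by
  apply B.idx_of_coord
  rw [AddSubgroup.coe_sub, Pi.sub_apply, B.nsmul_one_coord, B.coord_eq n x, Nat.cast_add,
    Nat.cast_sub hh, ZMod.natCast_self, zero_sub, sub_eq_add_neg]

theorem idx_add_nsmul (n : ℕ) (x : B.X) (h : ℕ) :
    B.idx n (x + h • B.one) = (B.idx n x + h) % B.M n := by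
  apply B.idx_of_coord
  rw [AddSubgroup.coe_add, Pi.add_apply, B.nsmul_one_coord, B.coord_eq n x, Nat.cast_add]

theorem idx_sub_one (n : ℕ) (x : B.X) (h : B.idx n x ≠ 0) :
    B.idx n (x - B.one) = B.idx n x - 1 := by
  have h1 := B.idx_sub_nsmul n x 1 (B.M_pos n)
  have h2 := B.idx_lt n x
  have h3 : B.idx n x + (B.M n - 1) = (B.idx n x - 1) + B.M n := by
    have := B.M_pos n
    omega
  rw [one_smul, h3, Nat.add_mod_right, Nat.mod_eq_of_lt (by omega)] at h1
  exact h1

theorem idx_sub_one_zero (n : ℕ) (x : B.X) (h : B.idx n x = 0) :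
    B.idx n (x - B.one) = B.M n - 1 := by
  have h1 := B.idx_sub_nsmul n x 1 (B.M_pos n)
  have h4 := B.M_pos n
  rw [one_smul, h, zero_add, Nat.mod_eq_of_lt (by omega)] at h1
  exact h1

theorem continuous_idx (n : ℕ) : Continuous (B.idx n) := by
  have h1 : Continuous fun z : ZMod (B.M n) => z.val := continuous_of_discreteTopology
  exact h1.comp ((continuous_apply n).comp continuous_subtype_val)

theorem measurable_idx (n : ℕ) : Measurable (B.idx n) := (B.continuous_idx n).measurable

/-- points of the odometer are separated by the `idx n`. -/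
theorem ext_idx {x y : B.X} (h : ∀ n, B.idx n x = B.idx n y) : x = y := by
  apply Subtype.ext
  funext n
  exact ZMod.val_injective _ (h n)

/-- each level has measure `1 / M n` (invariance of Haar measure). -/
theorem muX_idx (n i : ℕ) (hi : i < B.M n) :
    B.muX {x | B.idx n x = i} = ((B.M n : ℝ≥0∞))⁻¹ := by
  have hmeas : ∀ j : ℕ, MeasurableSet {x : B.X | B.idx n x = j} := fun j =>
    B.measurable_idx n (measurableSet_singleton j)
  have htr : ∀ j, j < B.M n → B.muX {x | B.idx n x = j} = B.muX {x | B.idx n x = 0} := by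
    intro j hj
    have h1 : (fun x : B.X => x + j • B.one) ⁻¹' {x | B.idx n x = j} = {x | B.idx n x = 0} := by
      ext x
      simp only [Set.mem_preimage, Set.mem_ofPred_eq]
      rw [B.idx_add_nsmul]
      have h2 := B.idx_lt n x
      constructor
      · intro h3
        by_contra h4
        rcases lt_or_ge (B.idx n x + j) (B.M n) with h5 | h5
        · rw [Nat.mod_eq_of_lt h5] at h3
          omega
        · rw [Nat.mod_eq_sub_mod h5, Nat.mod_eq_of_lt (by omega)] at h3
          omega
      · intro h3
        rw [h3, zero_add, Nat.mod_eq_of_lt hj]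
    rw [← h1, measure_preimage_add_right]
  have hsum : ∑ j ∈ Finset.range (B.M n), B.muX {x | B.idx n x = j} = 1 := by
    rw [← measure_biUnion_finset]
    · have h1 : (⋃ j ∈ Finset.range (B.M n), {x : B.X | B.idx n x = j}) = Set.univ := by
        ext x
        simp only [Set.mem_iUnion, Finset.mem_range, Set.mem_ofPred_eq, Set.mem_univ, iff_true]
        exact ⟨B.idx n x, B.idx_lt n x, rfl⟩
      rw [h1, measure_univ]
    · intro j _ k _ hjk
      rw [Function.onFun, Set.disjoint_left]
      intro x hx hx'
      exact hjk (hx.symm.trans hx')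
    · intro j _
      exact hmeas j
  rw [Finset.sum_congr rfl fun j hj => htr j (Finset.mem_range.1 hj), Finset.sum_const,
    Finset.card_range, nsmul_eq_mul] at hsum
  rw [htr i hi]
  exact ENNReal.eq_inv_of_mul_eq_one_left (by rw [mul_comm]; exact hsum)

/-- points of the odometer have measure zero -/
instance instNullSingletonX : NullSingletonClass B.muX := by
  refine ⟨fun x => ?_⟩
  have h1 : ∀ n : ℕ, B.muX {x} ≤ ((2 : ℝ≥0∞)⁻¹) ^ n := by
    intro n
    have h2 : B.muX {x} ≤ B.muX {y | B.idx n y = B.idx n x} := by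
      apply measure_mono
      intro y hy
      rw [Set.mem_singleton_iff] at hy
      rw [hy]
      rfl
    refine h2.trans ?_
    rw [B.muX_idx n _ (B.idx_lt n x), ← ENNReal.inv_pow]
    apply ENNReal.inv_le_inv.2
    exact_mod_cast B.two_pow_le_M n
  have h3 : Tendsto (fun n : ℕ => ((2 : ℝ≥0∞)⁻¹) ^ n) atTop (𝓝 0) :=
    ENNReal.tendsto_pow_atTop_nhds_zero_of_lt_one (by
      rw [ENNReal.inv_lt_one]
      exact ENNReal.one_lt_two)
  exact le_antisymm (ge_of_tendsto' h3 h1) zero_le

/-- the measure has no atoms -/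
instance instNullSingleton : NullSingletonClass B.mu := by
  unfold mu
  infer_instance

end Blk

end P130
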