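import Mathlib
import Vale.Agent.Lib.P130.Odo

/-!
# P130: the cocycle and the transformation: algebraic part
-/

open MeasureTheory Filter Topology
open scoped ENNReal

namespace P130

namespace Blk

variable (B : Blk)

theorem mul2_cancel (a b g : 𝕋 × ℤˣ) :
    mul2 (mul2 a g) (inv2 (mul2 b g)) = mul2 a (inv2 b) := by
  rw [inv2_mul2_rev, mul2_assoc, ← mul2_assoc g, mul2_inv2, one_mul2]

theorem A_succ (n i : ℕ) :
    B.A (n + 1) i = mul2 (B.A n (i % B.M n)) (B.a n (i / B.M n), B.s n (i / B.M n)) := rfl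

theorem idx_succ_ne_zero (n : ℕ) (x : B.X) (h : B.idx n x ≠ 0) : B.idx (n + 1) x ≠ 0 := by
  intro h0
  apply h
  rw [← B.idx_succ_mod n x, h0, Nat.zero_mod]

theorem psi_step (n : ℕ) (x : B.X) (h : B.idx n x ≠ 0) :
    mul2 (B.A (n + 1) (B.idx (n + 1) x - 1)) (inv2 (B.A (n + 1) (B.idx (n + 1) x))) =
      mul2 (B.A n (B.idx n x - 1)) (inv2 (B.A n (B.idx n x))) := by
  have hM := B.M_pos n
  have h1 : B.idx (n + 1) x % B.M n = B.idx n x := B.idx_succ_mod n x
  obtain ⟨r, hr⟩ : ∃ r, B.idx n x = r + 1 := Nat.exists_eq_succ_of_ne_zero h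
  obtain ⟨q, hq⟩ : ∃ q, q = B.idx (n + 1) x / B.M n := ⟨_, rfl⟩
  have h2 : B.idx (n + 1) x = B.M n * q + (r + 1) := by
    rw [hq, ← hr, ← h1]
    exact (Nat.div_add_mod _ _).symm
  have hrlt : r + 1 < B.M n := hr ▸ B.idx_lt n x
  have h3 : B.idx (n + 1) x - 1 = B.M n * q + r := by omega
  have e1 : (B.M n * q + r) % B.M n = r := by
    rw [Nat.mul_add_mod, Nat.mod_eq_of_lt (by omega)]
  have e2 : (B.M n * q + r) / B.M n = q := by
    rw [Nat.mul_add_div hM, Nat.div_eq_of_lt (by omega), add_zero]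
  have e3 : (B.M n * q + (r + 1)) % B.M n = r + 1 := by
    rw [Nat.mul_add_mod, Nat.mod_eq_of_lt hrlt]
  have e4 : (B.M n * q + (r + 1)) / B.M n = q := by
    rw [Nat.mul_add_div hM, Nat.div_eq_of_lt hrlt, add_zero]
  rw [h3, h2, B.A_succ, B.A_succ, e1, e2, e3, e4, mul2_cancel, hr, Nat.add_sub_cancel]

theorem psi_step_le {n N : ℕ} (hn : n ≤ N) (x : B.X) (h : B.idx n x ≠ 0) :
    B.idx N x ≠ 0 ∧
    mul2 (B.A N (B.idx N x - 1)) (inv2 (B.A N (B.idx N x))) =
      mul2 (B.A n (B.idx n x - 1)) (inv2 (B.A n (B.idx n x))) := by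
  induction N, hn using Nat.le_induction with
  | base => exact ⟨h, rfl⟩
  | succ N _ ih => exact ⟨B.idx_succ_ne_zero N x ih.1, (B.psi_step N x ih.1).trans ih.2⟩

/-- **Consistency**: `psi x` can be computed from any `n` with `idx n x ≠ 0`.
Proof: let `n₀ = Nat.find`; induction on `n ≥ n₀`.  Going from `n` to `n + 1`: write
`idx (n+1) x = q M_n + r`, `r = idx n x ≠ 0` (`idx_succ_mod`); `A (n+1) (q M_n + r) =
mul2 (A n r) g_q`, `A (n+1) (q M_n + r - 1) = mul2 (A n (r-1)) g_q` and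
`mul2 (mul2 a g) (inv2 (mul2 b g)) = mul2 a (inv2 b)`. -/
theorem psi_eq (n : ℕ) (x : B.X) (h : B.idx n x ≠ 0) :
    B.psi x = mul2 (B.A n (B.idx n x - 1)) (inv2 (B.A n (B.idx n x))) := by
  classical
  have hex : ∃ n, B.idx n x ≠ 0 := ⟨n, h⟩
  have h1 : B.psi x = mul2 (B.A (Nat.find hex) (B.idx (Nat.find hex) x - 1))
      (inv2 (B.A (Nat.find hex) (B.idx (Nat.find hex) x))) := by
    unfold psi
    rw [dif_pos hex]
  rw [h1]
  exact ((B.psi_step_le (Nat.find_min' hex h) x (Nat.find_spec hex)).2).symm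

theorem Tinv_T (y : B.Y) : B.Tinv (B.T y) = y := by
  apply Prod.ext
  · change y.1 - B.one + B.one = y.1
    rw [sub_add_cancel]
  · change act (inv2 (B.psi (y.1 - B.one + B.one))) (act (B.psi y.1) y.2) = y.2
    rw [sub_add_cancel, act_inv2_act]

theorem T_Tinv (y : B.Y) : B.T (B.Tinv y) = y := by
  apply Prod.ext
  · change y.1 + B.one - B.one = y.1
    rw [add_sub_cancel_right]
  · change act (B.psi (y.1 + B.one)) (act (inv2 (B.psi (y.1 + B.one))) y.2) = y.2
    rw [act_act_inv2]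

/-- iterates: if `h ≤ idx n x` then `T^h (x, t) = (x - h, A_n(idx - h) A_n(idx)⁻¹ t)`.
Induction on `h`, using `psi_eq` and `idx_sub_one`. -/
theorem T_iterate (n h : ℕ) (x : B.X) (t : 𝕋) (hh : h ≤ B.idx n x) :
    B.T^[h] (x, t) = (x - h • B.one, act (mul2 (B.A n (B.idx n x - h))
      (inv2 (B.A n (B.idx n x)))) t) := by
  induction h with
  | zero =>
    rw [Function.iterate_zero, id, zero_smul, sub_zero, Nat.sub_zero, mul2_inv2, act_one]
  | succ h ih =>
    have hM := B.idx_lt n x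
    rw [Function.iterate_succ_apply', ih (by omega)]
    have hle : h ≤ B.M n := by omega
    have h1 : B.idx n (x - h • B.one) = B.idx n x - h := by
      rw [B.idx_sub_nsmul n x h hle]
      have h2 : B.idx n x + (B.M n - h) = (B.idx n x - h) + B.M n := by omega
      rw [h2, Nat.add_mod_right, Nat.mod_eq_of_lt (by omega)]
    have h3 : B.idx n (x - h • B.one) ≠ 0 := by
      rw [h1]
      omega
    have h4 := B.psi_eq n _ h3
    rw [h1] at h4
    apply Prod.ext
    · change x - h • B.one - B.one = x - (h + 1) • B.one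
      rw [add_smul, one_smul, sub_sub]
    · change act (B.psi (x - h • B.one)) (act (mul2 (B.A n (B.idx n x - h))
        (inv2 (B.A n (B.idx n x)))) t) = act (mul2 (B.A n (B.idx n x - (h + 1)))
        (inv2 (B.A n (B.idx n x)))) t
      rw [h4, ← act_mul2, mul2_assoc, ← mul2_assoc (inv2 (B.A n (B.idx n x - h))), inv2_mul2,
        one_mul2, Nat.sub_sub]

/-- first coordinate of the iterates -/
theorem T_iterate_fst (h : ℕ) (y : B.Y) : (B.T^[h] y).1 = y.1 - h • B.one := by
  induction h with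
  | zero => rw [Function.iterate_zero, id, zero_smul, sub_zero]
  | succ h ih =>
    rw [Function.iterate_succ_apply']
    change (B.T^[h] y).1 - B.one = _
    rw [ih, add_smul, one_smul, sub_sub]

end Blk

end P130
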