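import Mathlib
import Vale.Agent.Lib.P130.Act
import Vale.Agent.Lib.P130.Cocycle

/-!
# P130: measurability of the cocycle; the transformation preserves the measure
-/

open MeasureTheory Filter Topology
open scoped ENNReal

namespace P130

namespace Blk

variable (B : Blk)

/-- `psi` is the pointwise limit of the functions
`x ↦ if idx n x ≠ 0 then (formula of psi_eq) else (0, 1)` (eventually constant for each `x`, by
`psi_eq` and because `idx n x ≠ 0` persists when `n` grows), each of which depends only on
`idx n x` (`measurable_idx`). -/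
theorem measurable_psi : Measurable B.psi := by
  classical
  obtain ⟨F, hF⟩ : ∃ F : ℕ → B.X → 𝕋 × ℤˣ, ∀ n x, F n x = if B.idx n x ≠ 0 then
      mul2 (B.A n (B.idx n x - 1)) (inv2 (B.A n (B.idx n x))) else (0, 1) :=
    ⟨_, fun _ _ => rfl⟩
  have hFm : ∀ n, Measurable (F n) := by
    intro n
    have h1 : F n = (fun i : ℕ => if i ≠ 0 then
        mul2 (B.A n (i - 1)) (inv2 (B.A n i)) else (0, 1)) ∘ B.idx n := by
      funext x
      rw [hF]
      rfl
    rw [h1]
    exact (measurable_from_nat).comp (B.measurable_idx n)
  have hev : ∀ x, ∃ N, ∀ n, N ≤ n → F n x = B.psi x := by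
    intro x
    by_cases hex : ∃ n, B.idx n x ≠ 0
    · obtain ⟨N, hN⟩ := hex
      refine ⟨N, fun n hn => ?_⟩
      have h1 := (B.psi_step_le hn x hN).1
      rw [hF, if_pos h1, B.psi_eq n x h1]
    · refine ⟨0, fun n _ => ?_⟩
      have h1 : ¬ (B.idx n x ≠ 0) := fun h => hex ⟨n, h⟩
      rw [hF, if_neg h1]
      unfold psi
      rw [dif_neg hex]
  intro S hS
  have h2 : B.psi ⁻¹' S = ⋃ N : ℕ, ⋂ n : ℕ, ⋂ (_ : N ≤ n), F n ⁻¹' S := by
    ext x
    simp only [Set.mem_preimage, Set.mem_iUnion, Set.mem_iInter]
    obtain ⟨N, hN⟩ := hev x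
    constructor
    · intro hx
      refine ⟨N, fun n hn => ?_⟩
      rw [hN n hn]
      exact hx
    · rintro ⟨N', hN'⟩
      have h3 := hN' (max N N') (le_max_right _ _)
      rw [hN _ (le_max_left _ _)] at h3
      exact h3
  rw [h2]
  exact MeasurableSet.iUnion fun N => MeasurableSet.iInter fun n => MeasurableSet.iInter
    fun _ => hFm n hS

theorem measurable_T : Measurable B.T := by
  have h1 : Measurable fun y : B.Y => y.1 - B.one := (continuous_fst.sub
    continuous_const).measurable
  have h2 : Measurable fun y : B.Y => act (B.psi y.1) y.2 :=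
    measurable_act.comp ((B.measurable_psi.comp measurable_fst).prodMk measurable_snd)
  exact h1.prodMk h2

theorem measurable_Tinv : Measurable B.Tinv := by
  have h1 : Measurable fun y : B.Y => y.1 + B.one := (continuous_fst.add
    continuous_const).measurable
  have h2 : Measurable fun y : B.Y => act (inv2 (B.psi (y.1 + B.one))) y.2 :=
    measurable_act.comp ((measurable_inv2.comp (B.measurable_psi.comp h1)).prodMk measurable_snd)
  exact h1.prodMk h2

/-- `T` as a measurable equivalence. -/
noncomputable def Te : B.Y ≃ᵐ B.Y where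
  toFun := B.T
  invFun := B.Tinv
  left_inv := B.Tinv_T
  right_inv := B.T_Tinv
  measurable_toFun := B.measurable_T
  measurable_invFun := B.measurable_Tinv

/-- `MeasurePreserving.skew_product` and invariance of Haar measure under translations. -/
theorem measurePreserving_T : MeasurePreserving B.T B.mu B.mu := by
  have h1 : MeasurePreserving (fun x : B.X => x - B.one) B.muX B.muX :=
    measurePreserving_sub_right B.muX B.one
  have h2 : Measurable (Function.uncurry fun (x : B.X) (t : 𝕋) => act (B.psi x) t) :=
    measurable_act.comp ((B.measurable_psi.comp measurable_fst).prodMk measurable_snd)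
  exact h1.skew_product h2 (Filter.Eventually.of_forall fun x =>
    (measurePreserving_act (B.psi x)).map_eq)

end Blk

end P130
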