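import Mathlib
import Vale.Agent.Lib.P130.CocMeas

/-!
# P130: the Koopman operator and the vectors `e n i k`
-/

open MeasureTheory Filter Topology
open scoped ENNReal

namespace P130

namespace Blk

variable (B : Blk)

/-- the Hilbert space `L²(Y)` -/
abbrev H : Type := Lp ℂ 2 B.mu

/-- the Koopman operator -/
noncomputable def U : B.H →ₗᵢ[ℂ] B.H :=
  Lp.compMeasurePreservingₗᵢ ℂ B.T B.measurePreserving_T

theorem coeFn_U (f : B.H) : (B.U f : B.Y → ℂ) =ᵐ[B.mu] fun y => f (B.T y) :=
  Lp.coeFn_compMeasurePreserving f B.measurePreserving_T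

theorem continuous_E (n i : ℕ) (k : ℤ) : Continuous (B.E n i k) := by
  have h1 : Continuous fun y : B.Y => fourier k (act (inv2 (B.A n i)) y.2) :=
    (map_continuous (fourier k)).comp ((continuous_act _).comp continuous_snd)
  have h2 : Continuous fun y : B.Y => B.idx n y.1 := (B.continuous_idx n).comp continuous_fst
  have h3 : Continuous fun y : B.Y => (if B.idx n y.1 = i then (1 : ℂ) else 0) :=
    (continuous_of_discreteTopology (f := fun j : ℕ => if j = i then (1 : ℂ) else 0)).comp h2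
  have h4 := h3.mul (continuous_const.mul h1 : Continuous fun y : B.Y =>
    (Real.sqrt (B.M n) : ℂ) * fourier k (act (inv2 (B.A n i)) y.2))
  refine h4.congr fun y => ?_
  rw [Pi.mul_apply]
  unfold E
  by_cases h : B.idx n y.1 = i
  · rw [if_pos h, if_pos h, one_mul]
    rfl
  · rw [if_neg h, if_neg h, zero_mul]

/-- `E n i k` as a continuous function -/
noncomputable def EC (n i : ℕ) (k : ℤ) : C(B.Y, ℂ) := ⟨B.E n i k, B.continuous_E n i k⟩

/-- `E n i k` as an element of `L²`. -/
noncomputable def e (n i : ℕ) (k : ℤ) : B.H := ContinuousMap.toLp 2 B.mu ℂ (B.EC n i k)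

theorem coeFn_e (n i : ℕ) (k : ℤ) : (B.e n i k : B.Y → ℂ) =ᵐ[B.mu] B.E n i k :=
  ContinuousMap.coeFn_toLp B.mu (B.EC n i k)

/-- the span at level `n` -/
noncomputable def Hn (n : ℕ) (k : ℕ) : Submodule ℂ B.H :=
  Submodule.span ℂ {f | ∃ (i : ℕ) (κ : ℤ), i < B.M n ∧ κ.natAbs = k ∧ f = B.e n i κ}

/-- the closed subspace `H_k` -/
noncomputable def Hk (k : ℕ) : Submodule ℂ B.H := (⨆ n, B.Hn n k).topologicalClosure

/-- `f` is a mixing vector -/
def Mix (f : B.H) : Prop := Tendsto (fun h : ℕ => inner ℂ f (B.U^[h] f)) atTop (𝓝 0)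

end Blk

end P130
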