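import Mathlib
import Vale.Agent.Lib.P130.Hilb

/-!
# P130: weak convergence to zero of one level of the towers
-/

open MeasureTheory Filter Topology
open scoped ENNReal

namespace P130

namespace Blk

variable (B : Blk)

/-- the level `i` of tower `n`, as a subset of `Y` -/
def lev (n i : ℕ) : Set B.Y := {y | B.idx n y.1 = i}

theorem measurableSet_lev (n i : ℕ) : MeasurableSet (B.lev n i) :=
  ((B.measurable_idx n).comp measurable_fst) (measurableSet_singleton i)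

theorem mu_lev_le (n i : ℕ) : B.mu.real (B.lev n i) ≤ ((B.M n : ℝ))⁻¹ := by
  have h1 : B.lev n i = {x : B.X | B.idx n x = i} ×ˢ Set.univ := by
    ext y
    simp [lev]
  unfold Measure.real
  rw [h1, mu, Measure.prod_prod, measure_univ, mul_one]
  by_cases hi : i < B.M n
  · rw [B.muX_idx n i hi, ENNReal.toReal_inv, ENNReal.toReal_natCast]
  · have h2 : {x : B.X | B.idx n x = i} = ∅ := by
      ext x
      simp only [Set.mem_ofPred_eq, Set.mem_empty_iff_false, iff_false]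
      intro h
      exact hi (h ▸ B.idx_lt n x)
    rw [h2, measure_empty, ENNReal.toReal_zero]
    positivity

theorem norm_E (n i : ℕ) (κ : ℤ) (y : B.Y) :
    ‖B.E n i κ y‖ = (B.lev n i).indicator (fun _ => Real.sqrt (B.M n)) y := by
  unfold E
  by_cases h : B.idx n y.1 = i
  · rw [if_pos h, Set.indicator_of_mem (show y ∈ B.lev n i from h), norm_mul, Complex.norm_real,
      Real.norm_of_nonneg (Real.sqrt_nonneg _), fourier_apply, Circle.norm_coe, mul_one]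
  · rw [if_neg h, Set.indicator_of_notMem (show y ∉ B.lev n i from h), norm_zero]

theorem integral_norm_E_le (n i : ℕ) (κ : ℤ) :
    ∫ y, ‖B.E n i κ y‖ ∂B.mu ≤ (Real.sqrt (B.M n))⁻¹ := by
  simp_rw [B.norm_E n i κ]
  rw [integral_indicator (B.measurableSet_lev n i), setIntegral_const, smul_eq_mul]
  have h1 := B.mu_lev_le n i
  have hM : (0 : ℝ) < B.M n := by exact_mod_cast B.M_pos n
  have hs : 0 < Real.sqrt (B.M n) := Real.sqrt_pos.2 hM
  calc B.mu.real (B.lev n i) * Real.sqrt (B.M n) ≤ ((B.M n : ℝ))⁻¹ * Real.sqrt (B.M n) :=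
        mul_le_mul_of_nonneg_right h1 hs.le
    _ = (Real.sqrt (B.M n))⁻¹ := by
      rw [← Real.sqrt_mul_self hM.le, Real.sqrt_mul hM.le, Real.sqrt_mul_self hs.le]
      field_simp

/-- `‖e n i κ‖ ≤ 1` for all `i` (`0` if `i ≥ M n`): `|E n i κ| = √M_n` on `{idx n = i}`, of measure
`1/M_n` (`muX_idx`). -/
theorem norm_e_le (n i : ℕ) (κ : ℤ) : ‖B.e n i κ‖ ≤ 1 := by
  have hM : (0 : ℝ) < B.M n := by exact_mod_cast B.M_pos n
  have h1 : ‖B.e n i κ‖ ^ 2 = ∫ y, ‖B.E n i κ y‖ ^ 2 ∂B.mu := by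
    rw [← @inner_self_eq_norm_sq ℂ, L2.inner_def, ← integral_re]
    · apply integral_congr_ae
      filter_upwards [B.coeFn_e n i κ] with y hy
      rw [hy, inner_self_eq_norm_sq]
    · exact L2.integrable_inner _ _
  have h2 : ∫ y, ‖B.E n i κ y‖ ^ 2 ∂B.mu ≤ 1 := by
    have h3 : ∀ y, ‖B.E n i κ y‖ ^ 2 = (B.lev n i).indicator (fun _ => (B.M n : ℝ)) y := by
      intro y
      rw [B.norm_E]
      by_cases hy : y ∈ B.lev n i
      · rw [Set.indicator_of_mem hy, Set.indicator_of_mem hy, Real.sq_sqrt hM.le]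
      · rw [Set.indicator_of_notMem hy, Set.indicator_of_notMem hy]
        norm_num
    simp_rw [h3]
    rw [integral_indicator (B.measurableSet_lev n i), setIntegral_const, smul_eq_mul]
    calc B.mu.real (B.lev n i) * B.M n ≤ ((B.M n : ℝ))⁻¹ * B.M n :=
          mul_le_mul_of_nonneg_right (B.mu_lev_le n i) hM.le
      _ = 1 := inv_mul_cancel₀ hM.ne'
  rw [← h1] at h2
  exact (sq_le_one_iff₀ (norm_nonneg _)).1 h2

theorem norm_inner_e_le (n i : ℕ) (κ : ℤ) (φ : C(B.Y, ℂ)) :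
    ‖(inner ℂ (B.e n i κ) (ContinuousMap.toLp 2 B.mu ℂ φ) : ℂ)‖ ≤
      ‖φ‖ * (Real.sqrt (B.M n))⁻¹ := by
  rw [L2.inner_def]
  have h1 : ∫ y, (inner ℂ ((B.e n i κ : B.Y → ℂ) y)
      ((ContinuousMap.toLp 2 B.mu ℂ φ : B.H) y) : ℂ) ∂B.mu =
      ∫ y, (inner ℂ (B.E n i κ y) (φ y) : ℂ) ∂B.mu := by
    apply integral_congr_ae
    filter_upwards [B.coeFn_e n i κ, ContinuousMap.coeFn_toLp (p := 2) (𝕜 := ℂ) B.mu φ]
      with y e1 e2
    rw [e1, e2]
  rw [h1]
  refine (norm_integral_le_integral_norm _).trans ?_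
  have hEi : Integrable (B.E n i κ) B.mu :=
    (B.continuous_E n i κ).integrable_of_hasCompactSupport (HasCompactSupport.of_compactSpace _)
  calc ∫ y, ‖(inner ℂ (B.E n i κ y) (φ y) : ℂ)‖ ∂B.mu ≤ ∫ y, ‖φ‖ * ‖B.E n i κ y‖ ∂B.mu := by
        refine integral_mono_of_nonneg (Filter.Eventually.of_forall fun y => norm_nonneg _)
          (hEi.norm.const_mul _) (Filter.Eventually.of_forall fun y => ?_)
        change ‖(inner ℂ (B.E n i κ y) (φ y) : ℂ)‖ ≤ ‖φ‖ * ‖B.E n i κ y‖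
        refine (norm_inner_le_norm _ _).trans ?_
        rw [mul_comm]
        exact mul_le_mul_of_nonneg_right (φ.norm_coe_le_norm y) (norm_nonneg _)
    _ = ‖φ‖ * ∫ y, ‖B.E n i κ y‖ ∂B.mu := integral_const_mul _ _
    _ ≤ ‖φ‖ * (Real.sqrt (B.M n))⁻¹ :=
        mul_le_mul_of_nonneg_left (B.integral_norm_E_le n i κ) (norm_nonneg _)

theorem tendsto_inv_sqrt_M : Tendsto (fun n => (Real.sqrt (B.M n))⁻¹) atTop (𝓝 0) := by
  have h1 : Tendsto (fun n => (B.M n : ℝ)) atTop atTop := by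
    refine tendsto_atTop_mono (fun n => ?_)
      (tendsto_pow_atTop_atTop_of_one_lt (r := (2 : ℝ)) (by norm_num))
    exact_mod_cast B.two_pow_le_M n
  exact (Real.tendsto_sqrt_atTop.comp h1).inv_tendsto_atTop

/-- weak convergence to `0` of one level of the towers.
For `f = g` bounded, `|⟨e n i κ, g⟩| ≤ √M_n ‖g‖_∞ / M_n → 0` (`two_pow_le_M`); bounded continuous
functions are dense in `L²` (`ContinuousMap.toLp_denseRange`) and `‖e n i κ‖ ≤ 1`. -/
theorem inner_e_tendsto (f : B.H) (i : ℕ → ℕ) (κ : ℕ → ℤ) :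
    Tendsto (fun n => inner ℂ (B.e n (i n) (κ n)) f) atTop (𝓝 0) := by
  rw [Metric.tendsto_atTop]
  intro ε hε
  have hd : DenseRange (ContinuousMap.toLp 2 B.mu ℂ : C(B.Y, ℂ) →L[ℂ] B.H) :=
    ContinuousMap.toLp_denseRange ℂ B.mu ℂ (by norm_num)
  obtain ⟨φ, hφ⟩ := hd.exists_dist_lt f (half_pos hε)
  have h1 : Tendsto (fun n => ‖φ‖ * (Real.sqrt (B.M n))⁻¹) atTop (𝓝 0) := by
    have := B.tendsto_inv_sqrt_M.const_mul ‖φ‖
    rwa [mul_zero] at this
  obtain ⟨n₀, hn₀⟩ := (h1.eventually (gt_mem_nhds (half_pos hε))).exists_forall_of_atTop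
  refine ⟨n₀, fun n hn => ?_⟩
  rw [dist_zero_right]
  have h2 : (inner ℂ (B.e n (i n) (κ n)) f : ℂ) =
      inner ℂ (B.e n (i n) (κ n)) (ContinuousMap.toLp 2 B.mu ℂ φ) +
      inner ℂ (B.e n (i n) (κ n)) (f - ContinuousMap.toLp 2 B.mu ℂ φ) := by
    rw [← inner_add_right, add_sub_cancel]
  rw [h2]
  refine (norm_add_le _ _).trans_lt ?_
  have h3 := (B.norm_inner_e_le n (i n) (κ n) φ).trans_lt (hn₀ n hn)
  have h4 : ‖(inner ℂ (B.e n (i n) (κ n)) (f - ContinuousMap.toLp 2 B.mu ℂ φ) : ℂ)‖ < ε / 2 := by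
    refine (norm_inner_le_norm _ _).trans_lt ?_
    rw [dist_eq_norm] at hφ
    calc ‖B.e n (i n) (κ n)‖ * ‖f - ContinuousMap.toLp 2 B.mu ℂ φ‖
        ≤ 1 * ‖f - ContinuousMap.toLp 2 B.mu ℂ φ‖ :=
          mul_le_mul_of_nonneg_right (B.norm_e_le _ _ _) (norm_nonneg _)
      _ < ε / 2 := by rwa [one_mul]
  linarith

end Blk

end P130
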