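import Mathlib
import Vale.Agent.Lib.P130.Hilb

/-!
# P130: the span of the vectors `e n i k` is dense

Stone-Weierstrass on the compact space `Y = X × 𝕋`: let `F n i k (x, t) = 1` if `idx n x = i` times
`χ_k(t)`.  The span of the `F n i k` is a star subalgebra of `C(Y, ℂ)`:
`F n i k * F n' i' k'` (for `n ≤ n'`) is `0` or `F n' i' (k + k')`; `conj (F n i k) = F n i (-k)`;
`1 = F 0 0 0`; it separates points (`ext_idx`, and `fourier 1` is injective).  Each `F n i k` is a
scalar multiple of `E n i (± k)` (`fourier_act`).  Then `ContinuousMap.toLp_denseRange`.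
-/

open MeasureTheory Filter Topology
open scoped ENNReal ComplexConjugate

namespace P130

namespace Blk

variable (B : Blk)

theorem continuous_F (n i : ℕ) (k : ℤ) :
    Continuous fun y : B.Y => (if B.idx n y.1 = i then (fourier k y.2 : ℂ) else 0) := by
  have h1 : Continuous fun y : B.Y => (fourier k y.2 : ℂ) :=
    (map_continuous (fourier k)).comp continuous_snd
  have h2 : Continuous fun y : B.Y => B.idx n y.1 := (B.continuous_idx n).comp continuous_fst
  have h3 : Continuous fun y : B.Y => (if B.idx n y.1 = i then (1 : ℂ) else 0) :=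
    (continuous_of_discreteTopology (f := fun j : ℕ => if j = i then (1 : ℂ) else 0)).comp h2
  refine (h3.mul h1).congr fun y => ?_
  rw [Pi.mul_apply]
  by_cases h : B.idx n y.1 = i
  · rw [if_pos h, if_pos h, one_mul]
  · rw [if_neg h, if_neg h, zero_mul]

/-- products of a level indicator and a character -/
noncomputable def F (n i : ℕ) (k : ℤ) : C(B.Y, ℂ) := ⟨_, B.continuous_F n i k⟩

theorem F_apply (n i : ℕ) (k : ℤ) (y : B.Y) :
    B.F n i k y = if B.idx n y.1 = i then (fourier k y.2 : ℂ) else 0 := rfl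

/-- the multiplicative set of all `F n i k` and `0`. -/
def FS : Set C(B.Y, ℂ) := {f | f = 0 ∨ ∃ (n i : ℕ) (k : ℤ), f = B.F n i k}

theorem F_mul_le {n n' : ℕ} (h : n ≤ n') (i i' : ℕ) (k k' : ℤ) :
    B.F n i k * B.F n' i' k' ∈ B.FS := by
  by_cases hi : i' % B.M n = i
  · right
    refine ⟨n', i', k + k', ?_⟩
    ext y
    rw [ContinuousMap.mul_apply, F_apply, F_apply, F_apply]
    by_cases h' : B.idx n' y.1 = i'
    · have h1 : B.idx n y.1 = i := by
        rw [← B.idx_mod h y.1, h', hi]
      rw [if_pos h', if_pos h', if_pos h1, fourier_add]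
    · rw [if_neg h', if_neg h', mul_zero]
  · left
    ext y
    rw [ContinuousMap.mul_apply, F_apply, F_apply, ContinuousMap.zero_apply]
    by_cases h' : B.idx n' y.1 = i'
    · have h1 : ¬ B.idx n y.1 = i := by
        rw [← B.idx_mod h y.1, h']
        exact hi
      rw [if_neg h1, zero_mul]
    · rw [if_neg h', mul_zero]

theorem FS_mul {f g : C(B.Y, ℂ)} (hf : f ∈ B.FS) (hg : g ∈ B.FS) : f * g ∈ B.FS := by
  rcases hf with rfl | ⟨n, i, k, rfl⟩
  · left
    rw [zero_mul]
  rcases hg with rfl | ⟨n', i', k', rfl⟩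
  · left
    rw [mul_zero]
  rcases le_total n n' with h | h
  · exact B.F_mul_le h i i' k k'
  · rw [mul_comm]
    exact B.F_mul_le h i' i k' k

theorem FS_star {f : C(B.Y, ℂ)} (hf : f ∈ B.FS) : star f ∈ B.FS := by
  rcases hf with rfl | ⟨n, i, k, rfl⟩
  · left
    rw [star_zero]
  · right
    refine ⟨n, i, -k, ?_⟩
    ext y
    rw [ContinuousMap.star_apply, F_apply, F_apply]
    by_cases h : B.idx n y.1 = i
    · rw [if_pos h, if_pos h, fourier_neg]
      rfl
    · rw [if_neg h, if_neg h, star_zero]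

theorem one_mem_FS : (1 : C(B.Y, ℂ)) ∈ B.FS := by
  right
  refine ⟨0, 0, 0, ?_⟩
  ext y
  rw [ContinuousMap.one_apply, F_apply, if_pos, fourier_zero]
  have h1 := B.idx_lt 0 y.1
  rw [B.M_zero] at h1
  omega

/-- the star subalgebra spanned by the `F n i k` -/
noncomputable def FA : StarSubalgebra ℂ C(B.Y, ℂ) where
  carrier := Submodule.span ℂ B.FS
  mul_mem' := by
    intro f g hf hg
    rw [SetLike.mem_coe] at hf hg ⊢
    induction hf using Submodule.span_induction with
    | mem x hx =>
      induction hg using Submodule.span_induction with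
      | mem y hy => exact Submodule.subset_span (B.FS_mul hx hy)
      | zero =>
        rw [mul_zero]
        exact Submodule.zero_mem _
      | add y z _ _ hy hz =>
        rw [mul_add]
        exact Submodule.add_mem _ hy hz
      | smul c y _ hy =>
        rw [mul_smul_comm]
        exact Submodule.smul_mem _ c hy
    | zero =>
      rw [zero_mul]
      exact Submodule.zero_mem _
    | add x y _ _ hx hy =>
      rw [add_mul]
      exact Submodule.add_mem _ hx hy
    | smul c x _ hx =>
      rw [smul_mul_assoc]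
      exact Submodule.smul_mem _ c hx
  add_mem' := fun hf hg => Submodule.add_mem _ hf hg
  algebraMap_mem' := by
    intro c
    rw [Algebra.algebraMap_eq_smul_one]
    exact Submodule.smul_mem _ c (Submodule.subset_span B.one_mem_FS)
  star_mem' := by
    intro f hf
    change star f ∈ Submodule.span ℂ B.FS
    change f ∈ Submodule.span ℂ B.FS at hf
    induction hf using Submodule.span_induction with
    | mem x hx => exact Submodule.subset_span (B.FS_star hx)
    | zero =>
      rw [star_zero]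
      exact Submodule.zero_mem _
    | add x y _ _ hx hy =>
      rw [star_add]
      exact Submodule.add_mem _ hx hy
    | smul c x _ hx =>
      rw [star_smul]
      exact Submodule.smul_mem _ _ hx

theorem F_mem_FA (n i : ℕ) (k : ℤ) : B.F n i k ∈ B.FA :=
  Submodule.subset_span (Or.inr ⟨n, i, k, rfl⟩)

theorem FA_separates : (B.FA).toSubalgebra.SeparatesPoints := by
  intro y y' hyy
  by_cases hx : y.1 = y'.1
  · have ht : y.2 ≠ y'.2 := fun h => hyy (Prod.ext hx h)
    refine ⟨_, ⟨B.F 0 0 1, B.F_mem_FA 0 0 1, rfl⟩, ?_⟩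
    have h1 : ∀ z : B.Y, B.idx 0 z.1 = 0 := by
      intro z
      have h1 := B.idx_lt 0 z.1
      rw [B.M_zero] at h1
      omega
    change B.F 0 0 1 y ≠ B.F 0 0 1 y'
    rw [F_apply, F_apply, if_pos (h1 y), if_pos (h1 y'), fourier_one, fourier_one]
    intro h
    exact ht (AddCircle.injective_toCircle one_ne_zero (Circle.ext h))
  · have h1 : ∃ n, B.idx n y.1 ≠ B.idx n y'.1 := by
      by_contra hc
      push Not at hc
      exact hx (B.ext_idx hc)
    obtain ⟨n, hn⟩ := h1
    refine ⟨_, ⟨B.F n (B.idx n y.1) 0, B.F_mem_FA _ _ _, rfl⟩, ?_⟩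
    change B.F n (B.idx n y.1) 0 y ≠ B.F n (B.idx n y.1) 0 y'
    rw [F_apply, F_apply, if_pos rfl, if_neg (fun h => hn h.symm), fourier_zero]
    exact one_ne_zero

theorem closure_FS : (Submodule.span ℂ B.FS).topologicalClosure = ⊤ := by
  have h1 := ContinuousMap.starSubalgebra_topologicalClosure_eq_top_of_separatesPoints B.FA
    B.FA_separates
  rw [eq_top_iff]
  intro f _
  have h2 : f ∈ (B.FA).topologicalClosure := by
    rw [h1]
    exact StarSubalgebra.mem_top
  exact h2

theorem F_eq_smul (n i : ℕ) (k : ℤ) : ∃ (c : ℂ) (κ : ℤ), B.F n i k = c • B.EC n i κ := by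
  obtain ⟨p, hp⟩ : ∃ p, p = inv2 (B.A n i) := ⟨_, rfl⟩
  have hs : (Real.sqrt (B.M n) : ℂ) ≠ 0 := by
    have h1 : 0 < Real.sqrt (B.M n) := Real.sqrt_pos.2 (by exact_mod_cast B.M_pos n)
    exact_mod_cast h1.ne'
  have hf : (fourier ((p.2 : ℤ) * k) p.1 : ℂ) ≠ 0 := by
    rw [fourier_apply]
    exact Circle.coe_ne_zero _
  refine ⟨((Real.sqrt (B.M n) : ℂ) * fourier ((p.2 : ℤ) * k) p.1)⁻¹, (p.2 : ℤ) * k, ?_⟩
  ext y
  rw [ContinuousMap.smul_apply, F_apply]
  change _ = _ • B.E n i _ y
  unfold E
  by_cases h : B.idx n y.1 = i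
  · have h3 : (p.2 : ℤ) * ((p.2 : ℤ) * k) = k := by
      rw [← mul_assoc, ← Units.val_mul, Int.units_mul_self, Units.val_one, one_mul]
    rw [if_pos h, if_pos h, ← hp, fourier_act, h3, smul_eq_mul]
    field_simp
  · rw [if_neg h, if_neg h, smul_zero]

theorem dense_EC : (Submodule.span ℂ {f : C(B.Y, ℂ) | ∃ (n i : ℕ) (κ : ℤ), i < B.M n ∧
    f = B.EC n i κ}).topologicalClosure = ⊤ := by
  rw [eq_top_iff, ← B.closure_FS]
  refine Submodule.topologicalClosure_mono ?_
  rw [Submodule.span_le]
  rintro f (rfl | ⟨n, i, k, rfl⟩)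
  · exact Submodule.zero_mem _
  · by_cases hi : i < B.M n
    · obtain ⟨c, κ, h⟩ := B.F_eq_smul n i k
      rw [h]
      exact Submodule.smul_mem _ c (Submodule.subset_span ⟨n, i, κ, hi, rfl⟩)
    · have h0 : B.F n i k = 0 := by
        ext y
        rw [F_apply, if_neg, ContinuousMap.zero_apply]
        intro h
        exact hi (h ▸ B.idx_lt n y.1)
      rw [h0]
      exact Submodule.zero_mem _

theorem dense_e : (Submodule.span ℂ {f : B.H | ∃ (n i : ℕ) (κ : ℤ), i < B.M n ∧
    f = B.e n i κ}).topologicalClosure = ⊤ := by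
  have hd : DenseRange (ContinuousMap.toLp 2 B.mu ℂ : C(B.Y, ℂ) →L[ℂ] B.H) :=
    ContinuousMap.toLp_denseRange ℂ B.mu ℂ (by norm_num)
  have h1 : Dense ((Submodule.span ℂ {f : C(B.Y, ℂ) | ∃ (n i : ℕ) (κ : ℤ), i < B.M n ∧
      f = B.EC n i κ} : Submodule ℂ C(B.Y, ℂ)) : Set C(B.Y, ℂ)) :=
    Submodule.dense_iff_topologicalClosure_eq_top.2 B.dense_EC
  have h2 := hd.dense_image (ContinuousMap.toLp 2 B.mu ℂ : C(B.Y, ℂ) →L[ℂ] B.H).continuous h1
  rw [← Submodule.dense_iff_topologicalClosure_eq_top]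
  refine h2.mono ?_
  rintro _ ⟨f, hf, rfl⟩
  rw [SetLike.mem_coe] at hf ⊢
  induction hf using Submodule.span_induction with
  | mem x hx =>
    obtain ⟨n, i, κ, hi, rfl⟩ := hx
    exact Submodule.subset_span ⟨n, i, κ, hi, rfl⟩
  | zero =>
    rw [map_zero]
    exact Submodule.zero_mem _
  | add x y _ _ hx hy =>
    rw [map_add]
    exact Submodule.add_mem _ hx hy
  | smul c x _ hx =>
    rw [map_smul]
    exact Submodule.smul_mem _ c hx

end Blk

end P130
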