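import Mathlib
import Vale.Agent.Lib.P130.Hilb

/-!
# P130: orthonormality of the vectors `e n i k`
-/

open MeasureTheory Filter Topology
open scoped ENNReal ComplexConjugate

namespace P130

theorem integral_fourier_eq (m : ℤ) : ∫ t, fourier m t ∂mT = if m = 0 then 1 else 0 := by
  have h1 := congrFun (fourierCoeff_fourier (T := 1) 0) (-m)
  unfold fourierCoeff at h1
  rw [neg_neg] at h1
  have h2 : (fun t : 𝕋 => fourier m t • (fourier 0 t : ℂ)) = fun t => fourier m t := by
    funext t
    rw [fourier_zero, smul_eq_mul, mul_one]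
  rw [h2] at h1
  rw [h1]
  by_cases hm : m = 0
  · rw [if_pos hm, hm]
    simp
  · rw [if_neg hm, Pi.single_apply, if_neg]
    simpa using hm

theorem integral_fourier_act (m : ℤ) (p : 𝕋 × ℤˣ) :
    ∫ t, fourier m (act p t) ∂mT = if m = 0 then 1 else 0 := by
  rw [← integral_fourier_eq m]
  have h1 := (measurePreserving_act p).map_eq
  conv_rhs => rw [← h1]
  rw [integral_map (measurePreserving_act p).measurable.aemeasurable]
  exact (map_continuous (fourier m)).aestronglyMeasurable

namespace Blk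

variable (B : Blk)

theorem integral_lev_X (n i : ℕ) (hi : i < B.M n) :
    ∫ x, (if B.idx n x = i then ((B.M n : ℝ) : ℂ) else 0) ∂B.muX = 1 := by
  have h1 : (fun x : B.X => (if B.idx n x = i then ((B.M n : ℝ) : ℂ) else 0)) =
      {x | B.idx n x = i}.indicator fun _ => ((B.M n : ℝ) : ℂ) := by
    funext x
    by_cases h : B.idx n x = i
    · rw [if_pos h, Set.indicator_of_mem (show x ∈ {x | B.idx n x = i} from h)]
    · rw [if_neg h, Set.indicator_of_notMem (show x ∉ {x | B.idx n x = i} from h)]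
  have hm : MeasurableSet {x : B.X | B.idx n x = i} :=
    B.measurable_idx n (measurableSet_singleton i)
  have hM : ((B.M n : ℝ) : ℂ) ≠ 0 := by
    have := (B.M_pos n).ne'
    exact_mod_cast this
  rw [h1, integral_indicator hm, setIntegral_const, Measure.real, B.muX_idx n i hi,
    ENNReal.toReal_inv, ENNReal.toReal_natCast, Complex.real_smul]
  push_cast
  rw [inv_mul_cancel₀]
  exact_mod_cast (B.M_pos n).ne'

theorem inner_e (n i i' : ℕ) (k k' : ℤ) (hi : i < B.M n) :
    (inner ℂ (B.e n i k) (B.e n i' k') : ℂ) = if i = i' ∧ k = k' then 1 else 0 := by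
  rw [L2.inner_def]
  have h1 : ∫ y, (inner ℂ ((B.e n i k : B.Y → ℂ) y) ((B.e n i' k' : B.Y → ℂ) y) : ℂ) ∂B.mu =
      ∫ y, conj (B.E n i k y) * B.E n i' k' y ∂B.mu := by
    apply integral_congr_ae
    filter_upwards [B.coeFn_e n i k, B.coeFn_e n i' k'] with y e1 e2
    rw [e1, e2, RCLike.inner_apply']
  rw [h1]
  by_cases hii : i = i'
  · subst hii
    have h2 : ∀ y : B.Y, conj (B.E n i k y) * B.E n i k' y =
        (if B.idx n y.1 = i then ((B.M n : ℝ) : ℂ) else 0) *
          fourier (k' - k) (act (inv2 (B.A n i)) y.2) := by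
      intro y
      unfold E
      by_cases h : B.idx n y.1 = i
      · rw [if_pos h, if_pos h, if_pos h, map_mul, Complex.conj_ofReal, ← fourier_neg]
        have h3 : ((Real.sqrt (B.M n) : ℝ) : ℂ) * (Real.sqrt (B.M n) : ℝ) = ((B.M n : ℝ) : ℂ) := by
          rw [← Complex.ofReal_mul, Real.mul_self_sqrt (Nat.cast_nonneg _)]
        have h4 : k' - k = -k + k' := by ring
        rw [h4, fourier_add, ← h3]
        ring
      · rw [if_neg h, if_neg h, if_neg h, map_zero, zero_mul, zero_mul]
    simp_rw [h2]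
    unfold mu
    rw [integral_prod_mul (fun x : B.X => (if B.idx n x = i then ((B.M n : ℝ) : ℂ) else 0))
      (fun t : 𝕋 => fourier (k' - k) (act (inv2 (B.A n i)) t)), B.integral_lev_X n i hi, one_mul,
      integral_fourier_act]
    by_cases hk : k = k'
    · rw [if_pos (by rw [hk, sub_self]), if_pos (by simpa using hk)]
    · rw [if_neg, if_neg]
      · simpa using hk
      · intro h
        exact hk (by omega)
  · rw [if_neg (fun h => hii h.1)]
    have h2 : ∀ y : B.Y, conj (B.E n i k y) * B.E n i' k' y = 0 := by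
      intro y
      unfold E
      by_cases h : B.idx n y.1 = i
      · rw [if_neg (show ¬ B.idx n y.1 = i' from fun h' => hii (h.symm.trans h')), mul_zero]
      · rw [if_neg h, map_zero, zero_mul]
    simp_rw [h2]
    exact integral_zero _ _

/-- `⟨e n i k, e n i' k'⟩ = δ δ`: for `i ≠ i'` the supports are disjoint; for `i = i'` the integral
is `M_n ∫_{idx = i} dμ_X ∫ conj(χ_k(A⁻¹ t)) χ_{k'}(A⁻¹ t) dt = ∫ χ_{k'-k}(t) dt`
(`muX_idx`, `measurePreserving_act`, `orthonormal_fourier` / `fourierCoeff_fourier`). -/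
theorem orthonormal_e (n : ℕ) :
    Orthonormal ℂ (fun p : Fin (B.M n) × ℤ => B.e n p.1 p.2) := by
  classical
  rw [orthonormal_iff_ite]
  rintro ⟨i, k⟩ ⟨i', k'⟩
  change (inner ℂ (B.e n i k) (B.e n i' k') : ℂ) = _
  rw [B.inner_e n i i' k k' i.2]
  by_cases h : (i : ℕ) = i' ∧ k = k'
  · rw [if_pos h, if_pos (Prod.ext (Fin.ext h.1) h.2)]
  · rw [if_neg h, if_neg]
    intro h'
    rw [Prod.mk.injEq] at h'
    exact h ⟨congrArg Fin.val h'.1, h'.2⟩

end Blk

end P130
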