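import Mathlib
import Vale.Agent.Lib.P130.Hilb

/-!
# P130: the vectors `e n i k`: shift and refinement
-/

open MeasureTheory Filter Topology
open scoped ENNReal

namespace P130

namespace Blk

variable (B : Blk)

/-- pointwise shift: `E n i k ∘ T = E n (i+1) k` for `i + 1 < M n`: for `y = (x, t)`,
`idx n (x - 1) = i` iff `idx n x = i + 1` (`idx_sub_one`, `idx_sub_one_zero`), and then
`psi x = mul2 (A n i) (inv2 (A n (i+1)))` by `psi_eq`. -/
theorem E_T (n i : ℕ) (k : ℤ) (hi : i + 1 < B.M n) (y : B.Y) :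
    B.E n i k (B.T y) = B.E n (i + 1) k y := by
  obtain ⟨x, t⟩ := y
  have hT : B.T (x, t) = (x - B.one, act (B.psi x) t) := rfl
  have hM := B.idx_lt n x
  unfold E
  rw [hT]
  by_cases h0 : B.idx n x = 0
  · have h1 := B.idx_sub_one_zero n x h0
    rw [if_neg, if_neg]
    · change ¬ (B.idx n x = i + 1)
      omega
    · change ¬ (B.idx n (x - B.one) = i)
      omega
  · have h1 := B.idx_sub_one n x h0
    by_cases h2 : B.idx n x = i + 1
    · have h3 : B.idx n (x - B.one) = i := by omega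
      rw [if_pos h3, if_pos h2]
      congr 2
      change act (inv2 (B.A n i)) (act (B.psi x) t) = act (inv2 (B.A n (i + 1))) t
      rw [B.psi_eq n x h0, h2, Nat.add_sub_cancel, ← act_mul2, ← mul2_assoc, inv2_mul2, one_mul2]
    · rw [if_neg, if_neg]
      · exact h2
      · change ¬ (B.idx n (x - B.one) = i)
        omega

theorem U_e (n i : ℕ) (k : ℤ) (hi : i + 1 < B.M n) : B.U (B.e n i k) = B.e n (i + 1) k := by
  apply Lp.ext
  have h1 := B.coeFn_U (B.e n i k)
  have h2 : (fun y => (B.e n i k : B.Y → ℂ) (B.T y)) =ᵐ[B.mu] fun y => B.E n i k (B.T y) :=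
    (B.measurePreserving_T.quasiMeasurePreserving).ae_eq_comp (B.coeFn_e n i k)
  have h3 := B.coeFn_e n (i + 1) k
  filter_upwards [h1, h2, h3] with y e1 e2 e3
  rw [e1, e2, e3, B.E_T n i k hi y]

/-- pointwise refinement; for `idx n x = i` exactly one `j < m n`
satisfies `idx (n+1) x = j M_n + i`, and `A (n+1) (j M_n + i) = mul2 (A n i) g_j`, so
`act (inv2 (A n i)) t = act g_j (act (inv2 (A (n+1) (j M_n + i))) t)`; use `fourier_act`. -/
theorem E_refine (n i : ℕ) (k : ℤ) (hi : i < B.M n) (y : B.Y) :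
    B.E n i k y = ((Real.sqrt (B.m n) : ℂ)⁻¹) * ∑ j ∈ Finset.range (B.m n),
      fourier k (B.a n j) * B.E (n + 1) (j * B.M n + i) ((B.s n j : ℤ) * k) y := by
  obtain ⟨x, t⟩ := y
  have hM := B.M_pos n
  have hlt := B.idx_lt (n + 1) x
  have hmod := B.idx_succ_mod n x
  obtain ⟨q, hq⟩ : ∃ q, q = B.idx (n + 1) x / B.M n := ⟨_, rfl⟩
  have hdm : B.idx (n + 1) x = q * B.M n + B.idx n x := by
    rw [hq, ← hmod, mul_comm]
    exact (Nat.div_add_mod _ _).symm
  have hqlt : q < B.m n := by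
    rw [hq]
    apply Nat.div_lt_of_lt_mul
    rw [← B.M_succ]
    exact hlt
  have hidx := B.idx_lt n x
  have hterm : ∀ j, B.idx (n + 1) x = j * B.M n + i ↔ (B.idx n x = i ∧ j = q) := by
    intro j
    constructor
    · intro h
      have e1 : i = B.idx n x := by
        rw [← hmod, h, mul_comm, Nat.mul_add_mod, Nat.mod_eq_of_lt hi]
      refine ⟨e1.symm, ?_⟩
      rw [hq, h, mul_comm, Nat.mul_add_div hM, Nat.div_eq_of_lt hi, add_zero]
    · rintro ⟨h1, h2⟩
      rw [hdm, h1, h2]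
  have hE : ∀ (N l : ℕ) (κ : ℤ), B.E N l κ (x, t) = if B.idx N x = l then
      (Real.sqrt (B.M N) : ℂ) * fourier κ (act (inv2 (B.A N l)) t) else 0 := fun _ _ _ => rfl
  by_cases h : B.idx n x = i
  · rw [hE, if_pos h, Finset.sum_eq_single q]
    · rw [hE, if_pos ((hterm q).2 ⟨h, rfl⟩)]
      have hA : B.A (n + 1) (q * B.M n + i) = mul2 (B.A n i) (B.a n q, B.s n q) := by
        rw [B.A_succ, mul_comm, Nat.mul_add_mod, Nat.mod_eq_of_lt hi, Nat.mul_add_div hM,
          Nat.div_eq_of_lt hi, add_zero]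
      have hpt : act (inv2 (B.A n i)) t = act (B.a n q, B.s n q)
          (act (inv2 (B.A (n + 1) (q * B.M n + i))) t) := by
        rw [hA, inv2_mul2_rev, ← act_mul2, ← mul2_assoc, mul2_inv2, one_mul2]
      rw [hpt, fourier_act]
      have hs : (Real.sqrt (B.M (n + 1)) : ℂ) = Real.sqrt (B.M n) * Real.sqrt (B.m n) := by
        rw [B.M_succ, Nat.cast_mul, Real.sqrt_mul (Nat.cast_nonneg _)]
        push_cast
        rfl
      have hs0 : (Real.sqrt (B.m n) : ℂ) ≠ 0 := by
        have h1 : 0 < Real.sqrt (B.m n) := Real.sqrt_pos.2 (by exact_mod_cast B.m_pos n)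
        exact_mod_cast h1.ne'
      rw [hs]
      field_simp
    · intro j _ hj
      rw [hE, if_neg, mul_zero]
      intro h1
      exact hj ((hterm j).1 h1).2
    · intro h1
      exact absurd (Finset.mem_range.2 hqlt) h1
  · rw [hE, if_neg h, Finset.sum_eq_zero, mul_zero]
    intro j _
    rw [hE, if_neg, mul_zero]
    intro h1
    exact h ((hterm j).1 h1).1

theorem e_refine (n i : ℕ) (k : ℤ) (hi : i < B.M n) :
    B.e n i k = ((Real.sqrt (B.m n) : ℂ)⁻¹) • ∑ j ∈ Finset.range (B.m n),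
      (fourier k (B.a n j) : ℂ) • B.e (n + 1) (j * B.M n + i) ((B.s n j : ℤ) * k) := by
  have h1 : B.EC n i k = ((Real.sqrt (B.m n) : ℂ)⁻¹) • ∑ j ∈ Finset.range (B.m n),
      (fourier k (B.a n j) : ℂ) • B.EC (n + 1) (j * B.M n + i) ((B.s n j : ℤ) * k) := by
    ext y
    rw [ContinuousMap.smul_apply, ContinuousMap.sum_apply, smul_eq_mul]
    have h2 := B.E_refine n i k hi y
    change B.E n i k y = _
    rw [h2]
    congr 1
  have h2 := congrArg (ContinuousMap.toLp 2 B.mu ℂ) h1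
  rw [map_smul, map_sum] at h2
  unfold e
  rw [h2]
  congr 1

end Blk

end P130
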