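import Mathlib
import Vale.Agent.Lib.P130.LevA
import Vale.Agent.Lib.P130.LevB
import Vale.Agent.Lib.P130.Dense

/-!
# P130: the subspaces `H_k`: elementary structure
-/

open MeasureTheory Filter Topology
open scoped ENNReal

namespace P130

namespace Blk

variable (B : Blk)

theorem e_mem_Hn (n i : ℕ) (κ : ℤ) (hi : i < B.M n) : B.e n i κ ∈ B.Hn n κ.natAbs :=
  Submodule.subset_span ⟨i, κ, hi, rfl, rfl⟩

theorem Hn_le_Hk (n k : ℕ) : B.Hn n k ≤ B.Hk k :=
  (le_iSup (fun n => B.Hn n k) n).trans (Submodule.le_topologicalClosure _)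

/-- from `e_refine` (`|s * κ| = |κ|` for a unit `s`). -/
theorem Hn_mono (k : ℕ) : Monotone fun n => B.Hn n k := by
  refine monotone_nat_of_le_succ fun n => ?_
  unfold Hn
  rw [Submodule.span_le]
  rintro _ ⟨i, κ, hi, hκ, rfl⟩
  rw [SetLike.mem_coe, B.e_refine n i κ hi]
  refine Submodule.smul_mem _ _ (Submodule.sum_mem _ fun j hj => Submodule.smul_mem _ _ ?_)
  refine Submodule.subset_span ⟨_, _, ?_, ?_, rfl⟩
  · rw [Finset.mem_range] at hj
    rw [B.M_succ]
    calc j * B.M n + i < j * B.M n + B.M n := by omega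
      _ = B.M n * (j + 1) := by ring
      _ ≤ B.M n * B.m n := Nat.mul_le_mul_left _ hj
  · rw [Int.natAbs_mul, Int.natAbs_of_isUnit (Units.isUnit _), one_mul, hκ]

/-- approximation of vectors of `H_k` by vectors of some level (then of all higher levels by
`Hn_mono`). -/
theorem exists_approx (k : ℕ) (f : B.H) (hf : f ∈ B.Hk k) (ε : ℝ) (hε : 0 < ε) :
    ∃ n₀, ∃ g ∈ B.Hn n₀ k, ‖f - g‖ < ε := by
  have h1 : f ∈ closure ((⨆ n, B.Hn n k : Submodule ℂ B.H) : Set B.H) := hf
  rw [Metric.mem_closure_iff] at h1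
  obtain ⟨g, hg, hfg⟩ := h1 ε hε
  rw [SetLike.mem_coe, Submodule.mem_iSup_of_directed _ (B.Hn_mono k).directed_le] at hg
  obtain ⟨n, hn⟩ := hg
  exact ⟨n, g, hn, by rwa [← dist_eq_norm]⟩

/-- expansion of an element of level `n` in the orthonormal basis of level `n`. -/
theorem expand (n k : ℕ) (f : B.H) (hf : f ∈ B.Hn n k) :
    f = ∑ i ∈ Finset.range (B.M n), ∑ κ ∈ ({(k : ℤ), -(k : ℤ)} : Finset ℤ),
      (inner ℂ (B.e n i κ) f : ℂ) • B.e n i κ := by
  unfold Hn at hf
  induction hf using Submodule.span_induction with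
  | mem x hx =>
    obtain ⟨i', κ', hi', hκ', rfl⟩ := hx
    rw [Finset.sum_eq_single i']
    · rw [Finset.sum_eq_single κ']
      · rw [B.inner_e n i' i' κ' κ' hi', if_pos ⟨rfl, rfl⟩, one_smul]
      · intro κ _ hκ
        rw [B.inner_e n i' i' κ κ' hi', if_neg (fun h => hκ h.2), zero_smul]
      · intro h
        exfalso
        apply h
        rw [Finset.mem_insert, Finset.mem_singleton]
        rcases Int.natAbs_eq κ' with h1 | h1
        · left
          rw [h1, hκ']
        · right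
          rw [h1, hκ']
    · intro i hi hii
      refine Finset.sum_eq_zero fun κ _ => ?_
      rw [B.inner_e n i i' κ κ' (Finset.mem_range.1 hi), if_neg (fun h => hii h.1), zero_smul]
    · intro h
      exact absurd (Finset.mem_range.2 hi') h
  | zero =>
    simp
  | add x y _ _ hx hy =>
    conv_lhs => rw [hx, hy]
    rw [← Finset.sum_add_distrib]
    refine Finset.sum_congr rfl fun i _ => ?_
    rw [← Finset.sum_add_distrib]
    refine Finset.sum_congr rfl fun κ _ => ?_
    rw [inner_add_right, add_smul]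
  | smul c x _ hx =>
    conv_lhs => rw [hx]
    rw [Finset.smul_sum]
    refine Finset.sum_congr rfl fun i _ => ?_
    rw [Finset.smul_sum]
    refine Finset.sum_congr rfl fun κ _ => ?_
    rw [inner_smul_right, smul_smul]

/-- `H_k ⟂ H_l` for `k ≠ l` (`orthonormal_e` at a common level, `Hn_mono`). -/
theorem Hk_orth (k l : ℕ) (hkl : k ≠ l) : B.Hk k ⟂ B.Hk l := by
  have h0 : ∀ N, B.Hn N k ⟂ B.Hn N l := by
    intro N
    unfold Hn
    rw [Submodule.isOrtho_span]
    rintro _ ⟨i, κ, hi, hκ, rfl⟩ _ ⟨i', κ', hi', hκ', rfl⟩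
    rw [B.inner_e N i i' κ κ' hi, if_neg]
    rintro ⟨-, h⟩
    apply hkl
    rw [← hκ, ← hκ', h]
  have h1 : (⨆ n, B.Hn n k) ⟂ (⨆ n, B.Hn n l) := by
    rw [Submodule.isOrtho_iSup_left]
    intro n
    rw [Submodule.isOrtho_iSup_right]
    intro n'
    exact (h0 (max n n')).mono (B.Hn_mono k (le_max_left n n')) (B.Hn_mono l (le_max_right n n'))
  unfold Hk
  rw [Submodule.isOrtho_iff_le] at h1 ⊢
  rw [Submodule.orthogonal_closure]
  exact Submodule.topologicalClosure_minimal _ h1 (Submodule.isClosed_orthogonal _)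

/-- a vector orthogonal to all the `H_k` vanishes (`dense_e`). -/
theorem eq_zero_of_orth (f : B.H) (h : ∀ k, ∀ g ∈ B.Hk k, inner ℂ g f = 0) : f = 0 := by
  have h1 : f ∈ (Submodule.span ℂ {f : B.H | ∃ (n i : ℕ) (κ : ℤ), i < B.M n ∧
      f = B.e n i κ})ᗮ := by
    rw [Submodule.mem_orthogonal]
    intro u hu
    induction hu using Submodule.span_induction with
    | mem x hx =>
      obtain ⟨n, i, κ, hi, rfl⟩ := hx
      exact h _ _ (B.Hn_le_Hk n _ (B.e_mem_Hn n i κ hi))
    | zero => rw [inner_zero_left]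
    | add x y _ _ hx hy => rw [inner_add_left, hx, hy, add_zero]
    | smul c x _ hx => rw [inner_smul_left, hx, mul_zero]
  rw [← Submodule.orthogonal_closure, B.dense_e, Submodule.top_orthogonal_eq_bot,
    Submodule.mem_bot] at h1
  exact h1

end Blk

end P130
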