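import Mathlib
import Vale.Agent.Lib.P130.StructA
import Vale.Agent.Lib.P130.LevC

/-!
# P130: the subspaces `H_k` are invariant under `U` and its inverse
-/

open MeasureTheory Filter Topology
open scoped ENNReal

namespace P130

namespace Blk

variable (B : Blk)

theorem isClosed_Hk (k : ℕ) : IsClosed (B.Hk k : Set B.H) :=
  Submodule.isClosed_topologicalClosure _

theorem U_mem_of_Hn (n k : ℕ) (f : B.H) (hf : f ∈ B.Hn n k) : B.U f ∈ B.Hk k := by
  obtain ⟨r, hr⟩ : ∃ r : ℕ → B.H, r = fun N => ∑ κ ∈ ({(k : ℤ), -(k : ℤ)} : Finset ℤ),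
    (inner ℂ (B.e N (B.M N - 1) κ) f : ℂ) • B.U (B.e N (B.M N - 1) κ) := ⟨_, rfl⟩
  have hr0 : Tendsto r atTop (𝓝 0) := by
    rw [hr]
    have h1 : (0 : B.H) = ∑ κ ∈ ({(k : ℤ), -(k : ℤ)} : Finset ℤ), 0 := by
      rw [Finset.sum_const_zero]
    rw [h1]
    refine tendsto_finsetSum _ fun κ _ => ?_
    have h2 := B.inner_e_tendsto f (fun N => B.M N - 1) (fun _ => κ)
    rw [tendsto_zero_iff_norm_tendsto_zero] at h2 ⊢
    refine squeeze_zero (fun N => norm_nonneg _) (fun N => ?_) h2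
    rw [norm_smul, LinearIsometry.norm_map]
    calc _ ≤ ‖(inner ℂ (B.e N (B.M N - 1) κ) f : ℂ)‖ * 1 :=
          mul_le_mul_of_nonneg_left (B.norm_e_le _ _ _) (norm_nonneg _)
      _ = _ := mul_one _
  have hmem : ∀ N, n ≤ N → B.U f - r N ∈ B.Hk k := by
    intro N hN
    have h1 := B.expand N k f (B.Hn_mono k hN hf)
    have hMN : B.M N = (B.M N - 1) + 1 := by
      have := B.M_pos N
      omega
    have h2 : B.U f - r N = ∑ i ∈ Finset.range (B.M N - 1),
        ∑ κ ∈ ({(k : ℤ), -(k : ℤ)} : Finset ℤ),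
        (inner ℂ (B.e N i κ) f : ℂ) • B.e N (i + 1) κ := by
      conv_lhs => rw [h1]
      rw [map_sum, hMN, Finset.sum_range_succ, Nat.add_sub_cancel, hr]
      simp only [map_sum, map_smul]
      rw [add_sub_cancel_right]
      refine Finset.sum_congr rfl fun i hi => ?_
      refine Finset.sum_congr rfl fun κ _ => ?_
      rw [B.U_e N i κ (by
        have := Finset.mem_range.1 hi
        omega)]
    rw [h2]
    refine Submodule.sum_mem _ fun i hi => Submodule.sum_mem _ fun κ hκ =>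
      Submodule.smul_mem _ _ ?_
    have hk : κ.natAbs = k := by
      rw [Finset.mem_insert, Finset.mem_singleton] at hκ
      rcases hκ with h | h
      · rw [h, Int.natAbs_natCast]
      · rw [h, Int.natAbs_neg, Int.natAbs_natCast]
    have h3 := B.e_mem_Hn N (i + 1) κ (by
      have := Finset.mem_range.1 hi
      omega)
    rw [hk] at h3
    exact B.Hn_le_Hk N k h3
  have hlim : Tendsto (fun N => B.U f - r N) atTop (𝓝 (B.U f)) := by
    have := (tendsto_const_nhds (x := B.U f)).sub hr0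
    rwa [sub_zero] at this
  refine (B.isClosed_Hk k).mem_of_tendsto hlim ?_
  filter_upwards [eventually_ge_atTop n] with N hN
  exact hmem N hN

/-- `U H_k ⊆ H_k`.  For `f = e n i κ` with `i + 1 < M n` use `U_e`.  For `i = M n - 1`: for every
`N ≥ n`, `f ∈ Hn N k` is `∑ c_{i', κ'} e N i' κ'` with `c_{i', κ'} = ⟨e N i' κ', f⟩` (`expand`), and
`U f = ∑_{i' + 1 < M N} c e N (i'+1) κ' + ∑_{κ'} c_{M N - 1, κ'} U (e N (M N - 1) κ')` where the
last coefficients tend to `0` as `N → ∞` by `inner_e_tendsto`; `H_k` is closed.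
(In fact this argument works for every `f ∈ Hn n k`, so no case distinction is needed.) -/
theorem U_mem_Hk (k : ℕ) (f : B.H) (hf : f ∈ B.Hk k) : B.U f ∈ B.Hk k := by
  have h1 : closure ((⨆ n, B.Hn n k : Submodule ℂ B.H) : Set B.H) ⊆
      B.U ⁻¹' (B.Hk k : Set B.H) := by
    refine closure_minimal ?_ ((B.isClosed_Hk k).preimage B.U.continuous)
    intro g hg
    rw [SetLike.mem_coe, Submodule.mem_iSup_of_directed _ (B.Hn_mono k).directed_le] at hg
    obtain ⟨n, hn⟩ := hg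
    exact B.U_mem_of_Hn n k g hn
  exact h1 hf

theorem mem_image_of_Hn (n k : ℕ) (f : B.H) (hf : f ∈ B.Hn n k) :
    f ∈ B.U '' (B.Hk k : Set B.H) := by
  have hclosed : IsClosed (B.U '' (B.Hk k : Set B.H)) :=
    B.U.isometry.isClosedEmbedding.isClosedMap _ (B.isClosed_Hk k)
  obtain ⟨r, hr⟩ : ∃ r : ℕ → B.H, r = fun N => ∑ κ ∈ ({(k : ℤ), -(k : ℤ)} : Finset ℤ),
    (inner ℂ (B.e N 0 κ) f : ℂ) • (B.e N 0 κ) := ⟨_, rfl⟩
  have hr0 : Tendsto r atTop (𝓝 0) := by
    rw [hr]
    have h1 : (0 : B.H) = ∑ κ ∈ ({(k : ℤ), -(k : ℤ)} : Finset ℤ), 0 := by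
      rw [Finset.sum_const_zero]
    rw [h1]
    refine tendsto_finsetSum _ fun κ _ => ?_
    have h2 := B.inner_e_tendsto f (fun _ => 0) (fun _ => κ)
    rw [tendsto_zero_iff_norm_tendsto_zero] at h2 ⊢
    refine squeeze_zero (fun N => norm_nonneg _) (fun N => ?_) h2
    rw [norm_smul]
    calc _ ≤ ‖(inner ℂ (B.e N 0 κ) f : ℂ)‖ * 1 :=
          mul_le_mul_of_nonneg_left (B.norm_e_le _ _ _) (norm_nonneg _)
      _ = _ := mul_one _
  have hmem : ∀ N, n ≤ N → f - r N ∈ B.U '' (B.Hk k : Set B.H) := by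
    intro N hN
    have h1 := B.expand N k f (B.Hn_mono k hN hf)
    have hMN : B.M N = (B.M N - 1) + 1 := by
      have := B.M_pos N
      omega
    have h2 : f - r N = ∑ i ∈ Finset.range (B.M N - 1),
        ∑ κ ∈ ({(k : ℤ), -(k : ℤ)} : Finset ℤ),
        (inner ℂ (B.e N (i + 1) κ) f : ℂ) • B.e N (i + 1) κ := by
      conv_lhs => rw [h1]
      rw [hMN, Finset.sum_range_succ', hr]
      simp only
      rw [add_sub_cancel_right, Nat.add_sub_cancel]
    refine ⟨∑ i ∈ Finset.range (B.M N - 1), ∑ κ ∈ ({(k : ℤ), -(k : ℤ)} : Finset ℤ),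
        (inner ℂ (B.e N (i + 1) κ) f : ℂ) • B.e N i κ, ?_, ?_⟩
    · refine Submodule.sum_mem _ fun i hi => Submodule.sum_mem _ fun κ hκ =>
        Submodule.smul_mem _ _ ?_
      have hk : κ.natAbs = k := by
        rw [Finset.mem_insert, Finset.mem_singleton] at hκ
        rcases hκ with h | h
        · rw [h, Int.natAbs_natCast]
        · rw [h, Int.natAbs_neg, Int.natAbs_natCast]
      have h3 := B.e_mem_Hn N i κ (by
        have := Finset.mem_range.1 hi
        omega)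
      rw [hk] at h3
      exact B.Hn_le_Hk N k h3
    · rw [h2, map_sum]
      simp only [map_sum, map_smul]
      refine Finset.sum_congr rfl fun i hi => ?_
      refine Finset.sum_congr rfl fun κ _ => ?_
      rw [B.U_e N i κ (by
        have := Finset.mem_range.1 hi
        omega)]
  have hlim : Tendsto (fun N => f - r N) atTop (𝓝 f) := by
    have := (tendsto_const_nhds (x := f)).sub hr0
    rwa [sub_zero] at this
  refine hclosed.mem_of_tendsto hlim ?_
  filter_upwards [eventually_ge_atTop n] with N hN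
  exact hmem N hN

/-- `U H_k = H_k`: `U H_k` is closed (`U` is an isometry); for `f ∈ Hn n k` expand at level `N`
as in `U_mem_Hk`: `f = U (∑_{i' ≥ 1} c e N (i'-1) κ') + ∑_{κ'} c_{0, κ'} e N 0 κ'`, where the last
coefficients tend to `0`. -/
theorem exists_U_eq (k : ℕ) (f : B.H) (hf : f ∈ B.Hk k) : ∃ g ∈ B.Hk k, B.U g = f := by
  have hclosed : IsClosed (B.U '' (B.Hk k : Set B.H)) :=
    B.U.isometry.isClosedEmbedding.isClosedMap _ (B.isClosed_Hk k)
  have h1 : closure ((⨆ n, B.Hn n k : Submodule ℂ B.H) : Set B.H) ⊆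
      B.U '' (B.Hk k : Set B.H) := by
    refine closure_minimal ?_ hclosed
    intro g hg
    rw [SetLike.mem_coe, Submodule.mem_iSup_of_directed _ (B.Hn_mono k).directed_le] at hg
    obtain ⟨n, hn⟩ := hg
    exact B.mem_image_of_Hn n k g hn
  obtain ⟨g, hg, hgf⟩ := h1 hf
  exact ⟨g, hg, hgf⟩

/-- `U (H_k)ᗮ ⊆ (H_k)ᗮ`: from `exists_U_eq`. -/
theorem U_mem_Hk_orth (k : ℕ) (f : B.H) (hf : f ∈ (B.Hk k)ᗮ) : B.U f ∈ (B.Hk k)ᗮ := by
  rw [Submodule.mem_orthogonal] at hf ⊢
  intro u hu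
  obtain ⟨g, hg, rfl⟩ := B.exists_U_eq k u hu
  rw [LinearIsometry.inner_map_map]
  exact hf g hg

end Blk

end P130
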