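import Mathlib
import Vale.Agent.Lib.P130.StructB

/-!
# P130: mixing vectors
-/

open MeasureTheory Filter Topology
open scoped ENNReal

namespace P130

namespace Blk

variable (B : Blk)

theorem norm_iter (h : ℕ) (f : B.H) : ‖B.U^[h] f‖ = ‖f‖ := by
  induction h with
  | zero => rfl
  | succ h ih => rw [Function.iterate_succ_apply', LinearIsometry.norm_map, ih]

theorem inner_iter (h : ℕ) (f g : B.H) :
    (inner ℂ (B.U^[h] f) (B.U^[h] g) : ℂ) = inner ℂ f g := by
  induction h with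
  | zero => rfl
  | succ h ih => rw [Function.iterate_succ_apply', Function.iterate_succ_apply',
      LinearIsometry.inner_map_map, ih]

theorem iter_add (h : ℕ) (f g : B.H) : B.U^[h] (f + g) = B.U^[h] f + B.U^[h] g := by
  induction h with
  | zero => rfl
  | succ h ih => rw [Function.iterate_succ_apply', Function.iterate_succ_apply',
      Function.iterate_succ_apply', ih, map_add]

theorem iter_sub (h : ℕ) (f g : B.H) : B.U^[h] (f - g) = B.U^[h] f - B.U^[h] g := by
  induction h with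
  | zero => rfl
  | succ h ih => rw [Function.iterate_succ_apply', Function.iterate_succ_apply',
      Function.iterate_succ_apply', ih, map_sub]

theorem iter_mem_orth (k h : ℕ) (f : B.H) (hf : f ∈ (B.Hk k)ᗮ) : B.U^[h] f ∈ (B.Hk k)ᗮ := by
  induction h with
  | zero => exact hf
  | succ h ih =>
    rw [Function.iterate_succ_apply']
    exact B.U_mem_Hk_orth k _ ih

theorem iter_mem (k h : ℕ) (f : B.H) (hf : f ∈ B.Hk k) : B.U^[h] f ∈ B.Hk k := by
  induction h with
  | zero => exact hf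
  | succ h ih =>
    rw [Function.iterate_succ_apply']
    exact B.U_mem_Hk k _ ih

/-- the vectors against which `U^h f` tends weakly to zero -/
def mixSub (f : B.H) : Submodule ℂ B.H where
  carrier := {g | Tendsto (fun h : ℕ => inner ℂ g (B.U^[h] f)) atTop (𝓝 0)}
  add_mem' := by
    intro a b ha hb
    have h1 : Tendsto (fun h : ℕ => inner ℂ a (B.U^[h] f)) atTop (𝓝 0) := ha
    have h2 : Tendsto (fun h : ℕ => inner ℂ b (B.U^[h] f)) atTop (𝓝 0) := hb
    have h3 := h1.add h2
    rw [add_zero] at h3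
    exact h3.congr fun h => (inner_add_left _ _ _).symm
  zero_mem' := by
    change Tendsto (fun h : ℕ => inner ℂ (0 : B.H) (B.U^[h] f)) atTop (𝓝 0)
    exact tendsto_const_nhds.congr fun h => (inner_zero_left _).symm
  smul_mem' := by
    intro c a ha
    have h1 : Tendsto (fun h : ℕ => inner ℂ a (B.U^[h] f)) atTop (𝓝 0) := ha
    have h3 := h1.const_mul (starRingEnd ℂ c)
    rw [mul_zero] at h3
    exact h3.congr fun h => (inner_smul_left _ _ _).symm

theorem mem_mixSub (f g : B.H) :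
    g ∈ B.mixSub f ↔ Tendsto (fun h : ℕ => inner ℂ g (B.U^[h] f)) atTop (𝓝 0) := Iff.rfl

theorem isClosed_mixSub (f : B.H) : IsClosed (B.mixSub f : Set B.H) := by
  rw [← closure_subset_iff_isClosed]
  intro g hg
  rw [SetLike.mem_coe, B.mem_mixSub, Metric.tendsto_atTop]
  intro ε hε
  rw [Metric.mem_closure_iff] at hg
  have hden : 0 < 2 * (‖f‖ + 1) := by positivity
  obtain ⟨g', hg', hgg⟩ := hg (ε / (2 * (‖f‖ + 1))) (by positivity)
  have h1 : Tendsto (fun h : ℕ => inner ℂ g' (B.U^[h] f)) atTop (𝓝 0) := hg'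
  rw [Metric.tendsto_atTop] at h1
  obtain ⟨N, hN⟩ := h1 (ε / 2) (half_pos hε)
  refine ⟨N, fun n hn => ?_⟩
  have h2 := hN n hn
  rw [dist_zero_right] at h2 ⊢
  rw [dist_eq_norm] at hgg
  have h3 : (inner ℂ g (B.U^[n] f) : ℂ) = inner ℂ (g - g') (B.U^[n] f) +
      inner ℂ g' (B.U^[n] f) := by
    rw [← inner_add_left, sub_add_cancel]
  have h4 : ‖(inner ℂ (g - g') (B.U^[n] f) : ℂ)‖ ≤ ε / 2 := by
    refine (norm_inner_le_norm _ _).trans ?_
    rw [B.norm_iter]
    calc ‖g - g'‖ * ‖f‖ ≤ (ε / (2 * (‖f‖ + 1))) * (‖f‖ + 1) := by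
          refine mul_le_mul hgg.le (by linarith) (norm_nonneg _) (by positivity)
      _ = ε / 2 := by
          field_simp
  rw [h3]
  refine (norm_add_le _ _).trans_lt ?_
  linarith

/-- a mixing vector `f` is weakly mixing against everything: `⟨g, U^h f⟩ → 0`.
The set of `g` with this property is a closed subspace containing all `U^j f`, and every vector
orthogonal to all `U^j f`. -/
theorem mix_inner (f : B.H) (hf : B.Mix f) (g : B.H) :
    Tendsto (fun h : ℕ => inner ℂ g (B.U^[h] f)) atTop (𝓝 0) := by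
  have hcl := B.isClosed_mixSub f
  have : CompleteSpace (B.mixSub f) := hcl.completeSpace_coe
  have hiter : ∀ j : ℕ, B.U^[j] f ∈ B.mixSub f := by
    intro j
    rw [B.mem_mixSub]
    rw [← tendsto_add_atTop_iff_nat j]
    refine Tendsto.congr (fun h => ?_) hf
    rw [add_comm h j, Function.iterate_add_apply, B.inner_iter]
  obtain ⟨p, hp, q, hq, hpq⟩ :=
    Submodule.exists_add_mem_mem_orthogonal (K := B.mixSub f) g
  rw [B.mem_mixSub] at hp
  rw [hpq]
  refine hp.congr fun h => ?_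
  rw [inner_add_left]
  have h1 : (inner ℂ q (B.U^[h] f) : ℂ) = 0 :=
    (Submodule.mem_orthogonal' (B.mixSub f) q).1 hq _ (hiter h)
  rw [h1, add_zero]

/-- The component in `H_k` of a mixing vector is mixing: `⟨p, U^h p⟩ = ⟨p, U^h f⟩` as
`U^h q ∈ (H_k)ᗮ`. -/
theorem mix_proj (k : ℕ) (f : B.H) (hf : B.Mix f) :
    ∃ p q : B.H, f = p + q ∧ p ∈ B.Hk k ∧ q ∈ (B.Hk k)ᗮ ∧ B.Mix p := by
  have : CompleteSpace (B.Hk k) := (B.isClosed_Hk k).completeSpace_coe
  obtain ⟨p, hp, q, hq, hpq⟩ := Submodule.exists_add_mem_mem_orthogonal (K := B.Hk k) f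
  refine ⟨p, q, hpq, hp, hq, ?_⟩
  have h1 := B.mix_inner f hf p
  refine h1.congr fun h => ?_
  rw [hpq, B.iter_add, inner_add_right]
  have h2 : (inner ℂ p (B.U^[h] q) : ℂ) = 0 :=
    (Submodule.mem_orthogonal (B.Hk k) _).1 (B.iter_mem_orth k h q hq) p hp
  rw [h2, add_zero]

/-- If the `H_k`, `k ≠ 1`, contain no nonzero mixing vector then mixing vectors are in `H_1`.
Proof: by `mix_proj`, `f ⟂ H_k` for `k ≠ 1`; write `f = p + q`, `p ∈ H_1`, `q ⟂ H_1`; then `q` is
orthogonal to all the `H_k`, so `q = 0` by `eq_zero_of_orth`. -/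
theorem mem_H1_of_mix (h : ∀ k, k ≠ 1 → ∀ p ∈ B.Hk k, B.Mix p → p = 0) (f : B.H)
    (hf : B.Mix f) : f ∈ B.Hk 1 := by
  obtain ⟨p, q, hpq, hp, hq, -⟩ := B.mix_proj 1 f hf
  have hq0 : q = 0 := by
    refine B.eq_zero_of_orth q fun k g hg => ?_
    by_cases hk : k = 1
    · rw [hk] at hg
      exact (Submodule.mem_orthogonal (B.Hk 1) q).1 hq g hg
    · obtain ⟨p', q', hpq', hp', hq', hmix⟩ := B.mix_proj k f hf
      have h0 := h k hk p' hp' hmix
      rw [h0, zero_add] at hpq'
      have h1 : (inner ℂ g f : ℂ) = 0 := by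
        rw [hpq']
        exact (Submodule.mem_orthogonal (B.Hk k) q').1 hq' g hg
      have h2 : (inner ℂ g p : ℂ) = 0 :=
        (Submodule.isOrtho_iff_inner_eq.1 (B.Hk_orth k 1 hk)) g hg p hp
      rw [hpq, inner_add_right, h2, zero_add] at h1
      exact h1
  rw [hpq, hq0, add_zero]
  exact hp

end Blk

end P130
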