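import Mathlib
import Vale.Agent.Lib.P130.ModelB
import Vale.Agent.Lib.P130.Limit
import Vale.Agent.Lib.P130.Struct

/-!
# P130: the operator `J : L²(Y) → L²(𝕋)`
-/

open MeasureTheory Filter Topology
open scoped ENNReal ComplexConjugate

namespace P130

/-- the vectors of `H_1` at level `n`, indexed by `Fin (M n) × ℤˣ`. -/
noncomputable def Blk.e1 (B : Blk) (n : ℕ) (p : Fin (B.M n) × ℤˣ) : B.H :=
  B.e n p.1 (p.2 : ℤ)

/-- the model vectors at level `n`, indexed by `Fin (M n) × ℤˣ`. -/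
noncomputable def Good.b1 {B : Blk} (G : Good B) (n : ℕ) (p : Fin (B.M n) × ℤˣ) : LT :=
  G.b n p.1 p.2

theorem Blk.orthonormal_e1 (B : Blk) (n : ℕ) : Orthonormal ℂ (B.e1 n) := by
  have h1 := (B.orthonormal_e n).comp (fun p : Fin (B.M n) × ℤˣ => (p.1, ((p.2 : ℤˣ) : ℤ))) ?_
  · exact h1
  · rintro ⟨i, σ⟩ ⟨i', σ'⟩ h
    rw [Prod.mk.injEq] at h
    exact Prod.ext h.1 (Units.ext h.2)

theorem Blk.span_e1 (B : Blk) (n : ℕ) : Submodule.span ℂ (Set.range (B.e1 n)) = B.Hn n 1 := by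
  unfold Blk.Hn
  congr 1
  ext f
  constructor
  · rintro ⟨⟨i, σ⟩, rfl⟩
    exact ⟨i, (σ : ℤ), i.2, Int.natAbs_of_isUnit (Units.isUnit σ), rfl⟩
  · rintro ⟨i, κ, hi, hκ, rfl⟩
    have h1 : IsUnit κ := Int.isUnit_iff_natAbs_eq.2 hκ
    obtain ⟨σ, hσ⟩ := h1
    refine ⟨(⟨i, hi⟩, σ), ?_⟩
    unfold Blk.e1
    rw [hσ]

theorem Blk.Hk_one_eq (B : Blk) :
    B.Hk 1 = (⨆ n, Submodule.span ℂ (Set.range (B.e1 n))).topologicalClosure := by
  unfold Blk.Hk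
  simp_rw [B.span_e1]

theorem pJ_self {H K : Type*} [NormedAddCommGroup H] [InnerProductSpace ℂ H]
    [NormedAddCommGroup K] [InnerProductSpace ℂ K] {ι : Type*} [Fintype ι] (e : ι → H) (b : ι → K)
    (he : Orthonormal ℂ e) (i : ι) : pJ e b (e i) = b i := by
  classical
  rw [pJ_apply, Finset.sum_eq_single i]
  · have h1 := orthonormal_iff_ite.1 he i i
    rw [h1, if_pos rfl, one_smul]
  · intro j _ hj
    have h1 := orthonormal_iff_ite.1 he j i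
    rw [h1, if_neg hj, zero_smul]
  · intro h
    exact absurd (Finset.mem_univ i) h

theorem pJ_e1 {B : Blk} (G : Good B) (n : ℕ) (p : Fin (B.M n) × ℤˣ) :
    pJ (B.e1 (n + 1)) (G.b1 (n + 1)) (B.e1 n p) =
      ((Real.sqrt (B.m n) : ℂ)⁻¹) • ∑ j ∈ Finset.range (B.m n),
      (fourier ((p.2 : ℤˣ) : ℤ) (B.a n j) : ℂ) •
        G.b (n + 1) (j * B.M n + p.1) (B.s n j * p.2) := by
  have h1 : B.e1 n p = B.e n p.1 ((p.2 : ℤˣ) : ℤ) := rfl
  rw [h1, B.e_refine n p.1 _ p.1.2, map_smul, map_sum]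
  congr 1
  refine Finset.sum_congr rfl fun j hj => ?_
  rw [map_smul]
  congr 1
  have hlt : j * B.M n + (p.1 : ℕ) < B.M (n + 1) := by
    have h2 := Finset.mem_range.1 hj
    have h3 := p.1.2
    rw [B.M_succ]
    calc j * B.M n + (p.1 : ℕ) < j * B.M n + B.M n := by omega
      _ = B.M n * (j + 1) := by ring
      _ ≤ B.M n * B.m n := Nat.mul_le_mul_left _ h2
  have h4 := pJ_self (B.e1 (n + 1)) (G.b1 (n + 1)) (B.orthonormal_e1 (n + 1))
    (⟨j * B.M n + (p.1 : ℕ), hlt⟩, B.s n j * p.2)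
  have h5 : B.e1 (n + 1) (⟨j * B.M n + (p.1 : ℕ), hlt⟩, B.s n j * p.2) =
      B.e (n + 1) (j * B.M n + (p.1 : ℕ)) ((B.s n j : ℤ) * ((p.2 : ℤˣ) : ℤ)) := by
    unfold Blk.e1
    rw [Units.val_mul]
  rw [h5] at h4
  rw [h4]
  rfl

/-- Apply `exists_limit` to `e1`, `b1`, with `δ n = (1/2)^n`; the hypothesis `hd` is `refine_b` since
`∑_q ⟨e1 (n+1) q, e1 n p⟩ b1 (n+1) q` is `m^{-1/2} ∑_j χ_σ(a_j) b (n+1) (j M + i) (s_j σ)` by
`e_refine` and orthonormality. `∑' k, (1/2)^(k+n) = 2 (1/2)^n`. -/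
theorem exists_J {B : Blk} (G : Good B) : ∃ J : B.H →L[ℂ] LT,
      (∀ f ∈ B.Hk 1, ‖J f‖ = ‖f‖) ∧
      (∀ n i σ, i < B.M n → ‖J (B.e n i ((σ : ℤˣ) : ℤ)) - G.b n i σ‖ ≤ 2 * (1 / 2) ^ n) ∧
      (∀ f, Tendsto (fun n => ∑ p, (inner ℂ (B.e1 n p) f : ℂ) • G.b1 n p) atTop (𝓝 (J f))) := by
  obtain ⟨J, h1, -, h3, h4⟩ := exists_limit (B.e1) (G.b1) (B.orthonormal_e1)
    (fun n => G.orthonormal_b n) (fun n p => by
      rw [B.span_e1]
      have h := B.e_mem_Hn n p.1 ((p.2 : ℤˣ) : ℤ) p.1.2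
      rw [Int.natAbs_of_isUnit (Units.isUnit p.2)] at h
      exact B.Hn_mono 1 (Nat.le_succ n) h)
    (fun n => (1 / 2 : ℝ) ^ n) summable_geometric_two (fun n p => by
      have h := G.refine_b n p.1 p.2
      rw [← pJ_apply, pJ_e1, norm_sub_rev, Fintype.card_prod, Fintype.card_fin,
        Fintype.card_units_int]
      push_cast
      rw [mul_comm (B.M n : ℝ) 2]
      exact h)
  refine ⟨J, ?_, ?_, h4⟩
  · intro f hf
    rw [B.Hk_one_eq] at hf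
    exact h1 f hf
  · intro n i σ hi
    have h5 := h3 n (⟨i, hi⟩, σ)
    have h6 : ∑' k : ℕ, (1 / 2 : ℝ) ^ (k + n) = 2 * (1 / 2) ^ n := by
      simp_rw [pow_add]
      rw [tsum_mul_right, tsum_geometric_two]
    rw [h6] at h5
    exact h5

end P130
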