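import Mathlib
import Vale.Agent.Lib.P130.JDef

/-!
# P130: `J U = z J` on `H_1`
-/

open MeasureTheory Filter Topology
open scoped ENNReal ComplexConjugate

namespace P130

theorem norm_term_le {B : Blk} (G : Good B) (N : ℕ) (p : Fin (B.M N) × ℤˣ) :
    ‖pJ (B.e1 N) (G.b1 N) (B.U (B.e1 N p)) - mulF 1 (G.b1 N p)‖ ≤ 2 := by
  refine (norm_sub_le _ _).trans ?_
  have h1 : ‖pJ (B.e1 N) (G.b1 N) (B.U (B.e1 N p))‖ ≤ 1 := by
    refine (norm_pJ_le _ _ (B.orthonormal_e1 N) (G.orthonormal_b N) _).trans ?_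
    rw [LinearIsometry.norm_map, (B.orthonormal_e1 N).1 p]
  have h2 : ‖mulF 1 (G.b1 N p)‖ ≤ 1 := by
    rw [LinearIsometry.norm_map]
    exact ((G.orthonormal_b N).1 p).le
  linarith

theorem term_eq_zero {B : Blk} (G : Good B) (N : ℕ) (p : Fin (B.M N) × ℤˣ)
    (hp : (p.1 : ℕ) + 1 < B.M N) :
    pJ (B.e1 N) (G.b1 N) (B.U (B.e1 N p)) - mulF 1 (G.b1 N p) = 0 := by
  have h1 : B.U (B.e1 N p) = B.e1 N (⟨(p.1 : ℕ) + 1, hp⟩, p.2) := B.U_e N p.1 _ hp
  have h2 : mulF 1 (G.b1 N p) = G.b1 N (⟨(p.1 : ℕ) + 1, hp⟩, p.2) := G.mulF_b N p.1 p.2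
  rw [h1, h2, pJ_self _ _ (B.orthonormal_e1 N), sub_self]

theorem J_inter_Hn {B : Blk} (G : Good B) (J : B.H →L[ℂ] LT)
    (hlim : ∀ f, Tendsto (fun n => ∑ p, (inner ℂ (B.e1 n p) f : ℂ) • G.b1 n p) atTop (𝓝 (J f)))
    (n : ℕ) (f : B.H) (hf : f ∈ B.Hn n 1) : J (B.U f) = mulF 1 (J f) := by
  have hlim' : ∀ f, Tendsto (fun n => pJ (B.e1 n) (G.b1 n) f) atTop (𝓝 (J f)) := by
    intro f
    refine (hlim f).congr fun n => ?_
    rw [pJ_apply]
  have h1 := (hlim' (B.U f)).sub (((mulF 1).continuous.tendsto _).comp (hlim' f))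
  have h2 : Tendsto (fun N => 2 * ∑ σ : ℤˣ,
      ‖(inner ℂ (B.e N (B.M N - 1) (σ : ℤ)) f : ℂ)‖) atTop (𝓝 0) := by
    have h3 : (0 : ℝ) = 2 * ∑ _σ : ℤˣ, 0 := by
      rw [Finset.sum_const_zero, mul_zero]
    rw [h3]
    refine Tendsto.const_mul 2 (tendsto_finsetSum _ fun σ _ => ?_)
    rw [← tendsto_zero_iff_norm_tendsto_zero]
    exact B.inner_e_tendsto f (fun N => B.M N - 1) (fun _ => (σ : ℤ))
  have h3 : Tendsto (fun N => pJ (B.e1 N) (G.b1 N) (B.U f) -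
      mulF 1 (pJ (B.e1 N) (G.b1 N) f)) atTop (𝓝 0) := by
    rw [tendsto_zero_iff_norm_tendsto_zero]
    refine squeeze_zero' (Filter.Eventually.of_forall fun N => norm_nonneg _) ?_ h2
    filter_upwards [eventually_ge_atTop n] with N hN
    have hfN : f ∈ Submodule.span ℂ (Set.range (B.e1 N)) := by
      rw [B.span_e1]
      exact B.Hn_mono 1 hN hf
    have h4 := expand_span (B.e1 N) (B.orthonormal_e1 N) f hfN
    have h5 : pJ (B.e1 N) (G.b1 N) (B.U f) - mulF 1 (pJ (B.e1 N) (G.b1 N) f) =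
        ∑ p, (inner ℂ (B.e1 N p) f : ℂ) •
          (pJ (B.e1 N) (G.b1 N) (B.U (B.e1 N p)) - mulF 1 (G.b1 N p)) := by
      have h6 : pJ (B.e1 N) (G.b1 N) (B.U f) = ∑ p, (inner ℂ (B.e1 N p) f : ℂ) •
          pJ (B.e1 N) (G.b1 N) (B.U (B.e1 N p)) := by
        conv_lhs => rw [h4]
        rw [map_sum, map_sum]
        refine Finset.sum_congr rfl fun p _ => ?_
        rw [map_smul, map_smul]
      rw [h6, pJ_apply, map_sum, ← Finset.sum_sub_distrib]
      refine Finset.sum_congr rfl fun p _ => ?_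
      rw [map_smul, smul_sub]
    rw [h5]
    refine (norm_sum_le _ _).trans ?_
    rw [Fintype.sum_prod_type]
    have hM := B.M_pos N
    rw [Finset.sum_eq_single (⟨B.M N - 1, by omega⟩ : Fin (B.M N))]
    · rw [Finset.mul_sum]
      refine Finset.sum_le_sum fun σ _ => ?_
      rw [norm_smul, mul_comm]
      exact mul_le_mul_of_nonneg_right (norm_term_le G N _) (norm_nonneg _)
    · intro i _ hi
      refine Finset.sum_eq_zero fun σ _ => ?_
      have h7 : (i : ℕ) + 1 < B.M N := by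
        have h8 := i.2
        by_contra hc
        apply hi
        apply Fin.ext
        change (i : ℕ) = B.M N - 1
        omega
      rw [term_eq_zero G N (i, σ) h7, smul_zero, norm_zero]
    · intro h
      exact absurd (Finset.mem_univ _) h
  have h4 := tendsto_nhds_unique h1 h3
  exact sub_eq_zero.1 h4

/-- For `f = e n i κ` (`κ = ± 1`) and `N ≥ n`: `f = ∑_p ⟨e1 N p, f⟩ e1 N p`, so with
`J_N g = ∑_p ⟨e1 N p, g⟩ b1 N p`: `J_N (U f) - z J_N f = ∑_p ⟨e1 N p, f⟩ (J_N (U (e1 N p)) - z b1 N p)`,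
whose terms with `p.1 + 1 < M N` vanish (`U_e`, `mulF_b`) and the two others (`p.1 = M N - 1`)
tend to `0` (`inner_e_tendsto`; norms at most `2`).  Let `N → ∞`; then extend to the closure. -/
theorem J_inter {B : Blk} (G : Good B) (J : B.H →L[ℂ] LT)
    (hlim : ∀ f, Tendsto (fun n => ∑ p, (inner ℂ (B.e1 n p) f : ℂ) • G.b1 n p) atTop (𝓝 (J f)))
    (f : B.H) (hf : f ∈ B.Hk 1) : J (B.U f) = mulF 1 (J f) := by
  have hclosed : IsClosed {f : B.H | J (B.U f) = mulF 1 (J f)} :=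
    isClosed_eq (J.continuous.comp B.U.continuous) ((mulF 1).continuous.comp J.continuous)
  have hmain : ((⨆ n, B.Hn n 1 : Submodule ℂ B.H) : Set B.H) ⊆
      {f : B.H | J (B.U f) = mulF 1 (J f)} := by
    intro f hf
    rw [SetLike.mem_coe, Submodule.mem_iSup_of_directed _ (B.Hn_mono 1).directed_le] at hf
    obtain ⟨n, hn⟩ := hf
    exact J_inter_Hn G J hlim n f hn
  exact (closure_minimal hmain hclosed) hf

end P130
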