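import Mathlib
import Vale.Agent.Lib.P130.Defs

/-!
# P130: uniqueness of Fourier coefficients in `L¹`
-/

open MeasureTheory Filter Topology
open scoped ENNReal NNReal BoundedContinuousFunction

namespace P130

theorem integrable_cont_mul (h : 𝕋 → ℂ) (hh : Integrable h mT) (φ : C(𝕋, ℂ)) :
    Integrable (fun t => φ t * h t) mT := by
  refine hh.bdd_mul (c := ‖φ‖) (map_continuous φ).aestronglyMeasurable ?_
  exact Filter.Eventually.of_forall fun t => φ.norm_coe_le_norm t

/-- integration against `h` as a continuous linear functional on `C(𝕋, ℂ)`. -/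
theorem integral_cont_mul_zero (h : 𝕋 → ℂ) (hh : Integrable h mT)
    (h0 : ∀ n : ℤ, ∫ t, fourier n t * h t ∂mT = 0) (φ : C(𝕋, ℂ)) :
    ∫ t, φ t * h t ∂mT = 0 := by
  obtain ⟨Λ, hΛ⟩ : ∃ Λ : C(𝕋, ℂ) →L[ℂ] ℂ, ∀ φ, Λ φ = ∫ t, φ t * h t ∂mT := by
    refine ⟨LinearMap.mkContinuous { toFun := fun φ => ∫ t, φ t * h t ∂mT
                                     map_add' := ?_
                                     map_smul' := ?_ } (∫ t, ‖h t‖ ∂mT) ?_, fun φ => rfl⟩
    · intro φ ψ
      rw [← integral_add (integrable_cont_mul h hh φ) (integrable_cont_mul h hh ψ)]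
      congr 1
      funext t
      rw [ContinuousMap.add_apply, add_mul]
    · intro c φ
      rw [RingHom.id_apply, smul_eq_mul, ← integral_const_mul]
      congr 1
      funext t
      rw [ContinuousMap.smul_apply, smul_eq_mul, mul_assoc]
    · intro φ
      change ‖∫ t, φ t * h t ∂mT‖ ≤ _
      refine (norm_integral_le_integral_norm _).trans ?_
      rw [mul_comm, ← integral_const_mul]
      refine integral_mono (integrable_cont_mul h hh φ).norm (hh.norm.const_mul _) fun t => ?_
      change ‖φ t * h t‖ ≤ ‖φ‖ * ‖h t‖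
      rw [norm_mul]
      exact mul_le_mul_of_nonneg_right (φ.norm_coe_le_norm t) (norm_nonneg _)
  have h1 : (⊤ : Submodule ℂ C(𝕋, ℂ)) ≤ LinearMap.ker (Λ : C(𝕋, ℂ) →ₗ[ℂ] ℂ) := by
    rw [← span_fourier_closure_eq_top]
    refine Submodule.topologicalClosure_minimal _ ?_ ?_
    · rw [Submodule.span_le]
      rintro _ ⟨n, rfl⟩
      rw [SetLike.mem_coe, LinearMap.mem_ker]
      change Λ (fourier n) = 0
      rw [hΛ]
      exact h0 n
    · exact ContinuousLinearMap.isClosed_ker Λ
  have h2 : φ ∈ LinearMap.ker (Λ : C(𝕋, ℂ) →ₗ[ℂ] ℂ) := h1 Submodule.mem_top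
  rw [LinearMap.mem_ker] at h2
  rw [← hΛ]
  exact h2

/-- **Uniqueness of Fourier coefficients in `L¹`.**
`∫ φ h = 0` for all continuous `φ` (`span_fourier_closure_eq_top`), hence for all indicators of
closed sets. -/
theorem ae_zero_of_fourier (h : 𝕋 → ℂ) (hh : Integrable h mT)
    (h0 : ∀ n : ℤ, ∫ t, fourier n t * h t ∂mT = 0) : h =ᵐ[mT] 0 := by
  refine ae_eq_zero_of_forall_setIntegral_isClosed_eq_zero hh ?_
  intro F hF
  have hlim : Tendsto (fun n : ℕ => ∫ t, (((hF.apprSeq n t : ℝ≥0) : ℝ) : ℂ) * h t ∂mT) atTop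
      (𝓝 (∫ t, F.indicator h t ∂mT)) := by
    refine tendsto_integral_of_dominated_convergence (fun t => ‖h t‖) ?_ hh.norm ?_ ?_
    · intro n
      have hc : Continuous fun t : 𝕋 => (((hF.apprSeq n t : ℝ≥0) : ℝ) : ℂ) := by
        have := (hF.apprSeq n).continuous
        fun_prop
      exact hc.aestronglyMeasurable.mul hh.aestronglyMeasurable
    · intro n
      refine Filter.Eventually.of_forall fun t => ?_
      rw [norm_mul, Complex.norm_real, Real.norm_of_nonneg (NNReal.coe_nonneg _)]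
      have h1 : ((hF.apprSeq n t : ℝ≥0) : ℝ) ≤ 1 := by
        exact_mod_cast HasOuterApproxClosed.apprSeq_apply_le_one hF n t
      calc ((hF.apprSeq n t : ℝ≥0) : ℝ) * ‖h t‖ ≤ 1 * ‖h t‖ :=
            mul_le_mul_of_nonneg_right h1 (norm_nonneg _)
        _ = ‖h t‖ := one_mul _
    · refine Filter.Eventually.of_forall fun t => ?_
      have h1 := tendsto_pi_nhds.1 (HasOuterApproxClosed.tendsto_apprSeq hF) t
      have h2 : Tendsto (fun n : ℕ => (((hF.apprSeq n t : ℝ≥0) : ℝ) : ℂ)) atTop
          (𝓝 (((F.indicator (fun _ => (1 : ℝ≥0)) t : ℝ≥0) : ℝ) : ℂ)) :=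
        (Complex.continuous_ofReal.tendsto _).comp ((NNReal.continuous_coe.tendsto _).comp h1)
      have h3 := h2.mul_const (h t)
      have h4 : (((F.indicator (fun _ => (1 : ℝ≥0)) t : ℝ≥0) : ℝ) : ℂ) * h t =
          F.indicator h t := by
        by_cases ht : t ∈ F
        · rw [Set.indicator_of_mem ht, Set.indicator_of_mem ht]
          simp
        · rw [Set.indicator_of_notMem ht, Set.indicator_of_notMem ht]
          simp
      rw [h4] at h3
      exact h3
  have hz : ∀ n : ℕ, ∫ t, (((hF.apprSeq n t : ℝ≥0) : ℝ) : ℂ) * h t ∂mT = 0 := by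
    intro n
    have hc : Continuous fun t : 𝕋 => (((hF.apprSeq n t : ℝ≥0) : ℝ) : ℂ) := by
      have := (hF.apprSeq n).continuous
      fun_prop
    exact integral_cont_mul_zero h hh h0 ⟨_, hc⟩
  simp_rw [hz] at hlim
  rw [integral_indicator hF.measurableSet] at hlim
  exact (tendsto_nhds_unique hlim tendsto_const_nhds)

end P130
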