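import Mathlib
import Vale.Agent.Lib.P130.ModelA
import Vale.Agent.Lib.P130.Uniq

/-!
# P130: a function orthogonal to all translates of vectors close to the model vectors vanishes

`∫ e(l t) conj(g) x_n^σ = 0` for all `l`, so `conj(g) x_n^σ = 0` a.e. (`ae_zero_of_fourier`).  On
`s = {g ≠ 0}`: `2 m(s) = ∫_s (|b n 0 1|² + |b n 0 (-1)|²) = ∫_s ∑_σ |b n 0 σ - x_n^σ|² ≤
∑_σ ‖b n 0 σ - x_n^σ‖² ≤ 8 (1/4)^n → 0`.  So `g = 0`.
-/

open MeasureTheory Filter Topology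
open scoped ENNReal ComplexConjugate

namespace P130

theorem norm_sq_LT (d : LT) : ‖d‖ ^ 2 = ∫ t, ‖(d : 𝕋 → ℂ) t‖ ^ 2 ∂mT := by
  rw [← @inner_self_eq_norm_sq ℂ, L2.inner_def, ← integral_re]
  · apply integral_congr_ae
    exact Filter.Eventually.of_forall fun t => by
      simp only [inner_self_eq_norm_sq]
  · exact L2.integrable_inner _ _

theorem mul_ae_zero (g x : LT) (h : ∀ l : ℤ, inner ℂ g (mulF l x) = 0) :
    ∀ᵐ t ∂mT, g t ≠ 0 → x t = 0 := by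
  have hint : Integrable (fun t => (inner ℂ (g t) (x t) : ℂ)) mT := L2.integrable_inner g x
  have h1 : (fun t => (inner ℂ (g t) (x t) : ℂ)) =ᵐ[mT] 0 := by
    refine ae_zero_of_fourier _ hint fun l => ?_
    rw [← h l, L2.inner_def]
    apply integral_congr_ae
    filter_upwards [coeFn_mulF l x] with t e1
    rw [e1, RCLike.inner_apply', RCLike.inner_apply']
    ring
  filter_upwards [h1] with t e1 hg
  rw [RCLike.inner_apply', Pi.zero_apply, mul_eq_zero] at e1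
  rcases e1 with e | e
  · exact absurd ((map_eq_zero _).1 e) hg
  · exact e

/-- the measure theoretic part -/
theorem eq_zero_of_mul_zero {B : Blk} (G : Good B) (g : LT) (x : ℕ → ℤˣ → LT)
    (hx : ∀ n σ, ‖x n σ - G.b n 0 σ‖ ≤ 2 * (1 / 2) ^ n)
    (h : ∀ n σ, ∀ l : ℤ, inner ℂ g (mulF l (x n σ)) = 0) : g = 0 := by
  obtain ⟨g', hg'm, hgg⟩ := (Lp.stronglyMeasurable g).measurable |> fun hm =>
    (⟨(g : 𝕋 → ℂ), hm, rfl⟩ : ∃ g' : 𝕋 → ℂ, Measurable g' ∧ g' = (g : 𝕋 → ℂ))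
  obtain ⟨s, hs⟩ : ∃ s : Set 𝕋, s = {t | (g : 𝕋 → ℂ) t ≠ 0} := ⟨_, rfl⟩
  have hsm : MeasurableSet s := by
    rw [hs, ← hgg]
    exact (measurableSet_singleton (0 : ℂ)).compl.preimage hg'm
  have hint : ∀ f : LT, Integrable (fun t => ‖(f : 𝕋 → ℂ) t‖ ^ 2) mT := fun f =>
    (Lp.memLp f).integrable_norm_pow (by norm_num)
  have hbound : ∀ n : ℕ, mT.real s ≤ 4 * (1 / 4) ^ n := by
    intro n
    have h1 : 2 * mT.real s = ∫ t in s, (‖G.b n 0 1 t‖ ^ 2 + ‖G.b n 0 (-1) t‖ ^ 2) ∂mT := by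
      have h2 : ∫ t in s, (‖G.b n 0 1 t‖ ^ 2 + ‖G.b n 0 (-1) t‖ ^ 2) ∂mT =
          ∫ _ in s, (2 : ℝ) ∂mT := by
        apply integral_congr_ae
        exact ae_restrict_of_ae (G.sum_sq_b n)
      rw [h2, setIntegral_const, smul_eq_mul, mul_comm]
    have h3 : ∫ t in s, (‖G.b n 0 1 t‖ ^ 2 + ‖G.b n 0 (-1) t‖ ^ 2) ∂mT =
        ∫ t in s, (‖(x n 1 - G.b n 0 1 : LT) t‖ ^ 2 +
          ‖(x n (-1) - G.b n 0 (-1) : LT) t‖ ^ 2) ∂mT := by
      apply integral_congr_ae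
      rw [Filter.EventuallyEq, ae_restrict_iff' hsm]
      filter_upwards [mul_ae_zero g (x n 1) (h n 1), mul_ae_zero g (x n (-1)) (h n (-1)),
        Lp.coeFn_sub (x n 1) (G.b n 0 1), Lp.coeFn_sub (x n (-1)) (G.b n 0 (-1))]
        with t e1 e2 e3 e4 ht
      rw [hs] at ht
      rw [e3, e4, Pi.sub_apply, Pi.sub_apply, e1 ht, e2 ht, zero_sub, zero_sub, norm_neg,
        norm_neg]
    have h4 : ∀ σ : ℤˣ, ‖x n σ - G.b n 0 σ‖ ^ 2 ≤ 4 * (1 / 4) ^ n := by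
      intro σ
      have h5 := pow_le_pow_left₀ (norm_nonneg _) (hx n σ) 2
      have h6 : (2 * (1 / 2 : ℝ) ^ n) ^ 2 = 4 * (1 / 4) ^ n := by
        rw [mul_pow, ← pow_mul, mul_comm n 2, pow_mul]
        norm_num
      rwa [h6] at h5
    have h7 : ∫ t in s, (‖(x n 1 - G.b n 0 1 : LT) t‖ ^ 2 +
          ‖(x n (-1) - G.b n 0 (-1) : LT) t‖ ^ 2) ∂mT ≤
        ∫ t, (‖(x n 1 - G.b n 0 1 : LT) t‖ ^ 2 +
          ‖(x n (-1) - G.b n 0 (-1) : LT) t‖ ^ 2) ∂mT := by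
      refine setIntegral_le_integral ((hint _).add (hint _)) ?_
      exact Filter.Eventually.of_forall fun t => by positivity
    rw [integral_add (hint _) (hint _), ← norm_sq_LT, ← norm_sq_LT] at h7
    have h8 := h4 1
    have h9 := h4 (-1)
    linarith
  have hlim : Tendsto (fun n : ℕ => 4 * (1 / 4 : ℝ) ^ n) atTop (𝓝 0) := by
    have := (tendsto_pow_atTop_nhds_zero_of_lt_one (r := (1 / 4 : ℝ)) (by norm_num)
      (by norm_num)).const_mul 4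
    rwa [mul_zero] at this
  have h0 : mT.real s ≤ 0 := ge_of_tendsto' hlim hbound
  have h1 : mT s = 0 := by
    have h2 : mT.real s = 0 := le_antisymm h0 measureReal_nonneg
    rwa [measureReal_eq_zero_iff] at h2
  rw [Lp.eq_zero_iff_ae_eq_zero]
  rw [← compl_mem_ae_iff] at h1
  filter_upwards [h1] with t ht
  by_contra hc
  apply ht
  rw [hs]
  exact hc

end P130
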