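import Mathlib
import Vale.Agent.Lib.P130.JInter
import Vale.Agent.Lib.P130.JZero

/-!
# P130: `J` maps `H_1` onto `L²(𝕋)`

Let `R = J(H_1)`, a closed subspace (isometric image of a complete space), invariant under `mulF l`
for all `l : ℤ` (`J_inter`, `U_mem_Hk`, `exists_U_eq`).  Let `g ⟂ R`; apply
`eq_zero_of_mul_zero` with `x n σ = J (e n 0 σ)`.
-/

open MeasureTheory Filter Topology
open scoped ENNReal ComplexConjugate

namespace P130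

theorem J_iter {B : Blk} (J : B.H →L[ℂ] LT)
    (hint : ∀ f ∈ B.Hk 1, J (B.U f) = mulF 1 (J f)) (m : ℕ) (f : B.H) (hf : f ∈ B.Hk 1) :
    J (B.U^[m] f) = mulF m (J f) := by
  induction m with
  | zero =>
    rw [Function.iterate_zero, id, Nat.cast_zero, mulF_zero]
  | succ m ih =>
    rw [Function.iterate_succ_apply', hint _ (B.iter_mem 1 m f hf), ih, ← mulF_add,
      Nat.cast_succ, add_comm]

theorem exists_iter_eq {B : Blk} (m : ℕ) (f : B.H) (hf : f ∈ B.Hk 1) :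
    ∃ g ∈ B.Hk 1, B.U^[m] g = f := by
  induction m with
  | zero => exact ⟨f, hf, rfl⟩
  | succ m ih =>
    obtain ⟨g, hg, hgf⟩ := ih
    obtain ⟨g', hg', hgg⟩ := B.exists_U_eq 1 g hg
    refine ⟨g', hg', ?_⟩
    rw [Function.iterate_succ_apply, hgg, hgf]

theorem mulF_mem_range {B : Blk} (J : B.H →L[ℂ] LT)
    (hint : ∀ f ∈ B.Hk 1, J (B.U f) = mulF 1 (J f)) (l : ℤ) (f : B.H) (hf : f ∈ B.Hk 1) :
    ∃ f' ∈ B.Hk 1, J f' = mulF l (J f) := by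
  obtain ⟨m, hm | hm⟩ := Int.eq_nat_or_neg l
  · exact ⟨B.U^[m] f, B.iter_mem 1 m f hf, by rw [J_iter J hint m f hf, hm]⟩
  · obtain ⟨g, hg, hgf⟩ := exists_iter_eq m f hf
    refine ⟨g, hg, ?_⟩
    rw [← hgf, J_iter J hint m g hg, ← mulF_add, hm, neg_add_cancel, mulF_zero]

theorem J_surj {B : Blk} (G : Good B) (J : B.H →L[ℂ] LT)
    (hiso : ∀ f ∈ B.Hk 1, ‖J f‖ = ‖f‖)
    (hb : ∀ n i σ, i < B.M n → ‖J (B.e n i ((σ : ℤˣ) : ℤ)) - G.b n i σ‖ ≤ 2 * (1 / 2) ^ n)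
    (hint : ∀ f ∈ B.Hk 1, J (B.U f) = mulF 1 (J f)) (g : LT) :
    ∃ f ∈ B.Hk 1, J f = g := by
  have : CompleteSpace (B.Hk 1) := (B.isClosed_Hk 1).completeSpace_coe
  obtain ⟨W, hW⟩ : ∃ W : (B.Hk 1) →ₗᵢ[ℂ] LT, ∀ f : B.Hk 1, W f = J (f : B.H) := by
    refine ⟨⟨(J : B.H →ₗ[ℂ] LT).comp (B.Hk 1).subtype, fun f => ?_⟩, fun f => rfl⟩
    exact hiso f f.2
  obtain ⟨R, hR⟩ : ∃ R : Submodule ℂ LT, R = LinearMap.range W.toLinearMap := ⟨_, rfl⟩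
  have hmemR : ∀ g : LT, g ∈ R ↔ ∃ f ∈ B.Hk 1, J f = g := by
    intro g
    rw [hR, LinearMap.mem_range]
    constructor
    · rintro ⟨f, hf⟩
      exact ⟨f, f.2, (hW f).symm.trans hf⟩
    · rintro ⟨f, hf, hfg⟩
      exact ⟨⟨f, hf⟩, (hW ⟨f, hf⟩).trans hfg⟩
  have hRc : IsClosed (R : Set LT) := by
    have h1 := W.isometry.isClosedEmbedding.isClosed_range
    have h2 : (R : Set LT) = Set.range W := by
      rw [hR]
      rfl
    rw [h2]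
    exact h1
  have : CompleteSpace R := hRc.completeSpace_coe
  obtain ⟨r, hr, q, hq, hgq⟩ := Submodule.exists_add_mem_mem_orthogonal (K := R) g
  have hq0 : q = 0 := by
    refine eq_zero_of_mul_zero G q (fun n σ => J (B.e n 0 ((σ : ℤˣ) : ℤ)))
      (fun n σ => hb n 0 σ (B.M_pos n)) fun n σ l => ?_
    have h1 : B.e n 0 ((σ : ℤˣ) : ℤ) ∈ B.Hk 1 := by
      have h2 := B.Hn_le_Hk n _ (B.e_mem_Hn n 0 ((σ : ℤˣ) : ℤ) (B.M_pos n))
      rwa [Int.natAbs_of_isUnit (Units.isUnit σ)] at h2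
    exact (Submodule.mem_orthogonal' R q).1 hq _
      ((hmemR _).2 (mulF_mem_range J hint l _ h1))
  rw [hq0, add_zero] at hgq
  rw [hgq]
  exact (hmemR r).1 hr

end P130
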