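import Mathlib
import Vale.Agent.Lib.P130.JSurj

/-!
# P130: the isometry `V : L²(𝕋) → L²(Y)` onto `H_1`
-/

open MeasureTheory Filter Topology
open scoped ENNReal ComplexConjugate

namespace P130

/-- `V` is the inverse of `J` restricted to `H_1`. -/
theorem exists_V {B : Blk} (G : Good B) : ∃ V : LT →ₗᵢ[ℂ] B.H,
    (∀ g, V (mulF 1 g) = B.U (V g)) ∧ (∀ f, f ∈ B.Hk 1 ↔ ∃ g, V g = f) := by
  obtain ⟨J, hiso, hb, hlim⟩ := exists_J G
  have hint : ∀ f ∈ B.Hk 1, J (B.U f) = mulF 1 (J f) := J_inter G J hlim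
  have hsurj := J_surj G J hiso hb hint
  obtain ⟨W, hW⟩ : ∃ W : (B.Hk 1) →ₗᵢ[ℂ] LT, ∀ f : B.Hk 1, W f = J (f : B.H) := by
    refine ⟨⟨(J : B.H →ₗ[ℂ] LT).comp (B.Hk 1).subtype, fun f => ?_⟩, fun f => rfl⟩
    exact hiso f f.2
  have hWs : Function.Surjective W := by
    intro g
    obtain ⟨f, hf, hfg⟩ := hsurj g
    exact ⟨⟨f, hf⟩, (hW _).trans hfg⟩
  obtain ⟨We, hWe⟩ : ∃ We : (B.Hk 1) ≃ₗᵢ[ℂ] LT, ∀ f : B.Hk 1, We f = J (f : B.H) :=
    ⟨LinearIsometryEquiv.ofSurjective W hWs, fun f => hW f⟩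
  obtain ⟨V, hV⟩ : ∃ V : LT →ₗᵢ[ℂ] B.H, ∀ g, V g = ((We.symm g : B.Hk 1) : B.H) :=
    ⟨(B.Hk 1).subtypeₗᵢ.comp We.symm.toLinearIsometry, fun g => rfl⟩
  have hVmem : ∀ g, V g ∈ B.Hk 1 := fun g => by
    rw [hV]
    exact (We.symm g).2
  have hJV : ∀ g, J (V g) = g := by
    intro g
    rw [hV, ← hWe, LinearIsometryEquiv.apply_symm_apply]
  refine ⟨V, ?_, ?_⟩
  · intro g
    have h1 : V (mulF 1 g) - B.U (V g) ∈ B.Hk 1 :=
      Submodule.sub_mem _ (hVmem _) (B.U_mem_Hk 1 _ (hVmem g))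
    have h2 := hiso _ h1
    rw [map_sub, hJV, hint _ (hVmem g), hJV, sub_self, norm_zero] at h2
    exact sub_eq_zero.1 (norm_eq_zero.1 h2.symm)
  · intro f
    constructor
    · intro hf
      refine ⟨J f, ?_⟩
      have h1 : V (J f) - f ∈ B.Hk 1 := Submodule.sub_mem _ (hVmem _) hf
      have h2 := hiso _ h1
      rw [map_sub, hJV, sub_self, norm_zero] at h2
      exact sub_eq_zero.1 (norm_eq_zero.1 h2.symm)
    · rintro ⟨g, rfl⟩
      exact hVmem g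

end P130
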