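import Mathlib
import Vale.Agent.Lib.P130.ChirpDefs

/-!
# P130: Fourier coefficients of `|chC|²`

`|chC κ L t|² = ∑_{|l| < L} c_l e(l t)`, `c_l = e(l²/(4κL)) ∑_{j < L - l} e(j l / (2κL))` for `l ≥ 0`
(from `((j+l)² - j²)/(4κL) = l²/(4κL) + j l/(2κL)`) and `c_{-l} = conj c_l`.

* `|c_l| / (2κL) ≤ 1/(2|l|)` for `1 ≤ |l| < L`: geometric sum,
  `|1 - e(x)| = 2 |sin πx| ≥ 4x` for `0 ≤ x ≤ 1/2`, at `x = l/(2κL)`;
* for fixed `l`, `c_l / (2κL) → ∫_0^{1/(2κ)} e(l x) dx` as `L → ∞` (geometric sums again, or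
  Riemann sums), which is the `l`-th Fourier coefficient of the indicator of `[-1/(2κ), 0)`.
-/

open MeasureTheory Filter Topology
open scoped ENNReal ComplexConjugate

namespace P130

/-! ### the exponential -/

/-- `e(x)` -/
private noncomputable def ee (x : ℝ) : ℂ := Complex.exp (2 * Real.pi * Complex.I * x)

private theorem fourier_one_coe (x : ℝ) : (fourier 1 (x : 𝕋) : ℂ) = ee x := by
  rw [fourier_coe_apply]
  unfold ee
  congr 1
  push_cast
  ring

private theorem fourier_neg_coe (l : ℤ) (x : ℝ) : (fourier (-l) (x : 𝕋) : ℂ) = ee (-(l * x)) := by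
  rw [fourier_coe_apply]
  unfold ee
  congr 1
  push_cast
  ring

private theorem ee_add (x y : ℝ) : ee (x + y) = ee x * ee y := by
  unfold ee
  rw [← Complex.exp_add]
  congr 1
  push_cast
  ring

private theorem ee_zero : ee 0 = 1 := by
  unfold ee
  simp

private theorem ee_conj (x : ℝ) : conj (ee x) = ee (-x) := by
  unfold ee
  rw [← Complex.exp_conj]
  congr 1
  simp
  exact Or.inl (map_ofNat _ 2)

private theorem norm_ee (x : ℝ) : ‖ee x‖ = 1 := by
  unfold ee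
  have h : 2 * (Real.pi : ℂ) * Complex.I * x = ((2 * Real.pi * x : ℝ) : ℂ) * Complex.I := by
    push_cast
    ring
  rw [h, Complex.norm_exp_ofReal_mul_I]

private theorem ee_nat_mul (n : ℕ) (x : ℝ) : ee (n * x) = ee x ^ n := by
  unfold ee
  rw [← Complex.exp_nat_mul]
  congr 1
  push_cast
  ring

private theorem norm_ee_sub_one {x : ℝ} (h0 : 0 ≤ x) (h1 : x ≤ 1 / 2) : 4 * x ≤ ‖ee x - 1‖ := by
  have h : ee x = Complex.exp (Complex.I * ((2 * Real.pi * x : ℝ) : ℂ)) := by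
    unfold ee
    congr 1
    push_cast
    ring
  rw [h, Complex.norm_exp_I_mul_ofReal_sub_one]
  have h2 : 2 * Real.pi * x / 2 = Real.pi * x := by ring
  rw [h2]
  have hpi := Real.pi_pos
  have h3 := Real.mul_le_sin (x := Real.pi * x) (by positivity) (by nlinarith)
  have h4 : 2 / Real.pi * (Real.pi * x) = 2 * x := by
    field_simp
  rw [h4] at h3
  rw [Real.norm_of_nonneg (by linarith)]
  linarith

private theorem norm_geom_le {x : ℝ} (h0 : 0 < x) (h1 : x ≤ 1 / 2) (n : ℕ) :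
    ‖∑ j ∈ Finset.range n, ee (j * x)‖ ≤ 1 / (2 * x) := by
  have h2 := norm_ee_sub_one h0.le h1
  have h3 : 0 < ‖ee x - 1‖ := by linarith
  have h4 : ee x ≠ 1 := by
    intro h
    rw [h, sub_self, norm_zero] at h3
    exact lt_irrefl _ h3
  simp_rw [ee_nat_mul]
  rw [geom_sum_eq h4, norm_div, div_le_div_iff₀ h3 (by positivity)]
  have h5 : ‖ee x ^ n - 1‖ ≤ 2 := by
    calc ‖ee x ^ n - 1‖ ≤ ‖ee x ^ n‖ + ‖(1 : ℂ)‖ := norm_sub_le _ _
      _ = 2 := by
        rw [norm_pow, norm_ee, one_pow, norm_one]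
        norm_num
  nlinarith [norm_nonneg (ee x ^ n - 1)]

/-! ### the autocorrelation -/

private theorem normSq_chC (κ L : ℕ) (t : 𝕋) :
    ((‖chC κ L t‖ ^ 2 : ℝ) : ℂ) = ∑ i ∈ Finset.range L, ∑ j ∈ Finset.range L,
      (ee ((i : ℝ) ^ 2 / (4 * κ * L)) * ee (-((j : ℝ) ^ 2 / (4 * κ * L)))) *
        fourier ((i : ℤ) - (j : ℤ)) t := by
  have h1 : ((‖chC κ L t‖ ^ 2 : ℝ) : ℂ) = chC κ L t * conj (chC κ L t) := by
    rw [Complex.mul_conj, Complex.normSq_eq_norm_sq]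
  rw [h1]
  unfold chC
  rw [map_sum, Finset.sum_mul_sum]
  refine Finset.sum_congr rfl fun i _ => Finset.sum_congr rfl fun j _ => ?_
  rw [map_mul, fourier_one_coe, fourier_one_coe, ee_conj, ← fourier_neg, sub_eq_add_neg,
    fourier_add]
  ring

private theorem fourierCoeff_fourier' (n l : ℤ) :
    fourierCoeff (fun t : 𝕋 => (fourier n t : ℂ)) l = if l = n then 1 else 0 := by
  have h := congrFun (fourierCoeff_fourier (T := (1 : ℝ)) n) l
  rw [Pi.single_apply] at h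
  exact h

private theorem integrable_cont {f : 𝕋 → ℂ} (hf : Continuous f) :
    Integrable f (AddCircle.haarAddCircle : Measure 𝕋) :=
  hf.integrable_of_hasCompactSupport (HasCompactSupport.of_compactSpace f)

private theorem fourierCoeff_double (L : ℕ) (a : ℕ → ℕ → ℂ) (l : ℤ) :
    fourierCoeff (fun t : 𝕋 => ∑ i ∈ Finset.range L, ∑ j ∈ Finset.range L,
      a i j * fourier ((i : ℤ) - (j : ℤ)) t) l =
      ∑ i ∈ Finset.range L, ∑ j ∈ Finset.range L,
        a i j * (if l = (i : ℤ) - (j : ℤ) then 1 else 0) := by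
  have h1 : ∀ i j : ℕ, Integrable (fun t : 𝕋 => fourier (-l) t • (a i j *
      fourier ((i : ℤ) - (j : ℤ)) t)) (AddCircle.haarAddCircle : Measure 𝕋) := by
    intro i j
    apply integrable_cont
    exact (map_continuous (fourier (-l))).smul
      (continuous_const.mul (map_continuous (fourier ((i : ℤ) - (j : ℤ)))))
  unfold fourierCoeff
  simp_rw [Finset.smul_sum]
  rw [integral_finsetSum _ (fun i _ => integrable_finsetSum _ (fun j _ => h1 i j))]
  refine Finset.sum_congr rfl fun i _ => ?_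
  rw [integral_finsetSum _ (fun j _ => h1 i j)]
  refine Finset.sum_congr rfl fun j _ => ?_
  have h2 := fourierCoeff.const_mul (T := (1 : ℝ)) (fun t : 𝕋 => (fourier ((i : ℤ) - (j : ℤ)) t : ℂ))
    (a i j) l
  rw [fourierCoeff_fourier'] at h2
  exact h2

/-- the autocorrelation formula -/
theorem fourierCoeff_chC (κ L : ℕ) (l : ℕ) :
    fourierCoeff (fun t : 𝕋 => ((‖chC κ L t‖ ^ 2 : ℝ) : ℂ)) (l : ℤ) =
      fourier 1 ((((l : ℝ) ^ 2 / (4 * κ * L) : ℝ)) : 𝕋) *
        ∑ j ∈ Finset.range (L - l), fourier 1 (((j : ℝ) * l / (2 * κ * L) : ℝ) : 𝕋) := by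
  simp_rw [normSq_chC, fourier_one_coe]
  rw [fourierCoeff_double L (fun i j => ee ((i : ℝ) ^ 2 / (4 * κ * L)) *
    ee (-((j : ℝ) ^ 2 / (4 * κ * L)))) l, Finset.sum_comm, Finset.mul_sum]
  have h1 : ∀ j ∈ Finset.range L, ∑ i ∈ Finset.range L, (ee ((i : ℝ) ^ 2 / (4 * κ * L)) *
      ee (-((j : ℝ) ^ 2 / (4 * κ * L)))) * (if (l : ℤ) = (i : ℤ) - (j : ℤ) then 1 else 0) =
      if j + l < L then ee ((l : ℝ) ^ 2 / (4 * κ * L)) * ee ((j : ℝ) * l / (2 * κ * L))
        else 0 := by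
    intro j _
    have h2 : ∀ i ∈ Finset.range L, (ee ((i : ℝ) ^ 2 / (4 * κ * L)) *
        ee (-((j : ℝ) ^ 2 / (4 * κ * L)))) * (if (l : ℤ) = (i : ℤ) - (j : ℤ) then 1 else 0) =
        if i = j + l then ee ((l : ℝ) ^ 2 / (4 * κ * L)) * ee ((j : ℝ) * l / (2 * κ * L))
          else 0 := by
      intro i _
      by_cases h : i = j + l
      · rw [if_pos (by rw [h]; push_cast; ring), if_pos h, mul_one, ← ee_add, ← ee_add, h]
        congr 1
        push_cast
        ring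
      · rw [if_neg (by intro h'; apply h; omega), if_neg h, mul_zero]
    rw [Finset.sum_congr rfl h2, Finset.sum_ite_eq' (Finset.range L) (j + l)
      (fun _ => ee ((l : ℝ) ^ 2 / (4 * κ * L)) * ee ((j : ℝ) * l / (2 * κ * L)))]
    simp only [Finset.mem_range]
  rw [Finset.sum_congr rfl h1, ← Finset.sum_filter]
  apply Finset.sum_congr _ fun _ _ => rfl
  ext j
  simp only [Finset.mem_filter, Finset.mem_range]
  omega

/-- coefficients at negative indices are complex conjugates (real function) -/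
theorem fourierCoeff_neg_conj (f : 𝕋 → ℝ) (l : ℤ) :
    fourierCoeff (fun t : 𝕋 => ((f t : ℝ) : ℂ)) (-l) =
      conj (fourierCoeff (fun t : 𝕋 => ((f t : ℝ) : ℂ)) l) := by
  unfold fourierCoeff
  rw [← integral_conj]
  refine integral_congr_ae (ae_of_all _ fun t => ?_)
  simp only [smul_eq_mul, map_mul, Complex.conj_ofReal]
  rw [← fourier_neg]

/-- the coefficients of the normalised function -/
private theorem coef_norm (κ L : ℕ) (l : ℤ) :
    fourierCoeff (fun t : 𝕋 => ((‖chC κ L t‖ ^ 2 / (2 * κ * L) : ℝ) : ℂ)) l =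
      ((1 / (2 * κ * L) : ℝ) : ℂ) *
        fourierCoeff (fun t : 𝕋 => ((‖chC κ L t‖ ^ 2 : ℝ) : ℂ)) l := by
  rw [← fourierCoeff.const_mul]
  congr 1
  funext t
  rw [← Complex.ofReal_mul]
  congr 1
  ring

private theorem coef_norm_nat (κ L : ℕ) (l : ℕ) :
    fourierCoeff (fun t : 𝕋 => ((‖chC κ L t‖ ^ 2 / (2 * κ * L) : ℝ) : ℂ)) (l : ℤ) =
      ((1 / (2 * κ * L) : ℝ) : ℂ) * (ee ((l : ℝ) ^ 2 / (4 * κ * L)) *
        ∑ j ∈ Finset.range (L - l), ee ((j : ℝ) * ((l : ℝ) / (2 * κ * L)))) := by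
  rw [coef_norm, fourierCoeff_chC]
  simp_rw [fourier_one_coe, mul_div_assoc]

private theorem norm_coef_nat (κ L : ℕ) (hκ : 1 ≤ κ) (l : ℕ) (hl : 1 ≤ l) :
    ‖fourierCoeff (fun t : 𝕋 => ((‖chC κ L t‖ ^ 2 / (2 * κ * L) : ℝ) : ℂ)) (l : ℤ)‖ ≤
      1 / (2 * (l : ℝ)) := by
  rw [coef_norm_nat]
  have hl0 : (0 : ℝ) < l := by exact_mod_cast hl
  rcases le_or_gt L l with h | h
  · rw [Nat.sub_eq_zero_of_le h, Finset.range_zero, Finset.sum_empty, mul_zero, mul_zero,
      norm_zero]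
    positivity
  · have hL0 : (0 : ℝ) < L := by exact_mod_cast (by omega : 0 < L)
    have hκ0 : (0 : ℝ) < κ := by exact_mod_cast hκ
    have hκ1 : (1 : ℝ) ≤ κ := by exact_mod_cast hκ
    have hlL : (l : ℝ) ≤ L := by exact_mod_cast h.le
    have hx0 : 0 < (l : ℝ) / (2 * κ * L) := by positivity
    have hx1 : (l : ℝ) / (2 * κ * L) ≤ 1 / 2 := by
      rw [div_le_div_iff₀ (by positivity) (by norm_num)]
      nlinarith
    rw [norm_mul, norm_mul, norm_ee, one_mul, Complex.norm_real,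
      Real.norm_of_nonneg (by positivity)]
    calc 1 / (2 * κ * L) * ‖∑ j ∈ Finset.range (L - l), ee ((j : ℝ) * ((l : ℝ) / (2 * κ * L)))‖ ≤
        1 / (2 * κ * L) * (1 / (2 * ((l : ℝ) / (2 * κ * L)))) :=
          mul_le_mul_of_nonneg_left (norm_geom_le hx0 hx1 _) (by positivity)
      _ = 1 / (2 * (l : ℝ)) := by
          field_simp

theorem norm_fourierCoeff_chC_le (κ L : ℕ) (hκ : 1 ≤ κ) (l : ℤ) (hl : l ≠ 0) :
    ‖fourierCoeff (fun t : 𝕋 => ((‖chC κ L t‖ ^ 2 / (2 * κ * L) : ℝ) : ℂ)) l‖ ≤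
      1 / (2 * |(l : ℝ)|) := by
  obtain ⟨n, hn | hn⟩ := Int.eq_nat_or_neg l
  · subst hn
    have hn1 : 1 ≤ n := by
      rcases Nat.eq_zero_or_pos n with h | h
      · exact absurd (by rw [h]; rfl) hl
      · exact h
    have h1 : |(((n : ℕ) : ℤ) : ℝ)| = (n : ℝ) := by
      rw [Int.cast_natCast, abs_of_nonneg (Nat.cast_nonneg n)]
    rw [h1]
    exact norm_coef_nat κ L hκ n hn1
  · subst hn
    have hn1 : 1 ≤ n := by
      rcases Nat.eq_zero_or_pos n with h | h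
      · exact absurd (by rw [h]; rfl) hl
      · exact h
    have h1 : |((-((n : ℕ) : ℤ) : ℤ) : ℝ)| = (n : ℝ) := by
      rw [Int.cast_neg, Int.cast_natCast, abs_neg, abs_of_nonneg (Nat.cast_nonneg n)]
    rw [h1, fourierCoeff_neg_conj, RCLike.norm_conj]
    exact norm_coef_nat κ L hκ n hn1

/-! ### the arc -/

/-- coefficients of the arc as an integral over the arc -/
private theorem coef_Iset_eq (κ : ℕ) (hκ : 1 ≤ κ) (l : ℤ) :
    fourierCoeff (fun t : 𝕋 => (((Iset κ).indicator (fun _ => (1 : ℝ)) t : ℝ) : ℂ)) l =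
      ∫ x in (-(1 / (2 * (κ : ℝ))))..0, fourier (-l) (x : 𝕋) := by
  set b : ℝ := 1 / (2 * (κ : ℝ)) with hb
  have hκ1 : (1 : ℝ) ≤ κ := by exact_mod_cast hκ
  have hb0 : 0 < b := by positivity
  have hb1 : b ≤ 1 / 2 := by
    rw [hb]
    apply one_div_le_one_div_of_le (by norm_num)
    linarith
  rw [fourierCoeff_eq_intervalIntegral _ l (-1)]
  have e0 : (-1 : ℝ) + 1 = 0 := by norm_num
  rw [e0, div_one, one_smul, intervalIntegral.integral_of_le (by norm_num),
    intervalIntegral.integral_of_le (by linarith), integral_Ioc_eq_integral_Ioo,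
    integral_Ioc_eq_integral_Ioo]
  have h1 : ∀ x ∈ Set.Ioo (-1 : ℝ) 0,
      fourier (-l) (x : 𝕋) • (((Iset κ).indicator (fun _ => (1 : ℝ)) (x : 𝕋) : ℝ) : ℂ) =
        (Set.Ico (-b) 0).indicator (fun x : ℝ => (fourier (-l) (x : 𝕋) : ℂ)) x := by
    intro x hx
    have h2 : (x : 𝕋) ∈ Iset κ ↔ x ∈ Set.Ico (-b) 0 := by
      unfold Iset
      constructor
      · rintro ⟨y, hy, hyx⟩
        have hy1 : y ∈ Set.Ico (-1 : ℝ) (-1 + 1) := ⟨by linarith [hy.1], by linarith [hy.2]⟩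
        have hx1 : x ∈ Set.Ico (-1 : ℝ) (-1 + 1) := ⟨hx.1.le, by linarith [hx.2]⟩
        have h3 := (AddCircle.coe_eq_coe_iff_of_mem_Ico hy1 hx1).mp hyx
        rw [← h3]
        exact hy
      · intro h
        exact ⟨x, h, rfl⟩
    by_cases hxb : x ∈ Set.Ico (-b) 0
    · rw [Set.indicator_of_mem (h2.mpr hxb), Set.indicator_of_mem hxb, Complex.ofReal_one,
        smul_eq_mul, mul_one]
    · rw [Set.indicator_of_notMem (fun h => hxb (h2.mp h)), Set.indicator_of_notMem hxb,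
        Complex.ofReal_zero, smul_zero]
  rw [setIntegral_congr_fun measurableSet_Ioo h1, setIntegral_indicator measurableSet_Ico]
  have h3 : Set.Ioo (-1 : ℝ) 0 ∩ Set.Ico (-b) 0 = Set.Ico (-b) 0 := by
    apply Set.inter_eq_right.mpr
    intro x hx
    exact ⟨by linarith [hx.1], hx.2⟩
  rw [h3, integral_Ico_eq_integral_Ioo]

private theorem coef_Iset_zero (κ : ℕ) (hκ : 1 ≤ κ) :
    fourierCoeff (fun t : 𝕋 => (((Iset κ).indicator (fun _ => (1 : ℝ)) t : ℝ) : ℂ)) 0 =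
      ((1 / (2 * (κ : ℝ)) : ℝ) : ℂ) := by
  rw [coef_Iset_eq κ hκ 0]
  simp_rw [neg_zero, fourier_zero]
  rw [intervalIntegral.integral_const, sub_neg_eq_add, zero_add, Complex.real_smul, mul_one]

private theorem coef_Iset_ne (κ : ℕ) (hκ : 1 ≤ κ) {l : ℤ} (hl : l ≠ 0) :
    fourierCoeff (fun t : 𝕋 => (((Iset κ).indicator (fun _ => (1 : ℝ)) t : ℝ) : ℂ)) l =
      (ee ((l : ℝ) / (2 * κ)) - 1) / (2 * Real.pi * Complex.I * l) := by
  rw [coef_Iset_eq κ hκ l]
  have hF : Fact ((0 : ℝ) < 1) := inferInstance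
  have h1 : ∀ x ∈ Set.uIcc (-(1 / (2 * (κ : ℝ)))) 0,
      HasDerivAt (fun y : ℝ => ((1 : ℝ) : ℂ) / (-2 * Real.pi * Complex.I * l) *
        fourier (-l) (y : AddCircle (1 : ℝ))) (fourier (-l) (x : AddCircle (1 : ℝ))) x :=
    fun x _ => has_antideriv_at_fourier_neg hF hl x
  have hcont : Continuous (fun x : ℝ => (fourier (-l) (x : 𝕋) : ℂ)) :=
    (map_continuous (fourier (-l))).comp (AddCircle.continuous_mk' 1)
  rw [intervalIntegral.integral_eq_sub_of_hasDerivAt h1 (hcont.intervalIntegrable _ _)]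
  have h2 : (fourier (-l) ((0 : ℝ) : AddCircle (1 : ℝ)) : ℂ) = 1 := by
    rw [fourier_neg_coe, mul_zero, neg_zero, ee_zero]
  have h3 : (fourier (-l) ((-(1 / (2 * (κ : ℝ))) : ℝ) : AddCircle (1 : ℝ)) : ℂ) =
      ee ((l : ℝ) / (2 * κ)) := by
    rw [fourier_neg_coe]
    congr 1
    ring
  rw [h2, h3]
  have hl0 : (l : ℂ) ≠ 0 := by exact_mod_cast hl
  have hpi : (Real.pi : ℂ) ≠ 0 := by exact_mod_cast Real.pi_ne_zero
  have hI := Complex.I_ne_zero
  push_cast
  field_simp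
  ring

theorem norm_fourierCoeff_Iset_le (κ : ℕ) (hκ : 1 ≤ κ) (l : ℤ) (hl : l ≠ 0) :
    ‖fourierCoeff (fun t : 𝕋 => (((Iset κ).indicator (fun _ => (1 : ℝ)) t : ℝ) : ℂ)) l‖ ≤
      1 / |(l : ℝ)| := by
  rw [coef_Iset_ne κ hκ hl, norm_div, norm_mul, norm_mul, norm_mul, Complex.norm_I,
    Complex.norm_real, Real.norm_of_nonneg Real.pi_pos.le, mul_one]
  have h0 : ‖(l : ℂ)‖ = |(l : ℝ)| := by
    rw [← Complex.ofReal_intCast, Complex.norm_real, Real.norm_eq_abs]
  have h1 : ‖(2 : ℂ)‖ = 2 := by norm_num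
  rw [h0, h1]
  have hl0 : 0 < |(l : ℝ)| := abs_pos.mpr (by exact_mod_cast hl)
  have h2 : ‖ee ((l : ℝ) / (2 * κ)) - 1‖ ≤ 2 := by
    calc ‖ee ((l : ℝ) / (2 * κ)) - 1‖ ≤ ‖ee ((l : ℝ) / (2 * κ))‖ + ‖(1 : ℂ)‖ := norm_sub_le _ _
      _ = 2 := by
        rw [norm_ee, norm_one]
        norm_num
  have hpi : 1 ≤ Real.pi := by linarith [Real.pi_gt_three]
  rw [div_le_div_iff₀ (by positivity) hl0]
  nlinarith

/-! ### the limit -/

private theorem ee_hasDerivAt : HasDerivAt ee (2 * Real.pi * Complex.I) 0 := by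
  have h := hasDerivAt_fourier (1 : ℝ) 1 0
  have h1 : (fun y : ℝ => (fourier 1 (y : AddCircle (1 : ℝ)) : ℂ)) = ee := by
    funext y
    exact fourier_one_coe y
  rw [h1] at h
  have h2 : (2 * Real.pi * Complex.I * ((1 : ℤ) : ℂ) / ((1 : ℝ) : ℂ) *
      fourier 1 ((0 : ℝ) : AddCircle (1 : ℝ)) : ℂ) = 2 * Real.pi * Complex.I := by
    rw [fourier_one_coe, ee_zero]
    push_cast
    ring
  rw [h2] at h
  exact h

private theorem ee_continuous : Continuous ee := by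
  unfold ee
  fun_prop

private theorem tendsto_nat_pos (κ : ℕ) (hκ : 1 ≤ κ) (l : ℕ) (hl : 1 ≤ l) :
    Tendsto (fun L : ℕ => fourierCoeff
      (fun t : 𝕋 => ((‖chC κ L t‖ ^ 2 / (2 * κ * L) : ℝ) : ℂ)) (l : ℤ)) atTop
      (𝓝 ((ee ((l : ℝ) / (2 * κ)) - 1) / (2 * Real.pi * Complex.I * l))) := by
  have hκ0 : (0 : ℝ) < κ := by exact_mod_cast hκ
  have hκ1 : (1 : ℝ) ≤ κ := by exact_mod_cast hκ
  have hl0 : (0 : ℝ) < l := by exact_mod_cast hl
  -- the small parameter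
  set x : ℕ → ℝ := fun L => (l : ℝ) / (2 * κ * L) with hx
  have hx0 : Tendsto x atTop (𝓝 0) := by
    apply Tendsto.div_atTop tendsto_const_nhds
    exact Tendsto.const_mul_atTop (by positivity) tendsto_natCast_atTop_atTop
  have hx1 : Tendsto x atTop (𝓝[≠] 0) := by
    rw [tendsto_nhdsWithin_iff]
    refine ⟨hx0, ?_⟩
    filter_upwards [eventually_gt_atTop 0] with L hL
    have hL0 : (0 : ℝ) < L := by exact_mod_cast hL
    simp only [hx, Set.mem_compl_iff, Set.mem_singleton_iff]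
    positivity
  have hslope := ee_hasDerivAt.tendsto_slope_zero.comp hx1
  have hpiI : (2 * Real.pi * Complex.I : ℂ) ≠ 0 := by
    have hpi : (Real.pi : ℂ) ≠ 0 := by exact_mod_cast Real.pi_ne_zero
    exact mul_ne_zero (mul_ne_zero two_ne_zero hpi) Complex.I_ne_zero
  have hinv := hslope.inv₀ hpiI
  have hA : Tendsto (fun L : ℕ => ee ((l : ℝ) ^ 2 / (4 * κ * L))) atTop (𝓝 1) := by
    rw [← ee_zero]
    refine (ee_continuous.tendsto 0).comp ?_
    apply Tendsto.div_atTop tendsto_const_nhds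
    exact Tendsto.const_mul_atTop (by positivity) tendsto_natCast_atTop_atTop
  have hB : Tendsto (fun L : ℕ => ee ((l : ℝ) / (2 * κ) - l * x L) - 1) atTop
      (𝓝 (ee ((l : ℝ) / (2 * κ)) - 1)) := by
    apply Tendsto.sub_const
    refine (ee_continuous.tendsto _).comp ?_
    have h1 : Tendsto (fun L : ℕ => (l : ℝ) / (2 * κ) - l * x L) atTop
        (𝓝 ((l : ℝ) / (2 * κ) - l * 0)) := tendsto_const_nhds.sub (hx0.const_mul _)
    rwa [mul_zero, sub_zero] at h1
  have hlim := (hA.mul hB).mul (hinv.const_mul ((1 : ℂ) / l))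
  have hval : (1 * (ee ((l : ℝ) / (2 * κ)) - 1) * (1 / (l : ℂ) * (2 * Real.pi * Complex.I)⁻¹) : ℂ) =
      (ee ((l : ℝ) / (2 * κ)) - 1) / (2 * Real.pi * Complex.I * l) := by
    have hlc : (l : ℂ) ≠ 0 := by exact_mod_cast hl0.ne'
    field_simp
  rw [hval] at hlim
  refine hlim.congr' ?_
  filter_upwards [eventually_ge_atTop (l + 1)] with L hL
  have hL0 : (0 : ℝ) < L := by exact_mod_cast (by omega : 0 < L)
  have hlL : (l : ℝ) ≤ L := by exact_mod_cast (by omega : l ≤ L)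
  have hxL0 : 0 < x L := by
    simp only [hx]
    positivity
  have hxL1 : x L ≤ 1 / 2 := by
    simp only [hx]
    rw [div_le_div_iff₀ (by positivity) (by norm_num)]
    nlinarith
  have hne : ee (x L) ≠ 1 := by
    intro h
    have h1 := norm_ee_sub_one hxL0.le hxL1
    rw [h, sub_self, norm_zero] at h1
    linarith
  have hne' : ee (x L) - 1 ≠ 0 := sub_ne_zero.mpr hne
  rw [coef_norm_nat]
  have hsum : ∑ j ∈ Finset.range (L - l), ee ((j : ℝ) * ((l : ℝ) / (2 * κ * L))) =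
      (ee ((l : ℝ) / (2 * κ) - l * x L) - 1) / (ee (x L) - 1) := by
    have h1 : ∀ j ∈ Finset.range (L - l), ee ((j : ℝ) * ((l : ℝ) / (2 * κ * L))) =
        ee (x L) ^ j := fun j _ => ee_nat_mul j (x L)
    rw [Finset.sum_congr rfl h1, geom_sum_eq hne, ← ee_nat_mul]
    congr 3
    rw [Nat.cast_sub (by omega)]
    simp only [hx]
    field_simp
  rw [hsum]
  simp only [Function.comp_apply, zero_add, ee_zero]
  have hxc : ((x L : ℝ) : ℂ) ≠ 0 := by exact_mod_cast hxL0.ne'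
  have hlc : (l : ℂ) ≠ 0 := by exact_mod_cast hl0.ne'
  have hk : ((1 / (2 * κ * L) : ℝ) : ℂ) = ((x L : ℝ) : ℂ) / l := by
    rw [← Complex.ofReal_natCast, ← Complex.ofReal_div]
    congr 1
    simp only [hx]
    field_simp
  rw [hk, Complex.real_smul, Complex.ofReal_inv]
  field_simp

theorem fourierCoeff_chC_tendsto (κ : ℕ) (hκ : 1 ≤ κ) (l : ℤ) :
    Tendsto (fun L : ℕ => fourierCoeff
      (fun t : 𝕋 => ((‖chC κ L t‖ ^ 2 / (2 * κ * L) : ℝ) : ℂ)) l) atTop
      (𝓝 (fourierCoeff (fun t : 𝕋 => (((Iset κ).indicator (fun _ => (1 : ℝ)) t : ℝ) : ℂ)) l)) := by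
  have hκ0 : (0 : ℝ) < κ := by exact_mod_cast hκ
  obtain ⟨n, hn⟩ := Int.eq_nat_or_neg l
  rcases Nat.eq_zero_or_pos n with h0 | h0
  · have hl : l = ((0 : ℕ) : ℤ) := by
      rcases hn with h | h
      · rw [h, h0]
      · rw [h, h0]
        rfl
    rw [hl]
    have h1 := coef_Iset_zero κ hκ
    rw [show (((0 : ℕ) : ℤ)) = 0 from rfl, h1]
    apply tendsto_const_nhds.congr'
    filter_upwards [eventually_gt_atTop 0] with L hL
    have hL0 : (0 : ℝ) < L := by exact_mod_cast hL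
    have h2 := coef_norm_nat κ L 0
    rw [show (((0 : ℕ) : ℤ)) = 0 from rfl] at h2
    rw [h2]
    simp only [Nat.cast_zero, zero_div, mul_zero, ee_zero, ne_eq, OfNat.ofNat_ne_zero,
      not_false_eq_true, zero_pow, Nat.sub_zero, Finset.sum_const, Finset.card_range,
      nsmul_eq_mul, mul_one, one_mul]
    rw [← Complex.ofReal_natCast, ← Complex.ofReal_mul]
    congr 1
    field_simp
  · have hnz : ((n : ℕ) : ℤ) ≠ 0 := by omega
    rcases hn with h | h
    · rw [h, coef_Iset_ne κ hκ hnz, Int.cast_natCast, Int.cast_natCast]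
      exact tendsto_nat_pos κ hκ n h0
    · rw [h]
      have h1 := tendsto_nat_pos κ hκ n h0
      have h2 := (Complex.continuous_conj.tendsto _).comp h1
      have h3 : fourierCoeff (fun t : 𝕋 => (((Iset κ).indicator (fun _ => (1 : ℝ)) t : ℝ) : ℂ))
          (-((n : ℕ) : ℤ)) = conj ((ee ((n : ℝ) / (2 * κ)) - 1) / (2 * Real.pi * Complex.I * n)) := by
        rw [fourierCoeff_neg_conj, coef_Iset_ne κ hκ hnz, Int.cast_natCast, Int.cast_natCast]
      rw [h3]
      refine h2.congr fun L => ?_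
      simp only [Function.comp_apply]
      rw [← fourierCoeff_neg_conj]

end P130
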