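import Mathlib
import Vale.Agent.Lib.P130.Defs

/-!
# P130: convergence in `L²` from dominated convergence of the Fourier coefficients
-/

open MeasureTheory Filter Topology
open scoped ENNReal

namespace P130

theorem fourierCoeff_sub (f g : 𝕋 → ℂ) (hf : Integrable f mT) (hg : Integrable g mT) (l : ℤ) :
    fourierCoeff (fun t => f t - g t) l = fourierCoeff f l - fourierCoeff g l := by
  unfold fourierCoeff
  rw [← integral_sub (hf.fourier_smul _) (hg.fourier_smul _)]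
  congr 1
  funext t
  rw [smul_sub]

/-- Parseval for functions -/
theorem hasSum_sq_coeff (f : 𝕋 → ℂ) (hf : MemLp f 2 mT) :
    HasSum (fun l : ℤ => ‖fourierCoeff f l‖ ^ 2) (∫ t, ‖f t‖ ^ 2 ∂mT) := by
  have h1 := hasSum_sq_fourierCoeff (hf.toLp f)
  rw [fourierCoeff_congr_ae hf.coeFn_toLp] at h1
  have h2 : ∫ t, ‖(hf.toLp f : 𝕋 → ℂ) t‖ ^ 2 ∂mT = ∫ t, ‖f t‖ ^ 2 ∂mT := by
    apply integral_congr_ae
    filter_upwards [hf.coeFn_toLp] with t ht
    rw [ht]
  rw [h2] at h1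
  exact h1

/-- Parseval (`tsum_sq_fourierCoeff` for `toLp (f n - g)`, `fourierCoeff_congr_ae`) and
`tendsto_tsum_of_dominated_convergence`. -/
theorem tendsto_sq_of_coeff (f : ℕ → 𝕋 → ℂ) (g : 𝕋 → ℂ) (hf : ∀ n, MemLp (f n) 2 mT)
    (hg : MemLp g 2 mT)
    (hc : ∀ l : ℤ, Tendsto (fun n => fourierCoeff (f n) l) atTop (𝓝 (fourierCoeff g l)))
    (bd : ℤ → ℝ) (hbd : Summable bd)
    (hb : ∀ n l, ‖fourierCoeff (f n) l - fourierCoeff g l‖ ^ 2 ≤ bd l) :
    Tendsto (fun n => ∫ t, ‖f n t - g t‖ ^ 2 ∂mT) atTop (𝓝 0) := by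
  have h1 : ∀ n, ∫ t, ‖f n t - g t‖ ^ 2 ∂mT =
      ∑' l : ℤ, ‖fourierCoeff (f n) l - fourierCoeff g l‖ ^ 2 := by
    intro n
    have h2 := hasSum_sq_coeff (fun t => f n t - g t) ((hf n).sub hg)
    rw [← h2.tsum_eq]
    congr 1
    funext l
    rw [fourierCoeff_sub _ _ ((hf n).integrable (by norm_num)) (hg.integrable (by norm_num))]
  simp_rw [h1]
  have h3 : (0 : ℝ) = ∑' _ : ℤ, (0 : ℝ) := by
    rw [tsum_zero]
  rw [h3]
  refine tendsto_tsum_of_dominated_convergence hbd ?_ ?_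
  · intro l
    have h4 := (hc l).sub_const (fourierCoeff g l)
    rw [sub_self] at h4
    have h5 := (h4.norm).pow 2
    rw [norm_zero, zero_pow (by norm_num)] at h5
    exact h5
  · refine Filter.Eventually.of_forall fun n l => ?_
    rw [Real.norm_of_nonneg (by positivity)]
    exact hb n l

end P130
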