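import Mathlib
import Vale.Agent.Lib.P130.ChirpCoef
import Vale.Agent.Lib.P130.Pars

/-!
# P130: flatness of the basic chirp

From `ChirpCoef.lean` and `tendsto_sq_of_coeff`, with the bound `bd l = (2 / |l|)²` for `l ≠ 0` and a
constant for `l = 0` (`fourierCoeff_chC` at `l = 0` gives `L / (2κL) ≤ 1`).
-/

open MeasureTheory Filter Topology
open scoped ENNReal

namespace P130

theorem continuous_chC (κ L : ℕ) : Continuous (chC κ L) := by
  unfold chC
  fun_prop

theorem measurableSet_Iset (κ : ℕ) : MeasurableSet (Iset κ) := by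
  unfold Iset
  have hcont : Continuous (fun x : ℝ => (x : 𝕋)) := continuous_quotient_mk'
  refine MeasurableSet.image_of_continuousOn_injOn measurableSet_Ico hcont.continuousOn ?_
  have h1 : Set.Ico (-(1 / (2 * (κ : ℝ)))) 0 ⊆ Set.Ico (-1 : ℝ) (-1 + 1) := by
    intro x hx
    refine ⟨?_, by simpa using hx.2⟩
    have h2 : 1 / (2 * (κ : ℝ)) ≤ 1 := by
      rcases Nat.eq_zero_or_pos κ with h | h
      · simp [h]
      · have h3 : (1 : ℝ) ≤ κ := by exact_mod_cast h
        rw [div_le_one (by linarith)]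
        linarith
    linarith [hx.1]
  intro x hx y hy hxy
  exact (AddCircle.coe_eq_coe_iff_of_mem_Ico (h1 hx) (h1 hy)).1 hxy

theorem chC_tendsto (κ : ℕ) (hκ : 1 ≤ κ) :
    Tendsto (fun L : ℕ => ∫ t, (‖chC κ L t‖ ^ 2 / (2 * κ * L) -
      (Iset κ).indicator (fun _ => (1 : ℝ)) t) ^ 2 ∂mT) atTop (𝓝 0) := by
  have hf : ∀ L : ℕ, MemLp (fun t : 𝕋 => ((‖chC κ L t‖ ^ 2 / (2 * κ * L) : ℝ) : ℂ)) 2 mT := by
    intro L
    have hc : Continuous (fun t : 𝕋 => ((‖chC κ L t‖ ^ 2 / (2 * κ * L) : ℝ) : ℂ)) := by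
      have := continuous_chC κ L
      fun_prop
    exact hc.memLp_of_hasCompactSupport (HasCompactSupport.of_compactSpace _)
  have hg : MemLp (fun t : 𝕋 => (((Iset κ).indicator (fun _ => (1 : ℝ)) t : ℝ) : ℂ)) 2 mT := by
    refine MemLp.of_bound (Complex.measurable_ofReal.comp
      (measurable_const.indicator (measurableSet_Iset κ))).aestronglyMeasurable 1 ?_
    refine Filter.Eventually.of_forall fun t => ?_
    by_cases ht : t ∈ Iset κ
    · simp [ht]
    · simp [ht]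
  obtain ⟨K, hK⟩ := (((fourierCoeff_chC_tendsto κ hκ 0).sub_const
    (fourierCoeff (fun t : 𝕋 => (((Iset κ).indicator (fun _ => (1 : ℝ)) t : ℝ) : ℂ)) 0)).norm.pow
      2).bddAbove_range
  have hK' : ∀ L : ℕ, ‖fourierCoeff
      (fun t : 𝕋 => ((‖chC κ L t‖ ^ 2 / (2 * κ * L) : ℝ) : ℂ)) 0 -
      fourierCoeff (fun t : 𝕋 => (((Iset κ).indicator (fun _ => (1 : ℝ)) t : ℝ) : ℂ)) 0‖ ^ 2
        ≤ K := fun L => hK ⟨L, rfl⟩
  have hmain := tendsto_sq_of_coeff
    (fun L : ℕ => fun t : 𝕋 => ((‖chC κ L t‖ ^ 2 / (2 * κ * L) : ℝ) : ℂ))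
    (fun t : 𝕋 => (((Iset κ).indicator (fun _ => (1 : ℝ)) t : ℝ) : ℂ)) hf hg
    (fourierCoeff_chC_tendsto κ hκ)
    (fun l : ℤ => 4 * (1 / (l : ℝ) ^ 2) + (if l = 0 then K else 0)) ?_ ?_
  · refine hmain.congr fun L => ?_
    refine integral_congr_ae (Filter.Eventually.of_forall fun t => ?_)
    simp only
    rw [← Complex.ofReal_sub, Complex.norm_real, Real.norm_eq_abs, sq_abs]
  · refine Summable.add ?_ ?_
    · exact (Real.summable_one_div_int_pow.2 (by norm_num)).mul_left 4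
    · exact (hasSum_ite_eq (0 : ℤ) K).summable
  · intro L l
    by_cases hl : l = 0
    · subst hl
      have := hK' L
      simpa using this
    · rw [if_neg hl, add_zero]
      have h1 := norm_fourierCoeff_chC_le κ L hκ l hl
      have h2 := norm_fourierCoeff_Iset_le κ hκ l hl
      have h3 := norm_sub_le (fourierCoeff
        (fun t : 𝕋 => ((‖chC κ L t‖ ^ 2 / (2 * κ * L) : ℝ) : ℂ)) l)
        (fourierCoeff (fun t : 𝕋 => (((Iset κ).indicator (fun _ => (1 : ℝ)) t : ℝ) : ℂ)) l)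
      have hl' : 0 < |(l : ℝ)| := abs_pos.2 (by exact_mod_cast hl)
      have h4 : ‖fourierCoeff
        (fun t : 𝕋 => ((‖chC κ L t‖ ^ 2 / (2 * κ * L) : ℝ) : ℂ)) l -
        fourierCoeff (fun t : 𝕋 => (((Iset κ).indicator (fun _ => (1 : ℝ)) t : ℝ) : ℂ)) l‖
          ≤ 2 / |(l : ℝ)| := by
        refine h3.trans ((add_le_add h1 h2).trans ?_)
        rw [div_add_div _ _ (by positivity) hl'.ne', div_le_div_iff₀ (by positivity) hl']
        nlinarith [sq_nonneg (|(l : ℝ)|), mul_pos hl' hl']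
      calc _ ≤ (2 / |(l : ℝ)|) ^ 2 := by
            exact pow_le_pow_left₀ (norm_nonneg _) h4 2
        _ = 4 * (1 / (l : ℝ) ^ 2) := by
            rw [div_pow, sq_abs]
            ring

end P130
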