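import Mathlib
import Vale.Agent.Lib.P130.ChirpDefs

/-!
# P130: the block polynomial in terms of the basic chirp; combinatorics of the chirp blocks
-/

open MeasureTheory Filter Topology
open scoped ENNReal

namespace P130

private theorem chK_sum (L : ℕ) (f : ℕ → ℂ) (κ : ℕ) :
    ∑ j ∈ Finset.range (κ * L), f j =
      ∑ r ∈ Finset.range κ, ∑ i ∈ Finset.range L, f (r * L + i) := by
  induction κ with
  | zero => simp
  | succ κ ih =>
    rw [Nat.succ_mul, Finset.sum_range_add, Finset.sum_range_succ, ih]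

private theorem chK_f1 (x : 𝕋) : fourier 1 x = ((AddCircle.toCircle x : Circle) : ℂ) := by
  rw [fourier_one]

private theorem chK_A (κ L r i : ℕ) (hr : r < κ) (hi : i < L) :
    chA κ L (r * L + i) = (((r : ℝ) * (i : ℝ) / κ + (i : ℝ) ^ 2 / (4 * κ * L) : ℝ) : 𝕋) := by
  have hL : 0 < L := by omega
  have h1 : r * L + i < κ * L := by
    calc r * L + i < r * L + L := by omega
      _ = (r + 1) * L := by ring
      _ ≤ κ * L := Nat.mul_le_mul_right L hr
  have h2 : (r * L + i) / L = r := by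
    rw [Nat.add_comm, Nat.add_mul_div_right _ _ hL, Nat.div_eq_of_lt hi, Nat.zero_add]
  have h3 : (r * L + i) % L = i := by
    rw [Nat.add_comm, Nat.add_mul_mod_self_right, Nat.mod_eq_of_lt hi]
  unfold chA
  rw [Nat.mod_eq_of_lt h1, h2, h3]

/-- split `j = r L + i`. -/
theorem chP_eq (κ L : ℕ) (hκ : 1 ≤ κ) (hL : 0 < L) (t : 𝕋) :
    chP κ L t = ∑ r ∈ Finset.range κ, fourier ((r * L : ℕ) : ℤ) t *
      chC κ L (t + (((r : ℝ) / κ : ℝ) : 𝕋)) := by
  unfold chP
  rw [chK_sum]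
  refine Finset.sum_congr rfl fun r hr => ?_
  unfold chC
  rw [Finset.mul_sum]
  refine Finset.sum_congr rfl fun i hi => ?_
  rw [Finset.mem_range] at hr hi
  rw [chK_A κ L r i hr hi]
  simp only [fourier_apply, one_zsmul]
  rw [← Circle.coe_mul, ← Circle.coe_mul, ← Circle.coe_mul, ← AddCircle.toCircle_add,
    ← AddCircle.toCircle_add, ← AddCircle.toCircle_add]
  congr 2
  have e1 : ((i : ℤ)) • (((r : ℝ) / κ : ℝ) : 𝕋) = (((r : ℝ) * (i : ℝ) / κ : ℝ) : 𝕋) := by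
    rw [← AddCircle.coe_zsmul]
    congr 1
    rw [zsmul_eq_mul]
    push_cast
    ring
  rw [smul_add, e1, AddCircle.coe_add, Nat.cast_add, add_smul]
  abel

private theorem chK_rep (t : 𝕋) : ∃ x : ℝ, 0 ≤ x ∧ x < 1 ∧ (x : 𝕋) = t := by
  refine ⟨(AddCircle.equivIco 1 0 t : ℝ), (AddCircle.equivIco 1 0 t).2.1, ?_,
    AddCircle.coe_equivIco⟩
  have := (AddCircle.equivIco 1 0 t).2.2
  linarith

private theorem chK_coe (x y : ℝ) : (x : 𝕋) = (y : 𝕋) ↔ ∃ m : ℤ, x = y + m := by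
  rw [← sub_eq_zero, ← AddCircle.coe_sub, AddCircle.coe_eq_zero_iff]
  constructor
  · rintro ⟨m, hm⟩
    refine ⟨m, ?_⟩
    rw [zsmul_eq_mul, mul_one] at hm
    linarith
  · rintro ⟨m, hm⟩
    refine ⟨m, ?_⟩
    rw [zsmul_eq_mul, mul_one]
    linarith

private theorem chK_K {κ q : ℕ} {x f : ℝ} (hf0 : 0 ≤ f) (hf1 : f < 1)
    (hx : κ * x = q + f) : (x : 𝕋) ∈ Kset κ ↔ 1 / 2 ≤ f := by
  unfold Kset Ihalf
  rw [Set.mem_ofPred_eq, ← AddCircle.coe_nsmul, nsmul_eq_mul, hx]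
  constructor
  · rintro ⟨y, hy, hyx⟩
    obtain ⟨m, hm⟩ := (chK_coe _ _).1 hyx
    have h1 := hy.1
    have h2 := hy.2
    -- y = q + f + m
    have h3 : ((q : ℤ) + m : ℤ) = 0 := by
      have h4 : (((q : ℤ) + m : ℤ) : ℝ) = y - f := by push_cast; linarith
      have h5 : (((q : ℤ) + m : ℤ) : ℝ) < 1 := by rw [h4]; linarith
      have h6 : (-1 : ℝ) < (((q : ℤ) + m : ℤ) : ℝ) := by rw [h4]; linarith
      have h7 : ((q : ℤ) + m : ℤ) < 1 := by exact_mod_cast h5
      have h8 : (-1 : ℤ) < ((q : ℤ) + m : ℤ) := by exact_mod_cast h6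
      omega
    have h9 : (q : ℝ) + m = 0 := by exact_mod_cast h3
    linarith
  · intro h
    refine ⟨f, ⟨h, hf1⟩, ?_⟩
    rw [chK_coe]
    refine ⟨-(q : ℤ), ?_⟩
    push_cast
    ring

private theorem chK_I {κ q r : ℕ} {x f : ℝ} (hκ : 1 ≤ κ) (hq : q < κ) (hr : r < κ)
    (hf0 : 0 ≤ f) (hf1 : f < 1) (hx : κ * x = q + f) :
    (x : 𝕋) + (((r : ℝ) / κ : ℝ) : 𝕋) ∈ Iset κ ↔ (r + q + 1 = κ ∧ 1 / 2 ≤ f) := by
  have hκ0 : (0 : ℝ) < κ := by exact_mod_cast hκ
  unfold Iset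
  rw [← AddCircle.coe_add]
  constructor
  · rintro ⟨z, hz, hzx⟩
    obtain ⟨m, hm⟩ := (chK_coe _ _).1 hzx
    have h1 : -(1 / 2) ≤ κ * z := by
      have := mul_le_mul_of_nonneg_left hz.1 hκ0.le
      have e : (κ : ℝ) * -(1 / (2 * (κ : ℝ))) = -(1 / 2) := by field_simp
      linarith
    have h2 : κ * z < 0 := mul_neg_of_pos_of_neg hκ0 hz.2
    have h3 : κ * z = q + f + r + κ * m := by
      rw [hm, mul_add, mul_add, hx, mul_div_cancel₀ _ hκ0.ne']
    have h4 : ((q : ℤ) + r + κ * m : ℤ) = -1 := by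
      have h5 : (((q : ℤ) + r + κ * m : ℤ) : ℝ) = κ * z - f := by push_cast; linarith
      have h6 : (((q : ℤ) + r + κ * m : ℤ) : ℝ) < 0 := by rw [h5]; linarith
      have h7 : (-2 : ℝ) < (((q : ℤ) + r + κ * m : ℤ) : ℝ) := by rw [h5]; linarith
      have h8 : ((q : ℤ) + r + κ * m : ℤ) < 0 := by exact_mod_cast h6
      have h9 : (-2 : ℤ) < ((q : ℤ) + r + κ * m : ℤ) := by exact_mod_cast h7
      omega
    have hm1 : m = -1 := by
      have hκz : (1 : ℤ) ≤ κ := by exact_mod_cast hκ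
      have hqz : (q : ℤ) < κ := by exact_mod_cast hq
      have hrz : (r : ℤ) < κ := by exact_mod_cast hr
      have hq0 : (0 : ℤ) ≤ q := Int.natCast_nonneg q
      have hr0 : (0 : ℤ) ≤ r := Int.natCast_nonneg r
      have h10 : m < 0 := by
        by_contra hcon
        have : (0 : ℤ) ≤ κ * m := mul_nonneg (by omega) (by omega)
        omega
      have h11 : -2 < m := by
        by_contra hcon
        have : (κ : ℤ) * m ≤ κ * (-2) := mul_le_mul_of_nonneg_left (by omega) (by omega)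
        omega
      omega
    subst hm1
    refine ⟨by omega, ?_⟩
    have h12 : ((q : ℝ) + r + κ * ((-1 : ℤ) : ℝ)) = -1 := by exact_mod_cast h4
    linarith
  · rintro ⟨h1, h2⟩
    have h3 : (r : ℝ) + q + 1 = κ := by exact_mod_cast h1
    refine ⟨x + r / κ - 1, ⟨?_, ?_⟩, ?_⟩
    · have e : x + r / κ - 1 - -(1 / (2 * (κ : ℝ))) = (κ * x + r - κ + 1 / 2) / κ := by
        field_simp
        ring
      have : 0 ≤ x + r / κ - 1 - -(1 / (2 * (κ : ℝ))) := by
        rw [e, hx]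
        apply div_nonneg _ hκ0.le
        linarith
      linarith
    · have e : x + r / κ - 1 = (κ * x + r - κ) / κ := by
        field_simp
      rw [e, hx]
      apply div_neg_of_neg_of_pos _ hκ0
      linarith
    · rw [chK_coe]
      exact ⟨-1, by push_cast; ring⟩

/-- `Kset κ` is the disjoint union of the `Iset κ - r/κ`. -/
theorem indicator_Kset (κ : ℕ) (hκ : 1 ≤ κ) (t : 𝕋) :
    (Kset κ).indicator (fun _ => (1 : ℝ)) t =
      ∑ r ∈ Finset.range κ, (Iset κ).indicator (fun _ => (1 : ℝ)) (t + (((r : ℝ) / κ : ℝ) : 𝕋)) := by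
  classical
  obtain ⟨x, hx0, hx1, rfl⟩ := chK_rep t
  have hκ0 : (0 : ℝ) < κ := by exact_mod_cast hκ
  have hy0 : 0 ≤ κ * x := mul_nonneg hκ0.le hx0
  set q : ℕ := ⌊κ * x⌋₊ with hq
  set f : ℝ := κ * x - q with hf
  have hf0 : 0 ≤ f := by
    have := Nat.floor_le hy0
    rw [hf]
    linarith
  have hf1 : f < 1 := by
    have := Nat.lt_floor_add_one (κ * x)
    rw [hf]
    linarith
  have hqκ : q < κ := by
    have h1 : (q : ℝ) < κ := by
      have h2 := Nat.floor_le hy0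
      nlinarith
    exact_mod_cast h1
  have hx : κ * x = q + f := by rw [hf]; ring
  have h1 : ∀ r ∈ Finset.range κ, (Iset κ).indicator (fun _ => (1 : ℝ))
      ((x : 𝕋) + (((r : ℝ) / κ : ℝ) : 𝕋)) =
      if r = κ - 1 - q then (if 1 / 2 ≤ f then (1 : ℝ) else 0) else 0 := by
    intro r hr
    rw [Finset.mem_range] at hr
    have h2 := chK_I hκ hqκ hr hf0 hf1 hx
    by_cases h3 : (x : 𝕋) + (((r : ℝ) / κ : ℝ) : 𝕋) ∈ Iset κ
    · have h4 := h2.1 h3
      rw [Set.indicator_of_mem h3, if_pos (by omega), if_pos h4.2]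
    · rw [Set.indicator_of_notMem h3]
      by_cases h4 : r = κ - 1 - q
      · rw [if_pos h4]
        by_cases h5 : 1 / 2 ≤ f
        · exact absurd (h2.2 ⟨by omega, h5⟩) h3
        · rw [if_neg h5]
      · rw [if_neg h4]
  rw [Finset.sum_congr rfl h1, Finset.sum_ite_eq' (Finset.range κ) (κ - 1 - q),
    if_pos (by rw [Finset.mem_range]; omega)]
  have h3 := chK_K (κ := κ) hf0 hf1 hx
  by_cases h4 : (x : 𝕋) ∈ Kset κ
  · rw [Set.indicator_of_mem h4, if_pos (h3.1 h4)]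
  · rw [Set.indicator_of_notMem h4, if_neg (fun h => h4 (h3.2 h))]

private theorem chK_A2 (κ L h r i : ℕ) (hr : r < κ) (hi : i < L) :
    chA κ L (h * (κ * L) + (r * L + i)) =
      (((r : ℝ) * (i : ℝ) / κ + (i : ℝ) ^ 2 / (4 * κ * L) : ℝ) : 𝕋) := by
  rw [← chK_A κ L r i hr hi]
  unfold chA
  rw [Nat.add_comm (h * (κ * L)), Nat.add_mul_mod_self_right]

private theorem chK_smul (κ L r i : ℕ) (hκ : 1 ≤ κ) :
    (κ : ℤ) • (((r : ℝ) * (i : ℝ) / κ + (i : ℝ) ^ 2 / (4 * κ * L) : ℝ) : 𝕋) =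
      (((i : ℝ) ^ 2 / (4 * L) : ℝ) : 𝕋) := by
  have hκ0 : (0 : ℝ) < κ := by exact_mod_cast hκ
  rw [← AddCircle.coe_zsmul, chK_coe]
  refine ⟨(r * i : ℕ), ?_⟩
  rw [zsmul_eq_mul]
  push_cast
  have e1 : (κ : ℝ) * ((r : ℝ) * (i : ℝ) / κ) = r * i := by field_simp
  have e2 : (κ : ℝ) * ((i : ℝ) ^ 2 / (4 * κ * L)) = (i : ℝ) ^ 2 / (4 * L) := by
    rw [← mul_div_assoc, mul_comm (κ : ℝ), mul_assoc, mul_comm (κ : ℝ) (L : ℝ), ← mul_assoc,
      mul_div_mul_right _ _ hκ0.ne']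
  rw [mul_add, e1, e2]
  ring

/-- for `j < 2 κ L` with `(j / L) % κ ≠ 0`, `j` and `j - L` are in the same half,
`j mod κL = r L + i`, `r ≥ 1`, `(j - L) mod κL = (r-1) L + i`, and
`κ (chA κ L j - chA κ L (j - L)) = i = 0` in the circle. -/
theorem chirp_kill (κ L j : ℕ) (hκ : 2 ≤ κ) (hL : 0 < L) (hj : j < 2 * κ * L)
    (h : (j / L) % κ ≠ 0) : chS κ L j = chS κ L (j - L) ∧
      (κ : ℤ) • chA κ L j = (κ : ℤ) • chA κ L (j - L) := by
  set i := j % L with hi
  set a := j / L with ha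
  set g := a / κ with hg
  obtain ⟨r, hr⟩ := Nat.exists_eq_succ_of_ne_zero h
  have hiL : i < L := Nat.mod_lt _ hL
  have hrκ : r + 1 < κ := by
    have := Nat.mod_lt a (by omega : 0 < κ)
    omega
  have e1 : j = L * a + i := (Nat.div_add_mod j L).symm
  have e2 : a = κ * g + (r + 1) := by
    have := (Nat.div_add_mod a κ).symm
    rw [hr] at this
    exact this
  have e3 : j = g * (κ * L) + ((r + 1) * L + i) := by
    rw [e1, e2]
    ring
  have e4 : j - L = g * (κ * L) + (r * L + i) := by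
    rw [e3]
    have : g * (κ * L) + ((r + 1) * L + i) = g * (κ * L) + (r * L + i) + L := by ring
    omega
  constructor
  · have h1 : (r + 1) * L + i < κ * L := by
      calc (r + 1) * L + i < (r + 1) * L + L := by omega
        _ = (r + 2) * L := by ring
        _ ≤ κ * L := Nat.mul_le_mul_right L hrκ
    have h2 : r * L + i < κ * L := by
      have : r * L ≤ (r + 1) * L := Nat.mul_le_mul_right L (by omega)
      omega
    unfold chS
    rcases Nat.eq_zero_or_pos g with hg0 | hg0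
    · rw [e4, e3, hg0, Nat.zero_mul, Nat.zero_add, Nat.zero_add, if_pos h1, if_pos h2]
    · have h3 : κ * L ≤ g * (κ * L) := Nat.le_mul_of_pos_left _ hg0
      rw [if_neg (by omega), if_neg (by omega)]
  · rw [e4, e3, chK_A2 κ L g (r + 1) i hrκ hiL, chK_A2 κ L g r i (by omega) hiL,
      chK_smul κ L (r + 1) i (by omega), chK_smul κ L r i (by omega)]

end P130
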