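import Mathlib
import Vale.Agent.Lib.P130.ChirpC
import Vale.Agent.Lib.P130.ChirpK

/-!
# P130: flatness of the block polynomial

`chP κ L t = ∑_{r < κ} e(r L t) chC κ L (t + r/κ)` (`chP_eq`).  With
`D_r = |chC κ L (t + r/κ)|/√(2κL)`, `D_r² → 1_{I - r/κ}` in `L²` (`chC_tendsto` and translation
invariance), the sets `Iset κ - r/κ`, `r < κ`, are disjoint with union `Kset κ`
(`indicator_Kset`: the sum of the indicators is at most `1`).  For `r ≠ r'`,
`∫ D_r D_{r'} ≤ (∫ D_r² D_{r'}²)^{1/2} → 0`.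
So `| |chP|²/(2κL) - 1_K | ≤ |∑ D_r² - 1_K| + ∑_{r ≠ r'} D_r D_{r'} → 0` in `L¹`, and
`(x - y)² ≤ |x² - y²|` for `x, y ≥ 0`.
-/

open MeasureTheory Filter Topology
open scoped ENNReal

namespace P130

/-- the deviation of the basic chirp. -/
noncomputable def chDev (κ L : ℕ) (t : 𝕋) : ℝ :=
  ‖chC κ L t‖ ^ 2 / (2 * κ * L) - (Iset κ).indicator (fun _ => (1 : ℝ)) t

lemma measurable_chDev (κ L : ℕ) : Measurable (chDev κ L) := by
  unfold chDev
  apply Measurable.sub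
  · exact (((continuous_chC κ L).norm.pow 2).measurable).div_const _
  · exact measurable_const.indicator (measurableSet_Iset κ)

lemma integrable_chDev_sq (κ L : ℕ) : Integrable (fun t => chDev κ L t ^ 2) mT := by
  have hc : Continuous (fun t : 𝕋 => ‖chC κ L t‖ ^ 2 / (2 * κ * L)) :=
    ((continuous_chC κ L).norm.pow 2).div_const _
  obtain ⟨C, hC⟩ := isCompact_univ.exists_bound_of_continuousOn hc.continuousOn
  refine Integrable.of_bound ((measurable_chDev κ L).pow_const 2).aestronglyMeasurable ((C + 1) ^ 2) ?_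
  refine Eventually.of_forall (fun t => ?_)
  have h1 := hC t (Set.mem_univ t)
  rw [Real.norm_eq_abs] at h1
  have h2 : |chDev κ L t| ≤ C + 1 := by
    unfold chDev
    refine (abs_sub _ _).trans (add_le_add h1 ?_)
    by_cases ht : t ∈ Iset κ
    · rw [Set.indicator_of_mem ht]; simp
    · rw [Set.indicator_of_notMem ht]; simp
  rw [Real.norm_eq_abs, abs_of_nonneg (sq_nonneg _), ← sq_abs]
  exact pow_le_pow_left₀ (abs_nonneg _) h2 2

/-- the elementary inequality behind the flatness: `D, D'` amplitudes, `i, i'` indicators. -/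
lemma cross_bound {δ D D' i i' : ℝ} (hδ : 0 < δ) (hi : i = 0 ∨ i = 1) (hi' : i' = 0 ∨ i' = 1)
    (hii : i * i' = 0) :
    D * D' ≤ δ + (1 / (2 * δ ^ 2) + 1 / 2) / (2 * δ) * ((D ^ 2 - i) ^ 2 + (D' ^ 2 - i') ^ 2) := by
  obtain ⟨a, ha⟩ : ∃ a, a = D ^ 2 - i := ⟨_, rfl⟩
  obtain ⟨b, hb⟩ : ∃ b, b = D' ^ 2 - i' := ⟨_, rfl⟩
  rw [← ha, ← hb]
  have h1 : D * D' ≤ δ / 2 + (D ^ 2 * D' ^ 2) / (2 * δ) := by
    have := sq_nonneg (D * D' - δ)
    have h2 : δ / 2 + (D ^ 2 * D' ^ 2) / (2 * δ) - D * D' = (D * D' - δ) ^ 2 / (2 * δ) := by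
      field_simp; ring
    have h3 : 0 ≤ (D * D' - δ) ^ 2 / (2 * δ) := by positivity
    linarith
  have h2 : D ^ 2 * D' ^ 2 ≤ |a| + |b| + (a ^ 2 + b ^ 2) / 2 := by
    have e1 : D ^ 2 = i + a := by rw [ha]; ring
    have e2 : D' ^ 2 = i' + b := by rw [hb]; ring
    rw [e1, e2]
    have e3 : (i + a) * (i' + b) = i * i' + i * b + i' * a + a * b := by ring
    rw [e3, hii]
    have h3 : i * b ≤ |b| := by
      rcases hi with h | h <;> rw [h]
      · simp
      · rw [one_mul]; exact le_abs_self b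
    have h4 : i' * a ≤ |a| := by
      rcases hi' with h | h <;> rw [h]
      · simp
      · rw [one_mul]; exact le_abs_self a
    have h5 : a * b ≤ (a ^ 2 + b ^ 2) / 2 := by nlinarith [sq_nonneg (a - b)]
    linarith
  have h3 : ∀ x : ℝ, |x| ≤ δ ^ 2 / 2 + x ^ 2 / (2 * δ ^ 2) := by
    intro x
    have h2 : δ ^ 2 / 2 + x ^ 2 / (2 * δ ^ 2) - |x| = (|x| - δ ^ 2) ^ 2 / (2 * δ ^ 2) := by
      rw [← sq_abs x]
      field_simp; ring
    have h3 : 0 ≤ (|x| - δ ^ 2) ^ 2 / (2 * δ ^ 2) := by positivity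
    linarith
  have h4 : D ^ 2 * D' ^ 2 ≤ δ ^ 2 + (a ^ 2 + b ^ 2) / (2 * δ ^ 2) + (a ^ 2 + b ^ 2) / 2 := by
    have := h3 a
    have := h3 b
    have e : (a ^ 2 + b ^ 2) / (2 * δ ^ 2) = a ^ 2 / (2 * δ ^ 2) + b ^ 2 / (2 * δ ^ 2) := by ring
    linarith
  have h5 := div_le_div_of_nonneg_right h4 (by positivity : 0 ≤ 2 * δ)
  refine h1.trans ?_
  refine (add_le_add_right h5 (δ / 2)).trans (le_of_eq ?_)
  field_simp
  ring

/-- pointwise bound. -/
lemma flat_pointwise (κ L : ℕ) (hκ : 1 ≤ κ) (hL : 0 < L) {δ : ℝ} (hδ : 0 < δ) (t : 𝕋) :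
    (‖chP κ L t‖ / Real.sqrt (2 * κ * L) - (Kset κ).indicator (fun _ => (1 : ℝ)) t) ^ 2 ≤
      (κ : ℝ) ^ 2 * δ + (κ : ℝ) * δ + (2 * κ * ((1 / (2 * δ ^ 2) + 1 / 2) / (2 * δ)) + 1 / (2 * δ)) *
        ∑ r ∈ Finset.range κ, chDev κ L (t + (((r : ℝ) / κ : ℝ) : 𝕋)) ^ 2 := by
  have hκ0 : (0 : ℝ) < κ := by exact_mod_cast hκ
  have hL0 : (0 : ℝ) < L := by exact_mod_cast hL
  have hc0 : (0 : ℝ) < 2 * κ * L := by positivity
  set c : ℝ := 2 * κ * L with hc
  set S := Real.sqrt c with hS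
  have hS0 : 0 < S := Real.sqrt_pos.mpr hc0
  have hSS : S ^ 2 = c := Real.sq_sqrt hc0.le
  set z : ℕ → ℂ := fun r => fourier ((r * L : ℕ) : ℤ) t * chC κ L (t + (((r : ℝ) / κ : ℝ) : 𝕋)) with hz
  set D : ℕ → ℝ := fun r => ‖chC κ L (t + (((r : ℝ) / κ : ℝ) : 𝕋))‖ / S with hD
  set i : ℕ → ℝ := fun r => (Iset κ).indicator (fun _ => (1 : ℝ)) (t + (((r : ℝ) / κ : ℝ) : 𝕋)) with hi
  have hD0 : ∀ r, 0 ≤ D r := fun r => by simp only [hD]; positivity
  have hdev : ∀ r : ℕ, chDev κ L (t + (((r : ℝ) / κ : ℝ) : 𝕋)) = D r ^ 2 - i r := by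
    intro r
    simp only [chDev, hD, hi, div_pow, hSS, hc]
  have hi01 : ∀ r, i r = 0 ∨ i r = 1 := by
    intro r
    by_cases h : (t + (((r : ℝ) / κ : ℝ) : 𝕋)) ∈ Iset κ
    · right; simp only [hi]; rw [Set.indicator_of_mem h]
    · left; simp only [hi]; rw [Set.indicator_of_notMem h]
  have hi0 : ∀ r, 0 ≤ i r := fun r => by rcases hi01 r with h | h <;> rw [h]; norm_num
  have hK : (Kset κ).indicator (fun _ => (1 : ℝ)) t = ∑ r ∈ Finset.range κ, i r := indicator_Kset κ hκ t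
  have hK01 : (∑ r ∈ Finset.range κ, i r = 0) ∨ (∑ r ∈ Finset.range κ, i r = 1) := by
    rw [← hK]
    by_cases h : t ∈ Kset κ
    · right; rw [Set.indicator_of_mem h]
    · left; rw [Set.indicator_of_notMem h]
  have hii : ∀ r ∈ Finset.range κ, ∀ s ∈ Finset.range κ, r ≠ s → i r * i s = 0 := by
    intro r hr s hs hrs
    rcases hi01 r with h | h
    · rw [h, zero_mul]
    rcases hi01 s with h' | h'
    · rw [h', mul_zero]
    exfalso
    have h2 : i r + i s ≤ ∑ r ∈ Finset.range κ, i r := by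
      rw [← Finset.sum_pair hrs]
      apply Finset.sum_le_sum_of_subset_of_nonneg
      · intro x hx
        rw [Finset.mem_insert, Finset.mem_singleton] at hx
        rcases hx with rfl | rfl <;> assumption
      · intro x _ _; exact hi0 x
    rw [h, h'] at h2
    rcases hK01 with h3 | h3 <;> linarith
  -- the norm of the sum
  have hP : chP κ L t = ∑ r ∈ Finset.range κ, z r := chP_eq κ L hκ hL t
  have hzn : ∀ r, ‖z r‖ = S * D r := by
    intro r
    simp only [hz, hD]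
    rw [norm_mul]
    have : ‖(fourier ((r * L : ℕ) : ℤ) t : ℂ)‖ = 1 := by
      rw [fourier_apply]; exact Circle.norm_coe _
    rw [this]
    field_simp
  -- `| |P|² - Σ |z_r|² | ≤ Σ_{r≠s} |z_r||z_s|`
  have hsq : |‖chP κ L t‖ ^ 2 - ∑ r ∈ Finset.range κ, ‖z r‖ ^ 2| ≤
      ∑ r ∈ Finset.range κ, ∑ s ∈ Finset.range κ, if r = s then 0 else ‖z r‖ * ‖z s‖ := by
    have e1 : ((‖chP κ L t‖ ^ 2 : ℝ) : ℂ) = ∑ r ∈ Finset.range κ, ∑ s ∈ Finset.range κ,
        z r * (starRingEnd ℂ) (z s) := by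
      rw [Complex.ofReal_pow, ← Complex.mul_conj', hP, map_sum, Finset.sum_mul_sum]
    have e2 : ((∑ r ∈ Finset.range κ, ‖z r‖ ^ 2 : ℝ) : ℂ) = ∑ r ∈ Finset.range κ, ∑ s ∈ Finset.range κ,
        if r = s then z r * (starRingEnd ℂ) (z s) else 0 := by
      push_cast
      apply Finset.sum_congr rfl
      intro r hr
      rw [Finset.sum_ite_eq, if_pos hr, Complex.mul_conj']
    have e3 : ((‖chP κ L t‖ ^ 2 - ∑ r ∈ Finset.range κ, ‖z r‖ ^ 2 : ℝ) : ℂ) =
        ∑ r ∈ Finset.range κ, ∑ s ∈ Finset.range κ,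
          if r = s then 0 else z r * (starRingEnd ℂ) (z s) := by
      rw [Complex.ofReal_sub, e1, e2, ← Finset.sum_sub_distrib]
      apply Finset.sum_congr rfl
      intro r _
      rw [← Finset.sum_sub_distrib]
      apply Finset.sum_congr rfl
      intro s _
      split_ifs <;> simp
    rw [← Real.norm_eq_abs, ← Complex.norm_real, e3]
    refine (norm_sum_le _ _).trans (Finset.sum_le_sum fun r _ => ?_)
    refine (norm_sum_le _ _).trans (Finset.sum_le_sum fun s _ => ?_)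
    split_ifs
    · simp
    · rw [norm_mul, RCLike.norm_conj]
  -- divide by `c`
  have hsq2 : |(‖chP κ L t‖ / S) ^ 2 - ∑ r ∈ Finset.range κ, D r ^ 2| ≤
      ∑ r ∈ Finset.range κ, ∑ s ∈ Finset.range κ, if r = s then 0 else D r * D s := by
    have e1 : (‖chP κ L t‖ / S) ^ 2 - ∑ r ∈ Finset.range κ, D r ^ 2 =
        (‖chP κ L t‖ ^ 2 - ∑ r ∈ Finset.range κ, ‖z r‖ ^ 2) / c := by
      rw [sub_div, div_pow, hSS, Finset.sum_div]
      congr 1
      apply Finset.sum_congr rfl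
      intro r _
      rw [hzn, mul_pow, hSS]
      field_simp
    have e2 : (∑ r ∈ Finset.range κ, ∑ s ∈ Finset.range κ, if r = s then 0 else D r * D s) =
        (∑ r ∈ Finset.range κ, ∑ s ∈ Finset.range κ, if r = s then 0 else ‖z r‖ * ‖z s‖) / c := by
      rw [Finset.sum_div]
      apply Finset.sum_congr rfl
      intro r _
      rw [Finset.sum_div]
      apply Finset.sum_congr rfl
      intro s _
      split_ifs
      · simp
      · rw [hzn, hzn, ← hSS]; field_simp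
    rw [e1, e2, abs_div, abs_of_pos hc0]
    exact div_le_div_of_nonneg_right hsq hc0.le
  -- `(x - y)² ≤ |x² - y²|`
  set x := ‖chP κ L t‖ / S with hx
  set y := (Kset κ).indicator (fun _ => (1 : ℝ)) t with hy
  have hx0 : 0 ≤ x := by positivity
  have hy01 : y = 0 ∨ y = 1 := by rw [hK]; exact hK01
  have hy0 : 0 ≤ y := by rcases hy01 with h | h <;> rw [h]; norm_num
  have hyy : y ^ 2 = ∑ r ∈ Finset.range κ, i r := by
    rw [← hK]; rcases hy01 with h | h <;> rw [h] <;> norm_num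
  have h1 : (x - y) ^ 2 ≤ |x ^ 2 - y ^ 2| := by
    have e : x ^ 2 - y ^ 2 = (x - y) * (x + y) := by ring
    rw [e, abs_mul, abs_of_nonneg (by linarith : 0 ≤ x + y), ← sq_abs, sq]
    apply mul_le_mul_of_nonneg_left _ (abs_nonneg _)
    rw [abs_le]; constructor <;> linarith
  have h2 : |x ^ 2 - y ^ 2| ≤ (∑ r ∈ Finset.range κ, ∑ s ∈ Finset.range κ, if r = s then 0 else D r * D s) +
      ∑ r ∈ Finset.range κ, |D r ^ 2 - i r| := by
    have e : x ^ 2 - y ^ 2 = (x ^ 2 - ∑ r ∈ Finset.range κ, D r ^ 2) +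
        ∑ r ∈ Finset.range κ, (D r ^ 2 - i r) := by
      rw [hyy, Finset.sum_sub_distrib]; ring
    rw [e]
    exact (abs_add_le _ _).trans (add_le_add hsq2 (Finset.abs_sum_le_sum_abs _ _))
  set K := (1 / (2 * δ ^ 2) + 1 / 2) / (2 * δ) with hKd
  have hKd0 : 0 ≤ K := by positivity
  set a : ℕ → ℝ := fun r => (D r ^ 2 - i r) ^ 2 with ha
  have ha0 : ∀ r, 0 ≤ a r := fun r => sq_nonneg _
  have h3 : (∑ r ∈ Finset.range κ, ∑ s ∈ Finset.range κ, if r = s then 0 else D r * D s) ≤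
      ∑ r ∈ Finset.range κ, ∑ s ∈ Finset.range κ, (δ + K * (a r + a s)) := by
    refine Finset.sum_le_sum fun r hr => Finset.sum_le_sum fun s hs => ?_
    split_ifs with hrs
    · have := ha0 r; have := ha0 s; positivity
    · exact cross_bound hδ (hi01 r) (hi01 s) (hii r hr s hs hrs)
  have h4 : ∑ r ∈ Finset.range κ, ∑ s ∈ Finset.range κ, (δ + K * (a r + a s)) =
      (κ : ℝ) ^ 2 * δ + 2 * κ * K * ∑ r ∈ Finset.range κ, a r := by
    simp only [Finset.sum_add_distrib, mul_add, Finset.sum_const, Finset.card_range, nsmul_eq_mul,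
      ← Finset.mul_sum]
    ring
  have h5 : ∑ r ∈ Finset.range κ, |D r ^ 2 - i r| ≤ (κ : ℝ) * δ + 1 / (2 * δ) * ∑ r ∈ Finset.range κ, a r := by
    have h6 : ∀ r ∈ Finset.range κ, |D r ^ 2 - i r| ≤ δ + 1 / (2 * δ) * a r := by
      intro r _
      have h7 : δ / 2 + 1 / (2 * δ) * a r - |D r ^ 2 - i r| = (|D r ^ 2 - i r| - δ) ^ 2 / (2 * δ) := by
        simp only [ha]
        rw [← sq_abs (D r ^ 2 - i r)]
        field_simp; ring
      have h8 : 0 ≤ (|D r ^ 2 - i r| - δ) ^ 2 / (2 * δ) := by positivity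
      linarith
    refine (Finset.sum_le_sum h6).trans (le_of_eq ?_)
    rw [Finset.sum_add_distrib, Finset.sum_const, Finset.card_range, nsmul_eq_mul, ← Finset.mul_sum]
  have h9 : ∑ r ∈ Finset.range κ, chDev κ L (t + (((r : ℝ) / κ : ℝ) : 𝕋)) ^ 2 =
      ∑ r ∈ Finset.range κ, a r := by
    apply Finset.sum_congr rfl
    intro r _
    rw [hdev]
  rw [h9]
  linarith

lemma int_shift (F : 𝕋 → ℝ) (s : 𝕋) : ∫ t, F (t + s) ∂mT = ∫ t, F t ∂mT :=
  integral_add_right_eq_self F s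

lemma integrable_shift {F : 𝕋 → ℝ} (hF : Integrable F mT) (s : 𝕋) :
    Integrable (fun t => F (t + s)) mT :=
  (measurePreserving_add_right mT s).integrable_comp_of_integrable hF

/-- integrated bound. -/
lemma flatErr_le (κ L : ℕ) (hκ : 1 ≤ κ) (hL : 0 < L) {δ : ℝ} (hδ : 0 < δ) :
    flatErr κ L ≤ (κ : ℝ) ^ 2 * δ + (κ : ℝ) * δ +
      (2 * κ * ((1 / (2 * δ ^ 2) + 1 / 2) / (2 * δ)) + 1 / (2 * δ)) * (κ * ∫ t, chDev κ L t ^ 2 ∂mT) := by
  have hint : ∀ s : 𝕋, Integrable (fun t => chDev κ L (t + s) ^ 2) mT :=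
    fun s => integrable_shift (integrable_chDev_sq κ L) s
  have hval : ∀ s : 𝕋, ∫ t, chDev κ L (t + s) ^ 2 ∂mT = ∫ t, chDev κ L t ^ 2 ∂mT :=
    fun s => int_shift (fun t => chDev κ L t ^ 2) s
  set C := (2 * (κ : ℝ) * ((1 / (2 * δ ^ 2) + 1 / 2) / (2 * δ)) + 1 / (2 * δ)) with hC
  have hI1 : Integrable (fun t : 𝕋 => C * ∑ r ∈ Finset.range κ, chDev κ L (t + (((r : ℝ) / κ : ℝ) : 𝕋)) ^ 2) mT :=
    (integrable_finsetSum _ (fun r _ => hint _)).const_mul C
  have hg : Integrable (fun t : 𝕋 => (κ : ℝ) ^ 2 * δ + (κ : ℝ) * δ +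
      C * ∑ r ∈ Finset.range κ, chDev κ L (t + (((r : ℝ) / κ : ℝ) : 𝕋)) ^ 2) mT :=
    (integrable_const _).add hI1
  unfold flatErr
  refine (integral_mono_of_nonneg (Eventually.of_forall fun t => sq_nonneg _) hg
    (Eventually.of_forall fun t => flat_pointwise κ L hκ hL hδ t)).trans (le_of_eq ?_)
  rw [integral_add (integrable_const _) hI1, integral_const, integral_const_mul,
    integral_finsetSum _ (fun r _ => hint _)]
  simp only [hval, Finset.sum_const, Finset.card_range, nsmul_eq_mul, smul_eq_mul]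
  simp

theorem flatErr_tendsto (κ : ℕ) (hκ : 1 ≤ κ) :
    Tendsto (fun L : ℕ => flatErr κ L) atTop (𝓝 0) := by
  have hκ0 : (0 : ℝ) < κ := by exact_mod_cast hκ
  have h := chC_tendsto κ hκ
  rw [Metric.tendsto_atTop]
  intro ε hε
  obtain ⟨δ, hδ, hδε⟩ : ∃ δ : ℝ, 0 < δ ∧ (κ : ℝ) ^ 2 * δ + (κ : ℝ) * δ ≤ ε / 2 := by
    refine ⟨ε / 2 / ((κ : ℝ) ^ 2 + κ), by positivity, le_of_eq ?_⟩
    field_simp
  set C := (2 * (κ : ℝ) * ((1 / (2 * δ ^ 2) + 1 / 2) / (2 * δ)) + 1 / (2 * δ)) with hC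
  have hC0 : 0 ≤ C := by positivity
  rw [Metric.tendsto_atTop] at h
  obtain ⟨N, hN⟩ := h (ε / 2 / (C * κ + 1)) (by positivity)
  refine ⟨max N 1, fun L hL => ?_⟩
  have hL1 : 0 < L := lt_of_lt_of_le one_pos ((le_max_right N 1).trans hL)
  have h1 := hN L ((le_max_left N 1).trans hL)
  rw [Real.dist_eq, sub_zero] at h1
  have h2 := flatErr_le κ L hκ hL1 hδ
  have h3 : ∫ t, chDev κ L t ^ 2 ∂mT < ε / 2 / (C * κ + 1) := lt_of_le_of_lt (le_abs_self _) h1
  have h30 : 0 ≤ ∫ t, chDev κ L t ^ 2 ∂mT := integral_nonneg fun t => sq_nonneg _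
  have h4 : 0 ≤ flatErr κ L := integral_nonneg fun t => sq_nonneg _
  rw [Real.dist_eq, sub_zero, abs_of_nonneg h4]
  have h5 : C * (κ * ∫ t, chDev κ L t ^ 2 ∂mT) < ε / 2 := by
    have h6 : (∫ t, chDev κ L t ^ 2 ∂mT) * (C * κ + 1) < ε / 2 := by
      rwa [lt_div_iff₀ (by positivity)] at h3
    nlinarith
  linarith

end P130
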