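import Mathlib
import Vale.Agent.Lib.P130.LevB

/-!
# P130: killing `H_k`, pointwise part
-/

open MeasureTheory Filter Topology
open scoped ENNReal

namespace P130

namespace Blk

variable (B : Blk)

/-- The condition on block `n` used to kill `H_k`: the block consists of `2 k` segments of length
`L`, and going from one segment to the next one of the same half does not change the sign and
changes the phase `a` only by an element killed by `k`. -/
def Kill (n k : ℕ) : Prop :=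
  ∃ L : ℕ, 0 < L ∧ B.m n = 2 * k * L ∧ ∀ j, j < B.m n → (j / L) % k ≠ 0 →
    B.s n j = B.s n (j - L) ∧ (k : ℤ) • B.a n j = (k : ℤ) • B.a n (j - L)

/-- Pointwise: let `h = L * M n`.  For `g ∈ Hn n k` and `y = (x, t)` with
`j = idx (n+1) x / M n`, `(j / L) % k ≠ 0`: `g (T^h y) = g y`.
Proof for `g = E n i κ`, `κ = ± k`: `j ≥ L`, `T_iterate` with `n + 1`, `idx (n+1) x = j M_n + i'`,
`A (n+1) (j M_n + i') = mul2 (A n i') g_j`; for `i' = i` (otherwise both sides vanish)
the point `act (inv2 (A n i)) (.)` for `T^h y` is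
`act g_{j-L} (act (inv2 g_j) s)`, `s = act (inv2 (A n i)) t`, i.e. `s + a_{j-L} - a_j`. -/
theorem E_T_kill (n k L i : ℕ) (κ : ℤ) (hκ : κ.natAbs = k) (hi : i < B.M n) (hL : 0 < L)
    (hm : B.m n = 2 * k * L)
    (hkill : ∀ j, j < B.m n → (j / L) % k ≠ 0 →
      B.s n j = B.s n (j - L) ∧ (k : ℤ) • B.a n j = (k : ℤ) • B.a n (j - L))
    (y : B.Y) (hy : ((B.idx (n + 1) y.1 / B.M n) / L) % k ≠ 0) :
    B.E n i κ (B.T^[L * B.M n] y) = B.E n i κ y := by
  obtain ⟨x, t⟩ := y
  have hM := B.M_pos n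
  have hlt := B.idx_lt (n + 1) x
  have hmod := B.idx_succ_mod n x
  change ((B.idx (n + 1) x / B.M n) / L) % k ≠ 0 at hy
  obtain ⟨j, hj⟩ : ∃ j, j = B.idx (n + 1) x / B.M n := ⟨_, rfl⟩
  obtain ⟨i', hi'⟩ : ∃ i', i' = B.idx n x := ⟨_, rfl⟩
  have hi'lt : i' < B.M n := hi' ▸ B.idx_lt n x
  rw [← hj] at hy
  have hdm : B.idx (n + 1) x = B.M n * j + i' := by
    rw [hi', ← hmod, hj]
    exact (Nat.div_add_mod _ _).symm
  have hjlt : j < B.m n := by
    rw [hj]
    apply Nat.div_lt_of_lt_mul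
    rw [← B.M_succ]
    exact hlt
  have hLj : L ≤ j := by
    by_contra hc
    rw [not_le] at hc
    rw [Nat.div_eq_of_lt hc, Nat.zero_mod] at hy
    exact hy rfl
  have hh : L * B.M n ≤ B.idx (n + 1) x := by
    rw [hdm, mul_comm L]
    exact (Nat.mul_le_mul_left _ hLj).trans (Nat.le_add_right _ _)
  have hsub : B.idx (n + 1) x - L * B.M n = B.M n * (j - L) + i' := by
    rw [hdm, Nat.mul_sub, mul_comm L]
    have := Nat.mul_le_mul_left (B.M n) hLj
    omega
  have hA1 : B.A (n + 1) (B.idx (n + 1) x) = mul2 (B.A n i') (B.a n j, B.s n j) := by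
    rw [hdm, B.A_succ, Nat.mul_add_mod, Nat.mod_eq_of_lt hi'lt, Nat.mul_add_div hM,
      Nat.div_eq_of_lt hi'lt, add_zero]
  have hA2 : B.A (n + 1) (B.idx (n + 1) x - L * B.M n) =
      mul2 (B.A n i') (B.a n (j - L), B.s n (j - L)) := by
    rw [hsub, B.A_succ, Nat.mul_add_mod, Nat.mod_eq_of_lt hi'lt, Nat.mul_add_div hM,
      Nat.div_eq_of_lt hi'lt, add_zero]
  have hle1 : L * B.M n ≤ B.M (n + 1) := hh.trans hlt.le
  have hidx1 : B.idx (n + 1) (x - (L * B.M n) • B.one) = B.idx (n + 1) x - L * B.M n := by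
    rw [B.idx_sub_nsmul (n + 1) x _ hle1]
    have h2 : B.idx (n + 1) x + (B.M (n + 1) - L * B.M n) =
        (B.idx (n + 1) x - L * B.M n) + B.M (n + 1) := by omega
    rw [h2, Nat.add_mod_right, Nat.mod_eq_of_lt (by omega)]
  have hidx2 : B.idx n (x - (L * B.M n) • B.one) = i' := by
    rw [← B.idx_succ_mod n (x - (L * B.M n) • B.one), hidx1, hsub, Nat.mul_add_mod,
      Nat.mod_eq_of_lt hi'lt]
  have hE : ∀ (z : B.X) (u : 𝕋), B.E n i κ (z, u) = if B.idx n z = i then
      (Real.sqrt (B.M n) : ℂ) * fourier κ (act (inv2 (B.A n i)) u) else 0 := fun _ _ => rfl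
  rw [B.T_iterate (n + 1) _ x t hh, hE, hE, hidx2, ← hi']
  by_cases hii : i' = i
  · rw [if_pos hii, if_pos hii]
    congr 1
    obtain ⟨hs, ha⟩ := hkill j hjlt hy
    rw [hA1, hA2, ← hs, ← act_mul2, hii, inv2_mul2_rev, ← mul2_assoc, ← mul2_assoc, ← mul2_assoc,
      inv2_mul2, one_mul2, act_mul2]
    have h3 : mul2 (B.a n (j - L), B.s n j) (inv2 (B.a n j, B.s n j)) =
        (B.a n (j - L) - B.a n j, 1) := by
      simp [mul2, inv2, smul_smul, Int.units_mul_self, sub_eq_add_neg]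
    rw [h3, fourier_act]
    have h4 : fourier κ (B.a n (j - L) - B.a n j) = (1 : ℂ) := by
      have h5 : κ • (B.a n (j - L) - B.a n j) = 0 := by
        have h6 : (k : ℤ) • (B.a n (j - L) - B.a n j) = 0 := by
          rw [smul_sub, ha, sub_self]
        rcases Int.natAbs_eq κ with h7 | h7
        · rw [h7, hκ]
          exact h6
        · rw [h7, hκ, neg_smul, h6, neg_zero]
      rw [fourier_apply, h5]
      simp
    rw [h4, one_mul, Units.val_one, one_mul]
  · rw [if_neg hii, if_neg hii]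

/-- If `y = (x, t)` has `j = idx (n+1) x / M n` with `(j / L) % k = 0` and `k ≥ 2` then `T^h y` has
`(j' / L) % k ≠ 0` (`j' = j - L`, or `j' = j + m - L` when `j < L`; `idx_sub_nsmul`). -/
theorem seg_T (n k L : ℕ) (hk : 2 ≤ k) (hL : 0 < L) (hm : B.m n = 2 * k * L) (y : B.Y)
    (hy : ((B.idx (n + 1) y.1 / B.M n) / L) % k = 0) :
    ((B.idx (n + 1) (B.T^[L * B.M n] y).1 / B.M n) / L) % k ≠ 0 := by
  rw [B.T_iterate_fst]
  obtain ⟨x, t⟩ := y
  change ((B.idx (n + 1) x / B.M n) / L) % k = 0 at hy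
  change ((B.idx (n + 1) (x - (L * B.M n) • B.one) / B.M n) / L) % k ≠ 0
  have hM := B.M_pos n
  have hlt := B.idx_lt (n + 1) x
  obtain ⟨I, hI⟩ : ∃ I, I = B.idx (n + 1) x := ⟨_, rfl⟩
  obtain ⟨j, hj⟩ : ∃ j, j = I / B.M n := ⟨_, rfl⟩
  obtain ⟨i', hi'⟩ : ∃ i', i' = I % B.M n := ⟨_, rfl⟩
  have hi'lt : i' < B.M n := hi' ▸ Nat.mod_lt _ hM
  have hdm : I = B.M n * j + i' := by
    rw [hi', hj]
    exact (Nat.div_add_mod _ _).symm
  rw [← hI, ← hj] at hy
  rw [← hI] at hlt
  have hMM : B.M (n + 1) = B.M n * (2 * k * L) := by rw [B.M_succ, hm]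
  have hjlt : j < 2 * k * L := by
    rw [hj]
    apply Nat.div_lt_of_lt_mul
    rw [← hMM]
    exact hlt
  have hle1 : L * B.M n ≤ B.M (n + 1) := by
    rw [hMM, mul_comm L]
    apply Nat.mul_le_mul_left
    nlinarith
  rw [B.idx_sub_nsmul (n + 1) x _ hle1, ← hI]
  have hdiv : ∀ a : ℕ, (B.M n * a + i') / B.M n = a := by
    intro a
    rw [Nat.mul_add_div hM, Nat.div_eq_of_lt hi'lt, add_zero]
  obtain ⟨w, hw⟩ : ∃ w, w = j / L := ⟨_, rfl⟩
  have hwlt : w < 2 * k := by
    rw [hw]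
    apply Nat.div_lt_of_lt_mul
    rw [mul_comm L]
    exact hjlt
  have hjr : j = L * w + j % L := by
    rw [hw]
    exact (Nat.div_add_mod _ _).symm
  have hjm : j % L < L := Nat.mod_lt _ hL
  rw [← hw] at hy
  obtain ⟨c, hc⟩ := Nat.dvd_of_mod_eq_zero hy
  have hc2 : c = 0 ∨ c = 1 := by
    have : c < 2 := by
      by_contra hcc
      have h2 : k * 2 ≤ k * c := Nat.mul_le_mul_left _ (by omega)
      omega
    omega
  rcases hc2 with hc0 | hc1
  · rw [hc0, mul_zero] at hc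
    have hjL : j < L := by
      rw [hjr, hc]
      simpa using hjm
    have e1 : I + (B.M (n + 1) - L * B.M n) = B.M n * (j + (2 * k * L - L)) + i' := by
      rw [hMM, hdm, Nat.mul_add, Nat.mul_sub, mul_comm L (B.M n)]
      ring
    have e2 : I + (B.M (n + 1) - L * B.M n) < B.M (n + 1) := by
      have h3 : I < L * B.M n := by
        rw [hdm, mul_comm L]
        calc B.M n * j + i' < B.M n * j + B.M n := by omega
          _ = B.M n * (j + 1) := by ring
          _ ≤ B.M n * L := Nat.mul_le_mul_left _ hjL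
      omega
    rw [Nat.mod_eq_of_lt e2, e1, hdiv]
    have e3 : j + (2 * k * L - L) = L * (2 * k - 1) + j := by
      rw [Nat.mul_sub, mul_one, mul_comm L (2 * k), add_comm]
    rw [e3, Nat.mul_add_div hL, Nat.div_eq_of_lt hjL, add_zero]
    have e4 : 2 * k - 1 = k + (k - 1) := by omega
    rw [e4, Nat.add_mod_left, Nat.mod_eq_of_lt (by omega)]
    omega
  · rw [hc1, mul_one] at hc
    have hLj : L ≤ j := by
      rw [hjr, hc]
      have : L * 1 ≤ L * k := Nat.mul_le_mul_left _ (by omega)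
      omega
    have e1 : I + (B.M (n + 1) - L * B.M n) = (B.M n * (j - L) + i') + B.M (n + 1) := by
      have h2 : B.M n * L ≤ B.M n * j := Nat.mul_le_mul_left _ hLj
      rw [hdm, Nat.mul_sub, mul_comm L (B.M n)]
      rw [mul_comm L (B.M n)] at hle1
      omega
    have e2 : B.M n * (j - L) + i' < B.M (n + 1) := by
      have h2 : B.M n * (j - L) ≤ B.M n * j := Nat.mul_le_mul_left _ (Nat.sub_le _ _)
      omega
    rw [e1, Nat.add_mod_right, Nat.mod_eq_of_lt e2, hdiv]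
    have e3 : j - L = L * (k - 1) + j % L := by
      rw [Nat.mul_sub, mul_one]
      have h4 : L * 1 ≤ L * k := Nat.mul_le_mul_left _ (by omega)
      rw [hc] at hjr
      omega
    rw [e3, Nat.mul_add_div hL, Nat.div_eq_of_lt hjm, add_zero, Nat.mod_eq_of_lt (by omega)]
    omega

end Blk

end P130
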