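import Mathlib
import Vale.Agent.Lib.P130.ChirpP
import Vale.Agent.Lib.P130.RigidA

/-!
# P130: choice of the parameters
-/

open MeasureTheory Filter Topology
open scoped ENNReal

namespace P130

/-- existence of one segment length -/
private lemma params_exL (κ M n : ℕ) (hκ : 1 ≤ κ) :
    ∃ L : ℕ, n + 1 ≤ L ∧ (M : ℝ) ^ 2 * flatErr κ L ≤ (1 / 4) ^ n / 8 := by
  have h1 : Tendsto (fun L : ℕ => (M : ℝ) ^ 2 * flatErr κ L) atTop (𝓝 0) := by
    simpa using (flatErr_tendsto κ hκ).const_mul ((M : ℝ) ^ 2)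
  have h2 : (0 : ℝ) < (1 / 4) ^ n / 8 := by positivity
  have h3 := h1.eventually (ge_mem_nhds h2)
  obtain ⟨L, hL1, hL2⟩ := ((eventually_ge_atTop (n + 1)).and h3).exists
  exact ⟨L, hL1, hL2⟩

/-- the types -/
private def paramsK (n : ℕ) : ℕ := 2 + (Nat.unpair n).1

private lemma paramsK_ge (n : ℕ) : 2 ≤ paramsK n := by
  unfold paramsK
  omega

/-- the chosen segment length, given the height -/
private noncomputable def paramsL (M n : ℕ) : ℕ :=
  (params_exL (paramsK n) M n (le_trans (by norm_num) (paramsK_ge n))).choose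

private lemma paramsL_spec (M n : ℕ) : n + 1 ≤ paramsL M n ∧
    (M : ℝ) ^ 2 * flatErr (paramsK n) (paramsL M n) ≤ (1 / 4) ^ n / 8 :=
  (params_exL (paramsK n) M n (le_trans (by norm_num) (paramsK_ge n))).choose_spec

/-- the heights -/
private noncomputable def paramsM : ℕ → ℕ
  | 0 => 1
  | n + 1 => paramsM n * (2 * paramsK n * paramsL (paramsM n) n)

/-- the blocks -/
private noncomputable def paramsB : Blk where
  m n := 2 * paramsK n * paramsL (paramsM n) n
  hm n := by
    have h1 := paramsK_ge n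
    have h2 := (paramsL_spec (paramsM n) n).1
    have h3 : 1 ≤ paramsK n * paramsL (paramsM n) n := Nat.mul_pos (by omega) (by omega)
    rw [mul_assoc]
    omega
  a n j := chA (paramsK n) (paramsL (paramsM n) n) j
  s n j := chS (paramsK n) (paramsL (paramsM n) n) j

private lemma paramsB_M (n : ℕ) : paramsB.M n = paramsM n := by
  induction n with
  | zero => simp [Blk.M, paramsM]
  | succ n ih =>
    rw [Blk.M_succ, ih]
    rfl

/-- Types: an enumeration of all `k ≥ 2` taking each value infinitely often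
(`2 + (Nat.unpair n).1`).  Heights by recursion: `Mrec 0 = 1`,
`Mrec (n+1) = Mrec n * (2 κ_n L_n)` where `L_n ≥ n + 1` is such that
`(Mrec n)² flatErr (κ n) (L n) ≤ (1/4)^n / 8` (`flatErr_tendsto`). -/
theorem exists_good : ∃ B : Blk, Nonempty (Good B) := by
  refine ⟨paramsB, ⟨?_⟩⟩
  exact {
    κ := paramsK
    L := fun n => paramsL (paramsM n) n
    hκ := paramsK_ge
    hL := fun n => lt_of_lt_of_le (Nat.succ_pos n) (paramsL_spec (paramsM n) n).1
    hLn := fun n => le_trans (Nat.le_succ n) (paramsL_spec (paramsM n) n).1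
    hm := fun n => rfl
    ha := fun n j => rfl
    hs := fun n j => rfl
    hfreq := by
      intro k hk N
      refine ⟨Nat.pair (k - 2) N, Nat.right_le_pair _ _, ?_⟩
      unfold paramsK
      rw [Nat.unpair_pair]
      show 2 + (k - 2) = k
      omega
    hflat := by
      intro n
      rw [paramsB_M]
      exact (paramsL_spec (paramsM n) n).2 }

/-- A block of type `k` satisfies `Kill n k` (`chirp_kill`). -/
theorem Good.kill {B : Blk} (G : Good B) (k : ℕ) (hk : 2 ≤ k) : ∀ N, ∃ n ≥ N, B.Kill n k := by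
  intro N
  obtain ⟨n, hn, hκ⟩ := G.hfreq k hk N
  refine ⟨n, hn, G.L n, G.hL n, by rw [G.hm, hκ], ?_⟩
  intro j hj h
  rw [G.hm, hκ] at hj
  have h1 := chirp_kill k (G.L n) j hk (G.hL n) hj h
  rw [G.hs, G.hs, G.ha, G.ha, hκ]
  exact h1

end P130
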