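import Mathlib
import Vale.Agent.Lib.P130.MulF
import Vale.Agent.Lib.P130.Pars

/-!
# P130: absolutely continuous measures on the circle
-/

open MeasureTheory Filter Topology
open scoped ENNReal ComplexConjugate

namespace P130

/-- Riemann-Lebesgue for `L²` functions -/
theorem tendsto_fourier_L2 (g : 𝕋 → ℂ) (hg : MemLp g 2 mT) :
    Tendsto (fun n : ℕ => ∫ t, fourier (n : ℤ) t * g t ∂mT) atTop (𝓝 0) := by
  have h1 := (hasSum_sq_coeff g hg).summable
  have h2 : Function.Injective fun n : ℕ => (-(n : ℤ)) := by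
    intro a b hab
    simpa using hab
  have h3 := h1.comp_injective h2
  have h4 := h3.tendsto_atTop_zero
  have h5 : Tendsto (fun n : ℕ => ‖fourierCoeff g (-(n : ℤ))‖) atTop (𝓝 0) := by
    have h6 := h4.sqrt
    rw [Real.sqrt_zero] at h6
    refine h6.congr fun n => ?_
    exact Real.sqrt_sq (norm_nonneg _)
  rw [← tendsto_zero_iff_norm_tendsto_zero] at h5
  refine h5.congr fun n => ?_
  unfold fourierCoeff
  rw [neg_neg]
  rfl

/-- Riemann-Lebesgue for `L¹` functions -/
theorem tendsto_fourier_L1 (g : 𝕋 → ℂ) (hg : Integrable g mT) :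
    Tendsto (fun n : ℕ => ∫ t, fourier (n : ℤ) t * g t ∂mT) atTop (𝓝 0) := by
  obtain ⟨g', hg', hgg⟩ := hg.1
  have hgi : Integrable g' mT := hg.congr hgg
  have hcongr : ∀ n : ℕ, ∫ t, fourier (n : ℤ) t * g t ∂mT = ∫ t, fourier (n : ℤ) t * g' t ∂mT := by
    intro n
    apply integral_congr_ae
    filter_upwards [hgg] with t ht
    rw [ht]
  simp_rw [hcongr]
  have hmeas : ∀ N : ℕ, MeasurableSet {t | ‖g' t‖ ≤ N} := fun N =>
    hg'.norm.measurable measurableSet_Iic
  have htr : Tendsto (fun N : ℕ => ∫ t, ‖g' t - {t | ‖g' t‖ ≤ N}.indicator g' t‖ ∂mT) atTop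
      (𝓝 (∫ _, (0 : ℝ) ∂mT)) := by
    refine tendsto_integral_of_dominated_convergence (fun t => ‖g' t‖) ?_ hgi.norm ?_ ?_
    · intro N
      exact ((hg'.sub (hg'.indicator (hmeas N))).norm).aestronglyMeasurable
    · intro N
      refine Filter.Eventually.of_forall fun t => ?_
      rw [norm_norm]
      by_cases ht : t ∈ {t | ‖g' t‖ ≤ N}
      · rw [Set.indicator_of_mem ht, sub_self, norm_zero]
        exact norm_nonneg _
      · rw [Set.indicator_of_notMem ht, sub_zero]
    · refine Filter.Eventually.of_forall fun t => ?_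
      obtain ⟨N₀, hN₀⟩ := exists_nat_ge ‖g' t‖
      refine tendsto_const_nhds.congr' ?_
      filter_upwards [eventually_ge_atTop N₀] with N hN
      have ht : t ∈ {t | ‖g' t‖ ≤ N} := by
        change ‖g' t‖ ≤ N
        exact hN₀.trans (by exact_mod_cast hN)
      rw [Set.indicator_of_mem ht, sub_self, norm_zero]
  rw [integral_zero] at htr
  rw [Metric.tendsto_atTop]
  intro ε hε
  obtain ⟨N, hN⟩ := (htr.eventually (gt_mem_nhds (half_pos hε))).exists
  have hbd : MemLp ({t | ‖g' t‖ ≤ N}.indicator g') 2 mT := by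
    refine MemLp.of_bound (hg'.indicator (hmeas N)).aestronglyMeasurable (N : ℝ) ?_
    refine Filter.Eventually.of_forall fun t => ?_
    by_cases ht : t ∈ {t | ‖g' t‖ ≤ N}
    · rw [Set.indicator_of_mem ht]
      exact ht
    · rw [Set.indicator_of_notMem ht, norm_zero]
      exact Nat.cast_nonneg _
  have h2 := tendsto_fourier_L2 _ hbd
  rw [Metric.tendsto_atTop] at h2
  obtain ⟨n₀, hn₀⟩ := h2 (ε / 2) (half_pos hε)
  refine ⟨n₀, fun n hn => ?_⟩
  have h3 := hn₀ n hn
  rw [dist_zero_right] at h3 ⊢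
  have hint1 : Integrable (fun t => fourier (n : ℤ) t * g' t) mT := hgi.fourier_smul n
  have hint2 : Integrable (fun t => fourier (n : ℤ) t * {t | ‖g' t‖ ≤ N}.indicator g' t) mT :=
    (hbd.integrable (by norm_num)).fourier_smul n
  have h4 : ∫ t, fourier (n : ℤ) t * g' t ∂mT =
      ∫ t, fourier (n : ℤ) t * {t | ‖g' t‖ ≤ N}.indicator g' t ∂mT +
      ∫ t, fourier (n : ℤ) t * (g' t - {t | ‖g' t‖ ≤ N}.indicator g' t) ∂mT := by
    rw [← integral_add hint2]
    · congr 1
      funext t
      ring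
    · have := hint1.sub hint2
      refine this.congr (Filter.Eventually.of_forall fun t => ?_)
      rw [Pi.sub_apply]
      exact (mul_sub _ _ _).symm
  have h5 : ‖∫ t, fourier (n : ℤ) t * (g' t - {t | ‖g' t‖ ≤ N}.indicator g' t) ∂mT‖ < ε / 2 := by
    refine lt_of_le_of_lt (norm_integral_le_integral_norm _) ?_
    refine lt_of_eq_of_lt ?_ hN
    congr 1
    funext t
    rw [norm_mul, norm_fourier_apply, one_mul]
  calc ‖∫ t, fourier (n : ℤ) t * g' t ∂mT‖ ≤ _ + _ := by
        rw [h4]
        exact norm_add_le _ _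
    _ < ε / 2 + ε / 2 := add_lt_add h3 h5
    _ = ε := add_halves ε

/-- Riemann-Lebesgue: the Fourier coefficients of an absolutely continuous finite measure tend to
`0`.  (Density `h ∈ L¹`; approximate in `L¹` by an `L²` function, e.g. a truncation of `h`, whose
Fourier coefficients are square summable, or by a trigonometric polynomial.) -/
theorem tendsto_fourier_ac (σ : Measure 𝕋) [IsFiniteMeasure σ] (hσ : σ ≪ mT) :
    Tendsto (fun n : ℕ => ∫ t, fourier (n : ℤ) t ∂σ) atTop (𝓝 0) := by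
  have h1 : Integrable (fun t => (((σ.rnDeriv mT t).toReal : ℝ) : ℂ)) mT :=
    (Measure.integrable_toReal_rnDeriv).ofReal
  refine (tendsto_fourier_L1 _ h1).congr fun n => ?_
  rw [← integral_rnDeriv_smul hσ]
  congr 1
  funext t
  rw [Complex.real_smul, mul_comm]

/-- `σ = |g|² m` -/
theorem ac_of_L2 (g : LT) : ∃ σ : Measure 𝕋, IsFiniteMeasure σ ∧ σ ≪ mT ∧
    ∀ n : ℕ, ∫ t, fourier (n : ℤ) t ∂σ = inner ℂ g (mulF n g) := by
  have hint : Integrable (fun t => ‖g t‖ ^ 2) mT := (Lp.memLp g).integrable_norm_pow (by norm_num)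
  refine ⟨mT.withDensity fun t => ENNReal.ofReal (‖g t‖ ^ 2), ?_, ?_, ?_⟩
  · exact isFiniteMeasure_withDensity_ofReal hint.2
  · exact withDensity_absolutelyContinuous _ _
  · intro n
    rw [inner_mulF]
    have haem : AEMeasurable (fun t => Real.toNNReal (‖g t‖ ^ 2)) mT :=
      (hint.1.aemeasurable).real_toNNReal
    change ∫ t, fourier (n : ℤ) t ∂(mT.withDensity fun t =>
      ((Real.toNNReal (‖g t‖ ^ 2) : NNReal) : ℝ≥0∞)) = _
    rw [integral_withDensity_eq_integral_smul₀ haem]
    congr 1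
    funext t
    rw [NNReal.smul_def, Real.coe_toNNReal _ (by positivity), Complex.real_smul, mul_comm]
    push_cast
    rfl

end P130
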