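import Mathlib
import Vale.Agent.Lib.P130.Struct

/-!
# P130: there are no mixing vectors in `H_0`
-/

open MeasureTheory Filter Topology
open scoped ENNReal

namespace P130

namespace Blk

variable (B : Blk)

theorem quasi_iter (h : ℕ) : Measure.QuasiMeasurePreserving (B.T^[h]) B.mu B.mu :=
  (B.measurePreserving_T.iterate h).quasiMeasurePreserving

theorem coeFn_iter (h : ℕ) (f : B.H) :
    (B.U^[h] f : B.H) =ᵐ[B.mu] fun y => (f : B.Y → ℂ) (B.T^[h] y) := by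
  induction h with
  | zero => exact Filter.EventuallyEq.rfl
  | succ h ih =>
    rw [Function.iterate_succ_apply']
    have h1 := B.coeFn_U (B.U^[h] f)
    have h2 := (B.measurePreserving_T.quasiMeasurePreserving).ae_eq_comp ih
    filter_upwards [h1, h2] with y e1 e2
    rw [e1]
    exact e2

theorem iter_smul (h : ℕ) (c : ℂ) (f : B.H) : B.U^[h] (c • f) = c • B.U^[h] f := by
  induction h with
  | zero => rfl
  | succ h ih => rw [Function.iterate_succ_apply', Function.iterate_succ_apply', ih, map_smul]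

theorem iter_zero (h : ℕ) : B.U^[h] (0 : B.H) = 0 := by
  induction h with
  | zero => rfl
  | succ h ih => rw [Function.iterate_succ_apply', ih, map_zero]

theorem U_iter_M_e (n i : ℕ) : B.U^[B.M n] (B.e n i 0) = B.e n i 0 := by
  apply Lp.ext
  have h1 := B.coeFn_iter (B.M n) (B.e n i 0)
  have h2 := (B.quasi_iter (B.M n)).ae_eq_comp (B.coeFn_e n i 0)
  filter_upwards [h1, h2, B.coeFn_e n i 0] with y e1 e2 e3
  rw [e1, e3]
  change (B.e n i 0 : B.Y → ℂ) (B.T^[B.M n] y) = B.E n i 0 (B.T^[B.M n] y) at e2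
  rw [e2]
  have h3 : B.idx n (B.T^[B.M n] y).1 = B.idx n y.1 := by
    rw [B.T_iterate_fst, B.idx_sub_nsmul n _ _ le_rfl, Nat.sub_self, add_zero,
      Nat.mod_eq_of_lt (B.idx_lt n y.1)]
  unfold E
  rw [h3, fourier_zero, fourier_zero]

theorem U_iter_M (n : ℕ) (g : B.H) (hg : g ∈ B.Hn n 0) : B.U^[B.M n] g = g := by
  unfold Hn at hg
  induction hg using Submodule.span_induction with
  | mem x hx =>
    obtain ⟨i, κ, hi, hκ, rfl⟩ := hx
    rw [Int.natAbs_eq_zero] at hκ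
    rw [hκ]
    exact B.U_iter_M_e n i
  | zero => exact B.iter_zero _
  | add x y _ _ hx hy => rw [B.iter_add, hx, hy]
  | smul c x _ hx => rw [B.iter_smul, hx]

theorem U_iter_mul_M (n j : ℕ) (g : B.H) (hg : g ∈ B.Hn n 0) : B.U^[j * B.M n] g = g := by
  induction j with
  | zero => rw [zero_mul]; rfl
  | succ j ih => rw [Nat.succ_mul, Function.iterate_add_apply, B.U_iter_M n g hg, ih]

/-- `H_0` has no mixing vector.  For `g ∈ Hn n 0`: `g ∘ T^{M n} = g` (pointwise for `E n i 0`, as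
`idx n (x - M_n) = idx n x` and `fourier 0 = 1`), so `U^{j M_n} g = g`.  If `f` is mixing and
`‖f - g‖ < ε` then `‖f‖² ≤ |⟨f, U^{j M_n} f⟩| + 2 ε ‖f‖ + ...`; let `j → ∞`, `ε → 0`. -/
theorem rigid_zero (p : B.H) (hp : p ∈ B.Hk 0) (hm : B.Mix p) : p = 0 := by
  by_contra hp0
  have hc : 0 < ‖p‖ := norm_pos_iff.2 hp0
  obtain ⟨n, g, hg, hpg⟩ := B.exists_approx 0 p hp (‖p‖ / 4) (by linarith)
  have h1 : Tendsto (fun h : ℕ => ‖(inner ℂ p (B.U^[h] p) : ℂ)‖) atTop (𝓝 0) := by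
    rw [← tendsto_zero_iff_norm_tendsto_zero]
    exact hm
  have h2 : Tendsto (fun j : ℕ => j * B.M n) atTop atTop :=
    tendsto_id.atTop_mul_const' (B.M_pos n)
  have h3 := h1.comp h2
  obtain ⟨j, hj⟩ := (h3.eventually (gt_mem_nhds (show 0 < ‖p‖ ^ 2 / 4 by positivity))).exists
  change ‖(inner ℂ p (B.U^[j * B.M n] p) : ℂ)‖ < ‖p‖ ^ 2 / 4 at hj
  have h4 : (inner ℂ p p : ℂ) = inner ℂ p (B.U^[j * B.M n] p) -
      inner ℂ p (B.U^[j * B.M n] (p - g)) + inner ℂ p (p - g) := by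
    rw [B.iter_sub, B.U_iter_mul_M n j g hg, inner_sub_right, inner_sub_right]
    ring
  have h5 : ‖(inner ℂ p p : ℂ)‖ = ‖p‖ ^ 2 := by
    rw [inner_self_eq_norm_sq_to_K]
    simp
  have h6 : ‖(inner ℂ p (B.U^[j * B.M n] (p - g)) : ℂ)‖ ≤ ‖p‖ * (‖p‖ / 4) := by
    refine (norm_inner_le_norm _ _).trans ?_
    rw [B.norm_iter]
    exact mul_le_mul_of_nonneg_left hpg.le (norm_nonneg _)
  have h7 : ‖(inner ℂ p (p - g) : ℂ)‖ ≤ ‖p‖ * (‖p‖ / 4) := by
    refine (norm_inner_le_norm _ _).trans ?_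
    exact mul_le_mul_of_nonneg_left hpg.le (norm_nonneg _)
  have h8 : ‖p‖ ^ 2 ≤ ‖(inner ℂ p (B.U^[j * B.M n] p) : ℂ)‖ +
      ‖(inner ℂ p (B.U^[j * B.M n] (p - g)) : ℂ)‖ + ‖(inner ℂ p (p - g) : ℂ)‖ := by
    rw [← h5, h4]
    refine (norm_add_le _ _).trans ?_
    gcongr
    exact norm_sub_le _ _
  have h9 : 0 < ‖p‖ ^ 2 := by positivity
  have h10 : ‖p‖ * (‖p‖ / 4) = ‖p‖ ^ 2 / 4 := by ring
  rw [h10] at h6 h7
  linarith

end Blk

end P130
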