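import Mathlib
import Vale.Agent.Lib.P130.RigidA
import Vale.Agent.Lib.P130.RigidZero

/-!
# P130: there are no mixing vectors in `H_k`, `k ≥ 2`
-/

open MeasureTheory Filter Topology
open scoped ENNReal

namespace P130

namespace Blk

variable (B : Blk)

/-- `U^h g = g` on the good set. -/
theorem kill_ae (n k L : ℕ) (hL : 0 < L) (hm : B.m n = 2 * k * L)
    (hkill : ∀ j, j < B.m n → (j / L) % k ≠ 0 →
      B.s n j = B.s n (j - L) ∧ (k : ℤ) • B.a n j = (k : ℤ) • B.a n (j - L))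
    (g : B.H) (hg : g ∈ B.Hn n k) :
    ∀ᵐ y ∂B.mu, ((B.idx (n + 1) y.1 / B.M n) / L) % k ≠ 0 →
      (B.U^[L * B.M n] g - g : B.H) y = 0 := by
  unfold Hn at hg
  induction hg using Submodule.span_induction with
  | mem x hx =>
    obtain ⟨i, κ, hi, hκ, rfl⟩ := hx
    have h1 := B.coeFn_iter (L * B.M n) (B.e n i κ)
    have h2 := (B.quasi_iter (L * B.M n)).ae_eq_comp (B.coeFn_e n i κ)
    have h4 := Lp.coeFn_sub (B.U^[L * B.M n] (B.e n i κ)) (B.e n i κ)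
    filter_upwards [h1, h2, B.coeFn_e n i κ, h4] with y e1 e2 e3 e4 hy
    change (B.e n i κ : B.Y → ℂ) (B.T^[L * B.M n] y) = B.E n i κ (B.T^[L * B.M n] y) at e2
    rw [e4, Pi.sub_apply, e1, e3, e2, B.E_T_kill n k L i κ hκ hi hL hm hkill y hy, sub_self]
  | zero =>
    have h1 : (B.U^[L * B.M n] (0 : B.H) - 0 : B.H) = 0 := by
      rw [B.iter_zero, sub_zero]
    rw [h1]
    filter_upwards [Lp.coeFn_zero ℂ 2 B.mu] with y e1 _
    rw [e1]
    rfl
  | add x x' _ _ hx hx' =>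
    have h1 : (B.U^[L * B.M n] (x + x') - (x + x') : B.H) =
        (B.U^[L * B.M n] x - x) + (B.U^[L * B.M n] x' - x') := by
      rw [B.iter_add]
      abel
    rw [h1]
    have h2 := Lp.coeFn_add (B.U^[L * B.M n] x - x) (B.U^[L * B.M n] x' - x')
    filter_upwards [hx, hx', h2] with y e1 e2 e3 hy
    rw [e3, Pi.add_apply, e1 hy, e2 hy, add_zero]
  | smul c x _ hx =>
    have h1 : (B.U^[L * B.M n] (c • x) - (c • x) : B.H) = c • (B.U^[L * B.M n] x - x) := by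
      rw [B.iter_smul, smul_sub]
    rw [h1]
    have h2 := Lp.coeFn_smul c (B.U^[L * B.M n] x - x)
    filter_upwards [hx, h2] with y e1 e3 hy
    rw [e3, Pi.smul_apply, e1 hy, smul_zero]

/-- `⟨U^h g - g, U^{2h} g - U^h g⟩ = 0` for `g ∈ Hn n k`, `h = L M_n`: with `D = g ∘ T^h - g`
(a.e. equal to an honest function in the span of the `E n i κ`), `D y * D (T^h y) = 0` for all
`y`. -/
theorem kill_inner (n k L : ℕ) (hk : 2 ≤ k) (hL : 0 < L) (hm : B.m n = 2 * k * L)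
    (hkill : ∀ j, j < B.m n → (j / L) % k ≠ 0 →
      B.s n j = B.s n (j - L) ∧ (k : ℤ) • B.a n j = (k : ℤ) • B.a n (j - L))
    (g : B.H) (hg : g ∈ B.Hn n k) :
    inner ℂ (B.U^[L * B.M n] g - g) (B.U^[L * B.M n] (B.U^[L * B.M n] g - g)) = 0 := by
  have h1 := B.kill_ae n k L hL hm hkill g hg
  obtain ⟨D, hD⟩ : ∃ D : B.H, D = B.U^[L * B.M n] g - g := ⟨_, rfl⟩
  rw [← hD] at h1 ⊢
  have h2 := B.coeFn_iter (L * B.M n) D
  have h3 := (B.quasi_iter (L * B.M n)).ae h1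
  rw [L2.inner_def]
  have h4 : ∫ y, (inner ℂ (D y) ((B.U^[L * B.M n] D : B.H) y) : ℂ) ∂B.mu =
      ∫ _, (0 : ℂ) ∂B.mu := by
    apply integral_congr_ae
    filter_upwards [h1, h2, h3] with y e1 e2 e3
    rw [e2]
    by_cases hy : ((B.idx (n + 1) y.1 / B.M n) / L) % k = 0
    · rw [e3 (B.seg_T n k L hk hL hm y hy), inner_zero_right]
    · rw [e1 hy, inner_zero_left]
  rw [h4, integral_zero]

theorem kill_norm (n k L : ℕ) (hk : 2 ≤ k) (hL : 0 < L) (hm : B.m n = 2 * k * L)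
    (hkill : ∀ j, j < B.m n → (j / L) % k ≠ 0 →
      B.s n j = B.s n (j - L) ∧ (k : ℤ) • B.a n j = (k : ℤ) • B.a n (j - L))
    (g : B.H) (hg : g ∈ B.Hn n k) :
    ‖g‖ ^ 2 ≤ 2 * ‖(inner ℂ g (B.U^[L * B.M n] g) : ℂ)‖ +
      ‖(inner ℂ g (B.U^[L * B.M n + L * B.M n] g) : ℂ)‖ := by
  have h1 := B.kill_inner n k L hk hL hm hkill g hg
  rw [B.iter_sub, inner_sub_left, inner_sub_right, inner_sub_right, B.inner_iter, B.inner_iter,
    ← Function.iterate_add_apply] at h1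
  have h2 : (inner ℂ g g : ℂ) = 2 * inner ℂ g (B.U^[L * B.M n] g) -
      inner ℂ g (B.U^[L * B.M n + L * B.M n] g) := by
    linear_combination -h1
  have h5 : ‖(inner ℂ g g : ℂ)‖ = ‖g‖ ^ 2 := by
    rw [inner_self_eq_norm_sq_to_K]
    simp
  rw [← h5, h2]
  refine (norm_sub_le _ _).trans ?_
  rw [norm_mul]
  simp

theorem inner_iter_close (h : ℕ) (p g : B.H) :
    ‖(inner ℂ g (B.U^[h] g) : ℂ)‖ ≤ ‖(inner ℂ p (B.U^[h] p) : ℂ)‖ +
      ‖p - g‖ * (‖p‖ + ‖g‖) := by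
  have h1 : (inner ℂ g (B.U^[h] g) : ℂ) = inner ℂ p (B.U^[h] p) -
      (inner ℂ (p - g) (B.U^[h] p) + inner ℂ g (B.U^[h] (p - g))) := by
    rw [B.iter_sub, inner_sub_left, inner_sub_right]
    ring
  have h2 : ‖(inner ℂ (p - g) (B.U^[h] p) : ℂ)‖ ≤ ‖p - g‖ * ‖p‖ := by
    refine (norm_inner_le_norm _ _).trans ?_
    rw [B.norm_iter]
  have h3 : ‖(inner ℂ g (B.U^[h] (p - g)) : ℂ)‖ ≤ ‖g‖ * ‖p - g‖ := by
    refine (norm_inner_le_norm _ _).trans ?_
    rw [B.norm_iter]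
  rw [h1]
  refine (norm_sub_le _ _).trans ?_
  have h4 := norm_add_le (inner ℂ (p - g) (B.U^[h] p) : ℂ) (inner ℂ g (B.U^[h] (p - g)))
  nlinarith

/-- `H_k`, `k ≥ 2`, has no mixing vector if infinitely many blocks satisfy `Kill n k`.
Expanding `kill_inner`: `‖g‖² = 2 ⟨g, U^h g⟩ - ⟨g, U^{2h} g⟩`.  Approximate `p` by `g ∈ Hn n k`
with `n` as large as we like and of type `k` (`exists_approx`, `Hn_mono`), `h = L M_n ≥ 2^n`
(`two_pow_le_M`). -/
theorem rigid_k (k : ℕ) (hk : 2 ≤ k) (hB : ∀ N, ∃ n ≥ N, B.Kill n k) (p : B.H)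
    (hp : p ∈ B.Hk k) (hm : B.Mix p) : p = 0 := by
  by_contra hp0
  obtain ⟨c, hc⟩ : ∃ c, c = ‖p‖ := ⟨_, rfl⟩
  have hc0 : 0 < c := hc ▸ norm_pos_iff.2 hp0
  obtain ⟨n₀, g, hg, hpg⟩ := B.exists_approx k p hp (c / 20) (by linarith)
  have h1 : Tendsto (fun h : ℕ => ‖(inner ℂ p (B.U^[h] p) : ℂ)‖) atTop (𝓝 0) := by
    rw [← tendsto_zero_iff_norm_tendsto_zero]
    exact hm
  obtain ⟨N₁, hN₁⟩ := (h1.eventually
    (gt_mem_nhds (show 0 < c ^ 2 / 20 by positivity))).exists_forall_of_atTop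
  obtain ⟨n, hn, L, hL, hmn, hkill⟩ := hB (max n₀ N₁)
  have hn₀ : n₀ ≤ n := (le_max_left _ _).trans hn
  have hn₁ : N₁ ≤ n := (le_max_right _ _).trans hn
  have hgn := B.Hn_mono k hn₀ hg
  have hh : N₁ ≤ L * B.M n := by
    have h2 : n < 2 ^ n := Nat.lt_two_pow_self
    have h3 := B.two_pow_le_M n
    have h4 : 1 * B.M n ≤ L * B.M n := Nat.mul_le_mul_right _ hL
    omega
  have k1 := B.kill_norm n k L hk hL hmn hkill g hgn
  have k2 := B.inner_iter_close (L * B.M n) p g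
  have k3 := B.inner_iter_close (L * B.M n + L * B.M n) p g
  have k4 := hN₁ _ hh
  have k5 := hN₁ (L * B.M n + L * B.M n) (by omega)
  have hgle : ‖g‖ ≤ c + c / 20 := by
    have := norm_sub_norm_le g p
    rw [norm_sub_rev] at this
    linarith
  have hgge : c - c / 20 ≤ ‖g‖ := by
    have := norm_sub_norm_le p g
    linarith
  rw [← hc] at k2 k3
  have k6 : ‖p - g‖ * (c + ‖g‖) ≤ (c / 20) * (c + (c + c / 20)) := by
    refine mul_le_mul hpg.le (by linarith) ?_ (by linarith)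
    have := norm_nonneg g
    linarith
  have k7 : (c - c / 20) ^ 2 ≤ ‖g‖ ^ 2 := by
    refine pow_le_pow_left₀ (by linarith) hgge 2
  have hc2 : 0 < c ^ 2 := by positivity
  nlinarith

end Blk

end P130
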