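import Mathlib
import Vale.Agent.Lib.P130.ExistsV
import Vale.Agent.Lib.P130.Rigid
import Vale.Agent.Lib.P130.Params
import Vale.Agent.Lib.P130.RL
import Vale.Agent.Lib.P130.Cut

/-!
# P130: characterization of the absolutely continuous part
-/

open MeasureTheory Filter Topology
open scoped ENNReal ComplexConjugate

namespace P130

/-- mixing vectors are in `H_1` (`mem_H1_of_mix`, `rigid_zero`, `rigid_k`, `Good.kill`). -/
theorem mem_of_mix {B : Blk} (G : Good B) (f : B.H) (hf : B.Mix f) : f ∈ B.Hk 1 := by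
  refine B.mem_H1_of_mix ?_ f hf
  intro k hk p hp hm
  rcases Nat.lt_or_ge k 2 with h | h
  · have hk0 : k = 0 := by omega
    subst hk0
    exact B.rigid_zero p hp hm
  · exact B.rigid_k k h (G.kill k h) p hp hm

/-- a vector with absolutely continuous spectral measure is in `H_1`. -/
theorem mem_of_ac {B : Blk} (G : Good B) (f : B.H) (σ : Measure 𝕋) [IsFiniteMeasure σ]
    (hac : σ ≪ mT) (hσ : ∀ n : ℕ, ∫ t, fourier (n : ℤ) t ∂σ = inner ℂ f (B.U^[n] f)) :
    f ∈ B.Hk 1 := by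
  refine mem_of_mix G f ?_
  unfold Blk.Mix
  exact (tendsto_fourier_ac σ hac).congr hσ

/-- a vector of `H_1` has absolutely continuous spectral measure (`ac_of_L2`, `V`). -/
theorem ac_of_mem {B : Blk} (G : Good B) (f : B.H) (hf : f ∈ B.Hk 1) :
    ∃ σ : Measure 𝕋, IsFiniteMeasure σ ∧ σ ≪ mT ∧
      ∀ n : ℕ, ∫ t, fourier (n : ℤ) t ∂σ = inner ℂ f (B.U^[n] f) := by
  obtain ⟨V, hV, hR⟩ := exists_V G
  obtain ⟨g, rfl⟩ := (hR f).1 hf
  obtain ⟨σ, h1, h2, h3⟩ := ac_of_L2 g
  refine ⟨σ, h1, h2, fun n => ?_⟩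
  have hit : ∀ n : ℕ, B.U^[n] (V g) = V ((mulF 1)^[n] g) := by
    intro n
    induction n with
    | zero => rfl
    | succ n ih =>
      rw [Function.iterate_succ_apply', Function.iterate_succ_apply', ih, hV]
  rw [h3 n, hit n, mulF_iterate, LinearIsometry.inner_map_map]

/-- the Koopman operator as a unitary operator -/
theorem exists_Ue (B : Blk) : ∃ Ue : B.H ≃ₗᵢ[ℂ] B.H, ∀ f, Ue f = B.U f := by
  have hinv : MeasurePreserving B.Tinv B.mu B.mu := by
    have h1 : MeasurePreserving (B.Te : B.Y → B.Y) B.mu B.mu := B.measurePreserving_T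
    exact h1.symm
  have hsurj : Function.Surjective B.U := by
    intro g
    refine ⟨Lp.compMeasurePreserving B.Tinv hinv g, ?_⟩
    apply Lp.ext
    have h1 := B.coeFn_U (Lp.compMeasurePreserving B.Tinv hinv g)
    have h2 := Lp.coeFn_compMeasurePreserving g hinv
    have h3 := (B.measurePreserving_T.quasiMeasurePreserving).ae_eq_comp h2
    filter_upwards [h1, h3] with y e1 e3
    rw [e1]
    refine e3.trans ?_
    change (g : B.Y → ℂ) (B.Tinv (B.T y)) = _
    rw [B.Tinv_T]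
  exact ⟨LinearIsometryEquiv.ofSurjective B.U hsurj, fun f => rfl⟩

/-- A vector orthogonal to `H_1` has singular spectral measure.
Lebesgue decomposition: a measurable set `A` with `mT Aᶜ = 0` on which the singular part vanishes:
`σ.restrict A ≪ mT` (`Measure.haveLebesgueDecomposition`, `mutuallySingular_singularPart`).
`exists_cut` gives `f'` with spectral measure `σ.restrict A`, so `f' ∈ H_1` by `mem_of_ac`; but `f'`
is in the closed span of the `U^j f`, which are orthogonal to `H_1` (`exists_U_eq`, `U_mem_Hk`).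
So `f' = 0` and `σ A = 0`. -/
theorem sing_of_orth {B : Blk} (G : Good B) (f : B.H) (hf : f ∈ (B.Hk 1)ᗮ) (σ : Measure 𝕋)
    [IsFiniteMeasure σ] (hσ : ∀ n : ℕ, ∫ t, fourier (n : ℤ) t ∂σ = inner ℂ f (B.U^[n] f)) :
    σ ⟂ₘ mT := by
  obtain ⟨Ue, hUe⟩ := exists_Ue B
  have hpow : ∀ n : ℕ, ∀ g : B.H, (Ue ^ n) g = B.U^[n] g := by
    intro n
    induction n with
    | zero => intro g; rfl
    | succ n ih =>
      intro g
      rw [pow_succ', Function.iterate_succ_apply', ← ih g, ← hUe]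
      rfl
  have hz : ∀ j : ℤ, (Ue ^ j) f ∈ (B.Hk 1)ᗮ := by
    intro j
    induction j using Int.induction_on with
    | zero => simpa using hf
    | succ i ih =>
      rw [add_comm, zpow_one_add]
      change Ue ((Ue ^ (i : ℤ)) f) ∈ _
      rw [hUe]
      exact B.U_mem_Hk_orth 1 _ ih
    | pred i ih =>
      have h1 : (-(i : ℤ) - 1) = -1 + -(i : ℤ) := by ring
      rw [h1, zpow_add, zpow_neg_one]
      change Ue⁻¹ ((Ue ^ (-(i : ℤ))) f) ∈ _
      rw [Submodule.mem_orthogonal]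
      intro u hu
      have h2 : (inner ℂ u (Ue⁻¹ ((Ue ^ (-(i : ℤ))) f)) : ℂ) =
          inner ℂ (Ue u) (Ue (Ue⁻¹ ((Ue ^ (-(i : ℤ))) f))) := (Ue.inner_map_map _ _).symm
      have h3 : Ue (Ue⁻¹ ((Ue ^ (-(i : ℤ))) f)) = (Ue ^ (-(i : ℤ))) f := by
        change (Ue * Ue⁻¹) ((Ue ^ (-(i : ℤ))) f) = _
        rw [mul_inv_cancel]
        rfl
      rw [h2, h3]
      have h4 : Ue u ∈ B.Hk 1 := by
        rw [hUe]
        exact B.U_mem_Hk 1 u hu
      exact (Submodule.mem_orthogonal (B.Hk 1) _).1 ih _ h4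
  obtain ⟨A, hA, hA0, hAc⟩ := σ.mutuallySingular_singularPart mT
  have hac : σ.restrict A ≪ mT := by
    refine Measure.AbsolutelyContinuous.mk (fun s hs hs0 => ?_)
    rw [Measure.restrict_apply hs]
    have h1 := σ.haveLebesgueDecomposition_add mT
    rw [h1, Measure.add_apply]
    have h2 : σ.singularPart mT (s ∩ A) = 0 := measure_mono_null Set.inter_subset_right hA0
    have h3 : (mT.withDensity (σ.rnDeriv mT)) (s ∩ A) = 0 :=
      withDensity_absolutelyContinuous _ _ (measure_mono_null Set.inter_subset_left hs0)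
    rw [h2, h3, add_zero]
  obtain ⟨f', hf', hc⟩ := exists_cut Ue f σ (fun n => by rw [hσ n, hpow]) A hA
  have hmem : f' ∈ B.Hk 1 := mem_of_ac G f' (σ.restrict A) hac (fun n => by rw [hc n, hpow])
  have horth : f' ∈ (B.Hk 1)ᗮ := by
    have h1 : (Submodule.span ℂ (Set.range fun j : ℤ => (Ue ^ j) f)).topologicalClosure ≤
        (B.Hk 1)ᗮ := by
      refine Submodule.topologicalClosure_minimal _ ?_ (Submodule.isClosed_orthogonal _)
      rw [Submodule.span_le]
      rintro _ ⟨j, rfl⟩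
      exact hz j
    exact h1 hf'
  have h0 : (inner ℂ f' f' : ℂ) = 0 := (Submodule.mem_orthogonal (B.Hk 1) _).1 horth _ hmem
  have h1 := hc 0
  rw [pow_zero] at h1
  change _ = inner ℂ f' f' at h1
  rw [h0] at h1
  have h2 : ∫ t in A, (fourier ((0 : ℕ) : ℤ) t : ℂ) ∂σ = ((σ.real A : ℝ) : ℂ) := by
    have h3 : ∀ t : 𝕋, (fourier ((0 : ℕ) : ℤ) t : ℂ) = 1 := by
      intro t
      rw [Nat.cast_zero, fourier_zero]
    simp_rw [h3]
    rw [integral_const, measureReal_restrict_apply_univ]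
    simp
  rw [h2] at h1
  have h4 : σ.real A = 0 := by exact_mod_cast h1
  refine ⟨A, hA, ?_, hAc⟩
  rw [measureReal_eq_zero_iff] at h4
  exact h4

/-- elements of `H_1` have integral `0`. -/
theorem integral_eq_zero {B : Blk} (f : B.H) (hf : f ∈ B.Hk 1) :
    ∫ y, f y ∂B.mu = 0 := by
  have h1 : B.e 0 0 0 ∈ B.Hk 0 := B.Hn_le_Hk 0 0 (B.e_mem_Hn 0 0 0 (B.M_pos 0))
  have h2 : (inner ℂ (B.e 0 0 0) f : ℂ) = 0 :=
    (Submodule.isOrtho_iff_inner_eq.1 (B.Hk_orth 0 1 (by norm_num))) _ h1 f hf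
  rw [L2.inner_def] at h2
  rw [← h2]
  apply integral_congr_ae
  filter_upwards [B.coeFn_e 0 0 0] with y e1
  rw [e1]
  have h3 : B.E 0 0 0 y = 1 := by
    have h4 := B.idx_lt 0 y.1
    have h5 : B.idx 0 y.1 = 0 := by
      rw [B.M_zero] at h4
      omega
    unfold Blk.E
    rw [if_pos h5, fourier_zero, mul_one, B.M_zero]
    simp
  rw [h3, RCLike.inner_apply']
  simp

end P130
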