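import Mathlib

/-!
# P130, simple spectrum: cyclic subspaces of a unitary operator
-/

open Filter Topology Polynomial

namespace P130

variable {H : Type*} [NormedAddCommGroup H] [InnerProductSpace ℂ H]

/-- the closed cyclic subspace generated by `v` -/
noncomputable def Zc (U : H ≃ₗᵢ[ℂ] H) (v : H) : Submodule ℂ H :=
  (Submodule.span ℂ (Set.range fun n : ℤ => (U ^ n) v)).topologicalClosure

/-- `U` as an element of the algebra of linear maps -/
def ul (U : H ≃ₗᵢ[ℂ] H) : Module.End ℂ H := (U.toLinearEquiv : H →ₗ[ℂ] H)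

theorem ul_apply (U : H ≃ₗᵢ[ℂ] H) (x : H) : ul U x = U x := rfl

theorem isClosed_Zc (U : H ≃ₗᵢ[ℂ] H) (v : H) : IsClosed (Zc U v : Set H) :=
  Submodule.isClosed_topologicalClosure _

theorem self_mem_Zc (U : H ≃ₗᵢ[ℂ] H) (v : H) : v ∈ Zc U v :=
  Submodule.le_topologicalClosure _ (Submodule.subset_span ⟨0, by simp⟩)

private theorem zpow_mul_apply (U : H ≃ₗᵢ[ℂ] H) (m n : ℤ) (x : H) :
    (U ^ m) ((U ^ n) x) = (U ^ (m + n)) x := by
  rw [zpow_add]
  rfl

theorem zpow_mem_Zc (U : H ≃ₗᵢ[ℂ] H) (v x : H) (n : ℤ) (hx : x ∈ Zc U v) :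
    (U ^ n) x ∈ Zc U v := by
  have h : Zc U v ≤ (Zc U v).comap (((U ^ n).toLinearEquiv : H ≃ₗ[ℂ] H) : H →ₗ[ℂ] H) := by
    unfold Zc
    apply Submodule.topologicalClosure_minimal
    · rw [Submodule.span_le]
      rintro _ ⟨m, rfl⟩
      simp only [Submodule.comap_coe, Set.mem_preimage]
      apply Submodule.le_topologicalClosure
      apply Submodule.subset_span
      exact ⟨n + m, (zpow_mul_apply U n m v).symm⟩
    · exact (isClosed_Zc U v).preimage (U ^ n).continuous
  exact h hx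

theorem Zc_le (U : H ≃ₗᵢ[ℂ] H) (v x : H) (hx : x ∈ Zc U v) : Zc U x ≤ Zc U v := by
  apply Submodule.topologicalClosure_minimal
  · rw [Submodule.span_le]
    rintro _ ⟨m, rfl⟩
    exact zpow_mem_Zc U v x m hx
  · exact isClosed_Zc U v

theorem ul_pow_apply (U : H ≃ₗᵢ[ℂ] H) (n : ℕ) (x : H) : (ul U ^ n) x = (U ^ (n : ℤ)) x := by
  induction n with
  | zero => simp
  | succ k ih =>
    rw [pow_succ', Module.End.mul_apply, ih, ul_apply]
    have := zpow_mul_apply U 1 k x
    rw [zpow_one] at this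
    rw [this]
    congr 2
    push_cast
    ring

theorem aeval_mem_Zc (U : H ≃ₗᵢ[ℂ] H) (P : ℂ[X]) (x : H) : aeval (ul U) P x ∈ Zc U x := by
  rw [Polynomial.aeval_eq_sum_range, LinearMap.sum_apply]
  refine Submodule.sum_mem _ fun i _ => ?_
  rw [LinearMap.smul_apply, ul_pow_apply]
  exact Submodule.smul_mem _ _ (zpow_mem_Zc U x x i (self_mem_Zc U x))

/-- If `|μ| ≠ 1` then `x` is in the cyclic subspace of `U x - μ x`.
Put `y = U x - μ x`.  If `|μ| > 1` then `x = - ∑_{k < N} μ^(-k-1) U^k y + μ^(-N) U^N x`;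
if `|μ| < 1` then `x = ∑_{k < N} μ^k U^(-k-1) y + μ^N U^(-N) x`; the remainders tend to `0`. -/
theorem mem_Zc_sub_smul (U : H ≃ₗᵢ[ℂ] H) (x : H) (μ : ℂ) (hμ : ‖μ‖ ≠ 1) :
    x ∈ Zc U (U x - μ • x) := by
  set y := U x - μ • x with hy
  have hUx : U x = y + μ • x := by rw [hy]; abel
  -- reduction to an approximation statement
  suffices h : ∃ r : ℝ, 0 ≤ r ∧ r < 1 ∧ ∀ N : ℕ, ∃ z ∈ Zc U y, ‖x - z‖ ≤ r ^ N * ‖x‖ by
    obtain ⟨r, hr0, hr1, h⟩ := h
    have hcl := isClosed_Zc U y
    rw [← SetLike.mem_coe, ← hcl.closure_eq]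
    rw [Metric.mem_closure_iff]
    intro ε hε
    have ht : Tendsto (fun N : ℕ => r ^ N * ‖x‖) atTop (𝓝 (0 * ‖x‖)) :=
      (tendsto_pow_atTop_nhds_zero_of_lt_one hr0 hr1).mul_const _
    rw [zero_mul] at ht
    obtain ⟨N, hN⟩ := (ht.eventually (gt_mem_nhds hε)).exists
    obtain ⟨z, hz, hxz⟩ := h N
    exact ⟨z, hz, by rw [dist_eq_norm]; exact lt_of_le_of_lt hxz hN⟩
  rcases lt_or_gt_of_ne hμ with h1 | h1
  · -- `|μ| < 1`
    refine ⟨‖μ‖, norm_nonneg _, h1, fun N => ?_⟩
    have key : ∃ z ∈ Zc U y, x - z = μ ^ N • (U ^ (-(N : ℤ))) x := by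
      induction N with
      | zero => exact ⟨0, Submodule.zero_mem _, by simp⟩
      | succ k ih =>
        obtain ⟨z, hz, hxz⟩ := ih
        refine ⟨z + μ ^ k • (U ^ (-(k : ℤ) - 1)) y, Submodule.add_mem _ hz
          (Submodule.smul_mem _ _ (zpow_mem_Zc U y y _ (self_mem_Zc U y))), ?_⟩
        have e1 : (U ^ (-(k : ℤ) - 1)) y
            = (U ^ (-(k : ℤ))) x - μ • (U ^ (-(k : ℤ) - 1)) x := by
          rw [hy, map_sub, map_smul]
          congr 1
          have := zpow_mul_apply U (-(k : ℤ) - 1) 1 x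
          rw [zpow_one] at this
          rw [this]
          congr 2
          ring
        have e2 : -((k + 1 : ℕ) : ℤ) = -(k : ℤ) - 1 := by push_cast; ring
        rw [e2, e1, ← sub_sub, hxz, smul_sub, smul_smul, pow_succ]
        abel
    obtain ⟨z, hz, hxz⟩ := key
    refine ⟨z, hz, ?_⟩
    rw [hxz, norm_smul, norm_pow, LinearIsometryEquiv.norm_map]
  · -- `|μ| > 1`
    have hμ0 : μ ≠ 0 := by
      intro h0
      rw [h0, norm_zero] at h1
      linarith
    refine ⟨‖μ‖⁻¹, by positivity, inv_lt_one_of_one_lt₀ h1, fun N => ?_⟩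
    have key : ∃ z ∈ Zc U y, x - z = (μ⁻¹) ^ N • (U ^ (N : ℤ)) x := by
      induction N with
      | zero => exact ⟨0, Submodule.zero_mem _, by simp⟩
      | succ k ih =>
        obtain ⟨z, hz, hxz⟩ := ih
        refine ⟨z - (μ⁻¹) ^ (k + 1) • (U ^ (k : ℤ)) y, Submodule.sub_mem _ hz
          (Submodule.smul_mem _ _ (zpow_mem_Zc U y y _ (self_mem_Zc U y))), ?_⟩
        have e1 : (U ^ (k : ℤ)) y
            = (U ^ ((k + 1 : ℕ) : ℤ)) x - μ • (U ^ (k : ℤ)) x := by
          rw [hy, map_sub, map_smul]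
          congr 1
        rw [e1, ← sub_add, hxz, smul_sub, smul_smul, pow_succ, mul_assoc, inv_mul_cancel₀ hμ0,
          mul_one]
        simp
    obtain ⟨z, hz, hxz⟩ := key
    refine ⟨z, hz, ?_⟩
    rw [hxz, norm_smul, norm_pow, LinearIsometryEquiv.norm_map, norm_inv]

/-- If the polynomial `P` has no zero on the unit circle then `x` is in the cyclic subspace of
`P(U) x`.  Factor `P` (`ℂ` algebraically closed) and use `mem_Zc_sub_smul` and `Zc_le`
(induction over the multiset of roots). -/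
theorem mem_Zc_aeval (U : H ≃ₗᵢ[ℂ] H) (P : ℂ[X]) (hP : ∀ z : ℂ, ‖z‖ = 1 → P.eval z ≠ 0) (x : H) :
    x ∈ Zc U (aeval (ul U) P x) := by
  induction hn : P.natDegree using Nat.strong_induction_on generalizing P x with
  | _ n ih =>
    rcases Nat.eq_zero_or_pos n with h0 | hpos
    · obtain ⟨a, rfl⟩ := Polynomial.natDegree_eq_zero.1 (hn.trans h0)
      have ha : a ≠ 0 := by
        intro ha
        apply hP 1 (by simp)
        rw [ha]
        simp
      rw [Polynomial.aeval_C, Module.algebraMap_end_apply]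
      have h := Submodule.smul_mem _ a⁻¹ (self_mem_Zc U (a • x))
      rwa [smul_smul, inv_mul_cancel₀ ha, one_smul] at h
    · have hdeg : P.degree ≠ 0 := by
        intro h
        have h5 : P.natDegree = 0 := Polynomial.natDegree_eq_zero_iff_degree_le_zero.2 h.le
        omega
      obtain ⟨r, hr⟩ := IsAlgClosed.exists_root P hdeg
      obtain ⟨Q, hQ⟩ := Polynomial.dvd_iff_isRoot.2 hr
      have hP0 : P ≠ 0 := by
        intro h
        have h5 : P.natDegree = 0 := by rw [h]; exact Polynomial.natDegree_zero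
        rw [hn] at h5
        exact absurd h5 hpos.ne'
      have hQ0 : Q ≠ 0 := by
        rintro rfl
        rw [mul_zero] at hQ
        exact hP0 hQ
      have hnr : ‖r‖ ≠ 1 := fun h => hP r h hr
      have hQz : ∀ z : ℂ, ‖z‖ = 1 → Q.eval z ≠ 0 := by
        intro z hz hq
        apply hP z hz
        rw [hQ, Polynomial.eval_mul, hq, mul_zero]
      have hQdeg : Q.natDegree < n := by
        rw [← hn, hQ, Polynomial.natDegree_mul (Polynomial.X_sub_C_ne_zero r) hQ0,
          Polynomial.natDegree_X_sub_C]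
        omega
      have h1 := ih Q.natDegree hQdeg Q hQz x rfl
      have h2 := mem_Zc_sub_smul U (aeval (ul U) Q x) r hnr
      have h3 : aeval (ul U) P x = U (aeval (ul U) Q x) - r • (aeval (ul U) Q x) := by
        rw [hQ, map_mul, Module.End.mul_apply, map_sub, Polynomial.aeval_X, Polynomial.aeval_C,
          LinearMap.sub_apply, Module.algebraMap_end_apply, ul_apply]
      rw [h3]
      exact Zc_le U _ _ h2 h1

/-- A small multiple of `X ^ d` can be added so that there is no zero on the unit circle: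
`(P + c X^d)(z) = 0` with `z = e^{iθ}` means `c = - e^{-idθ} P(e^{iθ})`, and the range of a `C¹` map
`ℝ → ℂ` has dense complement (`ContDiff.dense_compl_range_of_finrank_lt_finrank`). -/
theorem exists_small_perturb (P : ℂ[X]) (d : ℕ) (ε : ℝ) (hε : 0 < ε) :
    ∃ c : ℂ, ‖c‖ < ε ∧ ∀ z : ℂ, ‖z‖ = 1 → (P + C c * X ^ d).eval z ≠ 0 := by
  set f : ℝ → ℂ := fun θ => -(Complex.exp (-(d * (θ * Complex.I))) *
    P.eval (Complex.exp (θ * Complex.I))) with hf
  have hexp : ContDiff ℝ 1 fun θ : ℝ => Complex.exp (θ * Complex.I) := by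
    apply ContDiff.cexp
    exact Complex.ofRealCLM.contDiff.mul contDiff_const
  have hexp2 : ContDiff ℝ 1 fun θ : ℝ => Complex.exp (-(d * (θ * Complex.I))) := by
    apply ContDiff.cexp
    exact (contDiff_const.mul (Complex.ofRealCLM.contDiff.mul contDiff_const)).neg
  have hPc : ContDiff ℝ 1 fun z : ℂ => P.eval z :=
    (Polynomial.contDiff_aeval (𝕜 := ℂ) P 1).restrict_scalars ℝ
  have hcd : ContDiff ℝ 1 f := (hexp2.mul (hPc.comp hexp)).neg
  have hdense := hcd.dense_compl_range_of_finrank_lt_finrank (by simp)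
  obtain ⟨c, hc, hcb⟩ := hdense.exists_dist_lt 0 hε
  refine ⟨c, by rwa [dist_comm, dist_zero_right] at hcb, ?_⟩
  intro z hz h0
  apply hc
  refine ⟨Complex.arg z, ?_⟩
  have hz' : Complex.exp (Complex.arg z * Complex.I) = z := by
    have := Complex.norm_mul_exp_arg_mul_I z
    rwa [hz, Complex.ofReal_one, one_mul] at this
  have hzd : Complex.exp (-(d * (Complex.arg z * Complex.I))) * z ^ d = 1 := by
    rw [Complex.exp_neg, Complex.exp_nat_mul, hz']
    have hz0 : z ≠ 0 := by
      rintro rfl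
      simp at hz
    exact inv_mul_cancel₀ (pow_ne_zero _ hz0)
  rw [Polynomial.eval_add, Polynomial.eval_mul, Polynomial.eval_C, Polynomial.eval_pow,
    Polynomial.eval_X] at h0
  simp only [hf]
  rw [hz', show P.eval z = -(c * z ^ d) by linear_combination h0]
  linear_combination c * hzd

end P130
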