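import Mathlib
import Vale.Agent.Lib.P130.CycA

/-!
# P130, simple spectrum: existence of a cyclic vector (Baire category)
-/

open Filter Topology Polynomial

namespace P130

variable {H : Type*} [NormedAddCommGroup H] [InnerProductSpace ℂ H]

private theorem cb_zpow_add (U : H ≃ₗᵢ[ℂ] H) (m n : ℤ) (x : H) :
    (U ^ (m + n)) x = (U ^ m) ((U ^ n) x) := by
  rw [zpow_add]
  rfl

private theorem cb_aeval_X_pow_mul (U : H ≃ₗᵢ[ℂ] H) (P : ℂ[X]) (k : ℕ) (x : H) :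
    aeval (ul U) (X ^ k * P) x = (U ^ (k : ℤ)) (aeval (ul U) P x) := by
  rw [map_mul, map_pow, aeval_X, Module.End.mul_apply, ul_pow_apply]

/-- every element of the linear span of the `U^n v` is `U^(-d) P(U) v` (span induction). -/
theorem span_eq_laurent (U : H ≃ₗᵢ[ℂ] H) (v p : H)
    (hp : p ∈ Submodule.span ℂ (Set.range fun n : ℤ => (U ^ n) v)) :
    ∃ (d : ℕ) (P : ℂ[X]), p = (U ^ (-(d : ℤ))) (aeval (ul U) P v) := by
  induction hp using Submodule.span_induction with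
  | mem x hx =>
    obtain ⟨n, rfl⟩ := hx
    refine ⟨(-n).toNat, X ^ n.toNat, ?_⟩
    have h := cb_aeval_X_pow_mul U 1 n.toNat v
    rw [mul_one, map_one, Module.End.one_apply] at h
    rw [h, ← cb_zpow_add]
    congr 2
    omega
  | zero => exact ⟨0, 0, by simp⟩
  | add x y _ _ hx hy =>
    obtain ⟨d₁, P₁, h₁⟩ := hx
    obtain ⟨d₂, P₂, h₂⟩ := hy
    refine ⟨d₁ + d₂, X ^ d₂ * P₁ + X ^ d₁ * P₂, ?_⟩
    rw [map_add, LinearMap.add_apply, map_add, cb_aeval_X_pow_mul, cb_aeval_X_pow_mul,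
      ← cb_zpow_add, ← cb_zpow_add, h₁, h₂]
    congr 3 <;> push_cast <;> ring
  | smul a x _ hx =>
    obtain ⟨d, P, h⟩ := hx
    refine ⟨d, C a * P, ?_⟩
    rw [map_mul, aeval_C, Module.End.mul_apply, Module.algebraMap_end_apply, map_smul, h]

/-- the open sets of the Baire argument -/
private def cbS (U : H ≃ₗᵢ[ℂ] H) (x : H) (r : ℝ) : Set H :=
  {w | ∃ p ∈ Submodule.span ℂ (Set.range fun n : ℤ => (U ^ n) w), ‖x - p‖ < r}

private theorem cbS_isOpen (U : H ≃ₗᵢ[ℂ] H) (x : H) (r : ℝ) : IsOpen (cbS U x r) := by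
  have e : cbS U x r = ⋃ a : ℤ →₀ ℂ, {w | ‖x - ∑ n ∈ a.support, a n • (U ^ n) w‖ < r} := by
    ext w
    simp only [cbS, Set.mem_iUnion]
    constructor
    · rintro ⟨p, hp, hr⟩
      obtain ⟨a, ha⟩ := (Finsupp.mem_span_range_iff_exists_finsupp).mp hp
      refine ⟨a, ?_⟩
      rw [← ha] at hr
      exact hr
    · rintro ⟨a, ha⟩
      refine ⟨∑ n ∈ a.support, a n • (U ^ n) w, ?_, ha⟩
      exact Submodule.sum_mem _ fun n _ => Submodule.smul_mem _ _ (Submodule.subset_span ⟨n, rfl⟩)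
  rw [e]
  refine isOpen_iUnion fun a => ?_
  refine isOpen_lt ?_ continuous_const
  exact (continuous_const.sub (continuous_finsetSum _ fun n _ =>
    ((U ^ n).continuous.const_smul (a n)))).norm

private theorem cb_exists_span (U : H ≃ₗᵢ[ℂ] H) (v p : H) (hp : p ∈ Zc U v) (ε : ℝ) (hε : 0 < ε) :
    ∃ p' ∈ Submodule.span ℂ (Set.range fun n : ℤ => (U ^ n) v), ‖p - p'‖ < ε := by
  have h : p ∈ closure ((Submodule.span ℂ (Set.range fun n : ℤ => (U ^ n) v) : Submodule ℂ H) :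
      Set H) := hp
  obtain ⟨p', h1, h2⟩ := Metric.mem_closure_iff.mp h ε hε
  exact ⟨p', h1, by rwa [← dist_eq_norm]⟩

private theorem cbS_dense (U : H ≃ₗᵢ[ℂ] H) (x : H) (r : ℝ) (hr : 0 < r)
    (h : ∀ a b : H, ∀ ε : ℝ, 0 < ε → ∃ v : H, (∃ p ∈ Zc U v, ‖a - p‖ < ε) ∧
      ∃ q ∈ Zc U v, ‖b - q‖ < ε) : Dense (cbS U x r) := by
  rw [Metric.dense_iff]
  intro u δ hδ
  obtain ⟨v₀, ⟨p, hp, hup⟩, q, hq, hxq⟩ := h u x (min (δ / 3) (r / 2)) (by positivity)
  obtain ⟨p', hp', hpp'⟩ := cb_exists_span U v₀ p hp (δ / 3) (by positivity)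
  obtain ⟨d, P, hdP⟩ := span_eq_laurent U v₀ p' hp'
  obtain ⟨c, hc, hz⟩ := exists_small_perturb P d (δ / 3 / (‖v₀‖ + 1)) (by positivity)
  set y := aeval (ul U) (P + C c * X ^ d) v₀ with hy
  set w := (U ^ (-(d : ℤ))) y with hw
  have hw2 : w = p' + c • v₀ := by
    have h1 : aeval (ul U) (C c * X ^ d) v₀ = c • (U ^ (d : ℤ)) v₀ := by
      have h2 := cb_aeval_X_pow_mul U (C c) d v₀
      rw [mul_comm, h2, aeval_C, Module.algebraMap_end_apply, map_smul]
    rw [hw, hy, map_add, LinearMap.add_apply, map_add, ← hdP, h1, map_smul, ← cb_zpow_add]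
    simp
  have hv₀y : v₀ ∈ Zc U y := mem_Zc_aeval U _ hz v₀
  have hyw : y ∈ Zc U w := by
    have h1 : y = (U ^ (d : ℤ)) w := by
      rw [hw, ← cb_zpow_add]
      simp
    rw [h1]
    exact zpow_mem_Zc U w w d (self_mem_Zc U w)
  have hv₀w : v₀ ∈ Zc U w := Zc_le U w y hyw hv₀y
  have hqw : q ∈ Zc U w := Zc_le U w v₀ hv₀w hq
  refine ⟨w, ?_, ?_⟩
  · rw [Metric.mem_ball, dist_eq_norm]
    have e1 : w - u = -(u - p) - (p - p') + c • v₀ := by
      rw [hw2]; abel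
    have e2 : ‖c • v₀‖ < δ / 3 := by
      rw [norm_smul]
      calc ‖c‖ * ‖v₀‖ ≤ ‖c‖ * (‖v₀‖ + 1) := by
            have := norm_nonneg c
            nlinarith
        _ < δ / 3 / (‖v₀‖ + 1) * (‖v₀‖ + 1) :=
            mul_lt_mul_of_pos_right hc (by positivity)
        _ = δ / 3 := by field_simp
    rw [e1]
    have e3 : ‖u - p‖ < δ / 3 := hup.trans_le (min_le_left _ _)
    calc ‖-(u - p) - (p - p') + c • v₀‖ ≤ ‖-(u - p) - (p - p')‖ + ‖c • v₀‖ := norm_add_le _ _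
      _ ≤ (‖-(u - p)‖ + ‖p - p'‖) + ‖c • v₀‖ := by
          have := norm_sub_le (-(u - p)) (p - p')
          linarith
      _ < δ := by rw [norm_neg]; linarith
  · obtain ⟨q', hq', hqq'⟩ := cb_exists_span U w q hqw (r / 2) (by positivity)
    refine ⟨q', hq', ?_⟩
    have e3 : ‖x - q‖ < r / 2 := hxq.trans_le (min_le_right _ _)
    calc ‖x - q'‖ = ‖(x - q) + (q - q')‖ := by congr 1; abel
      _ ≤ ‖x - q‖ + ‖q - q'‖ := norm_add_le _ _
      _ < r := by linarith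

/-- If any two vectors can be approximated from one cyclic subspace then there is a cyclic vector.
Baire: for `i : ι`, `N : ℕ` the set of the `v` such that some element of the (algebraic) span of the
`U^n v` is closer than `1/(N+1)` to `x i` is open (`w ↦ ∑ a_n U^n w` is continuous) and dense:
given `u` and `δ > 0`, apply `h` to `u`, `x i` and a small `ε`: `v₀`, `p = U^(-d) P(U) v₀` close to
`u` (density of the span, `span_eq_laurent`); choose `c` by `exists_small_perturb` with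
`‖c‖ ‖v₀‖` small and `v = U^(-d) (P + c X^d)(U) v₀ = p + c v₀`; by `mem_Zc_aeval`
`v₀ ∈ Zc U v`, so `Zc U v₀ ≤ Zc U v` and `x i` is close to `Zc U v`. -/
theorem exists_cyclic [CompleteSpace H] (U : H ≃ₗᵢ[ℂ] H) {ι : Type*} [Countable ι] (x : ι → H)
    (hx : (Submodule.span ℂ (Set.range x)).topologicalClosure = ⊤)
    (h : ∀ a b : H, ∀ ε : ℝ, 0 < ε → ∃ v : H, (∃ p ∈ Zc U v, ‖a - p‖ < ε) ∧
      ∃ q ∈ Zc U v, ‖b - q‖ < ε) : ∃ v : H, Zc U v = ⊤ := by
  have hd : Dense (⋂ k : ι × ℕ, cbS U (x k.1) (1 / ((k.2 : ℝ) + 1))) := by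
    refine dense_iInter_of_isOpen (fun k => cbS_isOpen U _ _) fun k => ?_
    exact cbS_dense U _ _ (by positivity) h
  obtain ⟨v, hv⟩ := hd.nonempty
  rw [Set.mem_iInter] at hv
  refine ⟨v, ?_⟩
  rw [eq_top_iff, ← hx]
  refine Submodule.topologicalClosure_minimal _ ?_ (isClosed_Zc U v)
  rw [Submodule.span_le]
  rintro _ ⟨i, rfl⟩
  change x i ∈ closure ((Submodule.span ℂ (Set.range fun n : ℤ => (U ^ n) v) : Submodule ℂ H) :
      Set H)
  rw [Metric.mem_closure_iff]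
  intro ε hε
  obtain ⟨N, hN⟩ := exists_nat_one_div_lt hε
  obtain ⟨p, hp, hxp⟩ := hv (i, N)
  exact ⟨p, hp, by rw [dist_eq_norm]; exact hxp.trans hN⟩

end P130
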