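import Mathlib
import Vale.Agent.Lib.P130.ChirpDefs

/-!
# P130: a weak form of Weyl's bound

Proof by partial summation (Kuzmin-Landau): with `f i = e(i²/(4L))`, `θ i = (2i+1)/(4L)` one has
`f (i+1) - f i = f i * (e(θ i) - 1)`; with `g i = 1/(e(θ i) - 1)`
`f i = (g (i+1) f (i+1) - g i f i) - (g (i+1) - g i) f (i+1)`.
For `i ≥ δ L` we have `|g| ≤ 1/(2δ)` and `|g (i+1) - g i| ≤ π/(4 δ² L)`.
-/

open MeasureTheory Filter Topology
open scoped ENNReal ComplexConjugate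

namespace P130

/-- `e(x) = exp(2 π i x)` -/
private noncomputable def wE (x : ℝ) : ℂ := Complex.exp (Complex.I * ((2 * Real.pi * x : ℝ) : ℂ))

private theorem wE_add (x y : ℝ) : wE (x + y) = wE x * wE y := by
  unfold wE
  rw [← Complex.exp_add]
  congr 1
  push_cast
  ring

private theorem wE_norm (x : ℝ) : ‖wE x‖ = 1 := by
  unfold wE
  rw [mul_comm]
  exact Complex.norm_exp_ofReal_mul_I _

private theorem wE_fourier (x : ℝ) : fourier 1 ((x : ℝ) : 𝕋) = wE x := by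
  unfold wE
  rw [fourier_coe_apply]
  congr 1
  push_cast
  ring

private theorem wE_lower (x : ℝ) (h0 : 0 ≤ x) (h1 : x ≤ 1 / 2) : 4 * x ≤ ‖wE x - 1‖ := by
  unfold wE
  rw [Complex.norm_exp_I_mul_ofReal_sub_one]
  have h2 : 2 * Real.pi * x / 2 = Real.pi * x := by ring
  rw [h2]
  have hp := Real.pi_pos
  have h3 : 2 / Real.pi * (Real.pi * x) ≤ Real.sin (Real.pi * x) :=
    Real.mul_le_sin (by positivity) (by nlinarith)
  have h4 : 2 / Real.pi * (Real.pi * x) = 2 * x := by field_simp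
  rw [h4] at h3
  rw [Real.norm_eq_abs]
  refine le_trans ?_ (le_abs_self _)
  linarith

private theorem wE_lip (x y : ℝ) : ‖wE x - wE y‖ ≤ 2 * Real.pi * |x - y| := by
  have h1 : wE x = wE (x - y) * wE y := by rw [← wE_add]; congr 1; ring
  have h2 : wE x - wE y = (wE (x - y) - 1) * wE y := by rw [h1]; ring
  rw [h2, norm_mul, wE_norm, mul_one]
  unfold wE
  refine (Real.norm_exp_I_mul_ofReal_sub_one_le).trans ?_
  rw [Real.norm_eq_abs, abs_mul, abs_of_pos (by positivity : (0 : ℝ) < 2 * Real.pi)]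

/-- the terms -/
private noncomputable def wf (L i : ℕ) : ℂ := wE ((i : ℝ) ^ 2 / (4 * L))
private noncomputable def wth (L i : ℕ) : ℝ := (2 * (i : ℝ) + 1) / (4 * L)
private noncomputable def wg (L i : ℕ) : ℂ := (wE (wth L i) - 1)⁻¹

private theorem wf_succ (L i : ℕ) (hL : 0 < L) : wf L (i + 1) = wf L i * wE (wth L i) := by
  unfold wf wth
  rw [← wE_add]
  congr 1
  have : (L : ℝ) ≠ 0 := by positivity
  push_cast
  field_simp
  ring

private theorem wg_ne (L i : ℕ) (hL : 0 < L) (hi : i < L) : 0 < ‖wE (wth L i) - 1‖ := by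
  have hL' : (0 : ℝ) < L := by exact_mod_cast hL
  have h0 : 0 < wth L i := by unfold wth; positivity
  have h1 : wth L i ≤ 1 / 2 := by
    unfold wth
    rw [div_le_div_iff₀ (by positivity) (by norm_num)]
    have : (i : ℝ) + 1 ≤ L := by exact_mod_cast hi
    linarith
  have := wE_lower _ h0.le h1
  linarith

private theorem wg_lower (L i : ℕ) (δ : ℝ) (hL : 0 < L) (hi : i < L) (hδ : δ * L ≤ i) :
    2 * δ ≤ ‖wE (wth L i) - 1‖ := by
  have hL' : (0 : ℝ) < L := by exact_mod_cast hL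
  have h0 : 0 < wth L i := by unfold wth; positivity
  have h1 : wth L i ≤ 1 / 2 := by
    unfold wth
    rw [div_le_div_iff₀ (by positivity) (by norm_num)]
    have : (i : ℝ) + 1 ≤ L := by exact_mod_cast hi
    linarith
  have h2 := wE_lower _ h0.le h1
  have h3 : δ / 2 ≤ wth L i := by
    unfold wth
    rw [div_le_div_iff₀ (by norm_num) (by positivity)]
    linarith
  linarith

private theorem wf_eq (L i : ℕ) (hL : 0 < L) (hi : i < L) :
    wf L i = (wg L (i + 1) * wf L (i + 1) - wg L i * wf L i)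
      - (wg L (i + 1) - wg L i) * wf L (i + 1) := by
  have h1 : wE (wth L i) - 1 ≠ 0 := norm_pos_iff.1 (wg_ne L i hL hi)
  have h2 : wg L i * (wE (wth L i) - 1) = 1 := inv_mul_cancel₀ h1
  rw [wf_succ L i hL]
  linear_combination (-wf L i) * h2

private theorem wsum_bound (L a : ℕ) (δ : ℝ) (hδ0 : 0 < δ) (hL : 0 < L) (ha : δ * L ≤ a)
    (haL : a ≤ L - 1) :
    ‖∑ i ∈ Finset.Ico a (L - 1), wf L i‖ ≤ 1 / δ + Real.pi / (4 * δ ^ 2) := by
  have hL' : (0 : ℝ) < L := by exact_mod_cast hL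
  have h1 : ∑ i ∈ Finset.Ico a (L - 1), wf L i =
      (wg L (L - 1) * wf L (L - 1) - wg L a * wf L a)
      - ∑ i ∈ Finset.Ico a (L - 1), (wg L (i + 1) - wg L i) * wf L (i + 1) := by
    rw [← Finset.sum_Ico_sub (fun i => wg L i * wf L i) haL, ← Finset.sum_sub_distrib]
    apply Finset.sum_congr rfl
    intro i hi
    rw [Finset.mem_Ico] at hi
    exact wf_eq L i hL (by omega)
  have hgn : ∀ i, a ≤ i → i < L → ‖wg L i‖ ≤ 1 / (2 * δ) := by
    intro i h2 h3
    unfold wg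
    rw [norm_inv, inv_eq_one_div]
    apply one_div_le_one_div_of_le (by positivity)
    refine wg_lower L i δ hL h3 (ha.trans ?_)
    exact_mod_cast h2
  have hfn : ∀ i, ‖wf L i‖ = 1 := fun i => wE_norm _
  have hdiff : ∀ i ∈ Finset.Ico a (L - 1), ‖(wg L (i + 1) - wg L i) * wf L (i + 1)‖ ≤
      Real.pi / (4 * δ ^ 2 * L) := by
    intro i hi
    rw [Finset.mem_Ico] at hi
    rw [norm_mul, hfn, mul_one]
    have k1 := wg_lower L i δ hL (by omega) (ha.trans (by exact_mod_cast hi.1))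
    have k2 := wg_lower L (i + 1) δ hL (by omega)
      (ha.trans (by exact_mod_cast (hi.1.trans (Nat.le_succ i))))
    have n1 : wE (wth L i) - 1 ≠ 0 := norm_pos_iff.1 (wg_ne L i hL (by omega))
    have n2 : wE (wth L (i + 1)) - 1 ≠ 0 := norm_pos_iff.1 (wg_ne L (i + 1) hL (by omega))
    have e : wg L (i + 1) - wg L i = (wE (wth L i) - wE (wth L (i + 1))) /
        ((wE (wth L (i + 1)) - 1) * (wE (wth L i) - 1)) := by
      unfold wg
      rw [inv_sub_inv n2 n1]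
      congr 1
      ring
    rw [e, norm_div, norm_mul]
    have k3 := wE_lip (wth L i) (wth L (i + 1))
    have k4 : |wth L i - wth L (i + 1)| = 1 / (2 * L) := by
      unfold wth
      have : (2 * (i : ℝ) + 1) / (4 * L) - (2 * ((i + 1 : ℕ) : ℝ) + 1) / (4 * L) =
          -(1 / (2 * L)) := by
        push_cast
        field_simp
        ring
      rw [this, abs_neg, abs_of_pos (by positivity)]
    rw [k4] at k3
    have k5 : 4 * δ ^ 2 ≤ ‖wE (wth L (i + 1)) - 1‖ * ‖wE (wth L i) - 1‖ := by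
      have := mul_le_mul k2 k1 (by positivity) (by positivity)
      nlinarith
    calc ‖wE (wth L i) - wE (wth L (i + 1))‖ / (‖wE (wth L (i + 1)) - 1‖ * ‖wE (wth L i) - 1‖)
        ≤ (2 * Real.pi * (1 / (2 * L))) / (4 * δ ^ 2) :=
          div_le_div₀ (by positivity) k3 (by positivity) k5
      _ = Real.pi / (4 * δ ^ 2 * L) := by
          field_simp
  rw [h1]
  have hsum : ‖∑ i ∈ Finset.Ico a (L - 1), (wg L (i + 1) - wg L i) * wf L (i + 1)‖ ≤
      Real.pi / (4 * δ ^ 2) := by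
    refine (norm_sum_le_of_le _ hdiff).trans ?_
    rw [Finset.sum_const, Nat.card_Ico, nsmul_eq_mul]
    have hc : ((L - 1 - a : ℕ) : ℝ) ≤ L := by
      have : L - 1 - a ≤ L := by omega
      exact_mod_cast this
    calc ((L - 1 - a : ℕ) : ℝ) * (Real.pi / (4 * δ ^ 2 * L))
        ≤ L * (Real.pi / (4 * δ ^ 2 * L)) := mul_le_mul_of_nonneg_right hc (by positivity)
      _ = Real.pi / (4 * δ ^ 2) := by field_simp
  have b1 : ‖wg L (L - 1) * wf L (L - 1)‖ ≤ 1 / (2 * δ) := by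
    rw [norm_mul, hfn, mul_one]
    exact hgn _ haL (by omega)
  have b2 : ‖wg L a * wf L a‖ ≤ 1 / (2 * δ) := by
    rw [norm_mul, hfn, mul_one]
    exact hgn _ le_rfl (by omega)
  have t1 := norm_sub_le (wg L (L - 1) * wf L (L - 1) - wg L a * wf L a)
    (∑ i ∈ Finset.Ico a (L - 1), (wg L (i + 1) - wg L i) * wf L (i + 1))
  have t2 := norm_sub_le (wg L (L - 1) * wf L (L - 1)) (wg L a * wf L a)
  have t3 : 1 / δ = 1 / (2 * δ) + 1 / (2 * δ) := by field_simp; norm_num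
  linarith

private theorem chC_eq (L : ℕ) : chC 1 L 0 = ∑ i ∈ Finset.range L, wf L i := by
  unfold chC wf
  apply Finset.sum_congr rfl
  intro i _
  rw [fourier_eval_zero, mul_one, wE_fourier]
  congr 2
  push_cast
  ring

private theorem chC_bound (L : ℕ) (δ : ℝ) (hδ0 : 0 < δ) (hδ1 : δ < 1) (hL : 0 < L) :
    ‖chC 1 L 0‖ ≤ δ * L + (2 + 1 / δ + Real.pi / (4 * δ ^ 2)) := by
  have hL' : (0 : ℝ) < L := by exact_mod_cast hL
  have hfn : ∀ i, ‖wf L i‖ = 1 := fun i => wE_norm _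
  have hC : 0 ≤ 1 / δ + Real.pi / (4 * δ ^ 2) := by
    have := Real.pi_pos
    positivity
  rw [chC_eq]
  have hceil : (⌈δ * L⌉₊ : ℝ) < δ * L + 1 := Nat.ceil_lt_add_one (by positivity)
  rcases le_or_gt ⌈δ * L⌉₊ (L - 1) with h | h
  · have hs : ∑ i ∈ Finset.range L, wf L i = ∑ i ∈ Finset.range ⌈δ * L⌉₊, wf L i +
        ∑ i ∈ Finset.Ico ⌈δ * L⌉₊ (L - 1), wf L i + wf L (L - 1) := by
      rw [Finset.sum_range_add_sum_Ico _ h, ← Finset.sum_range_succ]
      congr 2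
      omega
    rw [hs]
    have h1 : ‖∑ i ∈ Finset.range ⌈δ * L⌉₊, wf L i‖ ≤ ⌈δ * L⌉₊ := by
      refine (norm_sum_le _ _).trans ?_
      simp [hfn]
    have h2 := wsum_bound L ⌈δ * L⌉₊ δ hδ0 hL (Nat.le_ceil _) h
    have h3 := norm_add_le (∑ i ∈ Finset.range ⌈δ * L⌉₊, wf L i +
        ∑ i ∈ Finset.Ico ⌈δ * L⌉₊ (L - 1), wf L i) (wf L (L - 1))
    have h4 := norm_add_le (∑ i ∈ Finset.range ⌈δ * L⌉₊, wf L i)
        (∑ i ∈ Finset.Ico ⌈δ * L⌉₊ (L - 1), wf L i)
    rw [hfn] at h3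
    linarith
  · have h1 : ‖∑ i ∈ Finset.range L, wf L i‖ ≤ L := by
      refine (norm_sum_le _ _).trans ?_
      simp [hfn]
    have h2 : (L : ℝ) ≤ ⌈δ * L⌉₊ := by
      have : L ≤ ⌈δ * L⌉₊ := by omega
      exact_mod_cast this
    linarith

/-- Weyl's bound for the quadratic chirp, in the weak form needed. -/
theorem chC_zero_tendsto : Tendsto (fun L : ℕ => ‖chC 1 L 0‖ / L) atTop (𝓝 0) := by
  rw [Metric.tendsto_atTop]
  intro ε hε
  obtain ⟨δ, hδ0, hδ1, hδε⟩ : ∃ δ : ℝ, 0 < δ ∧ δ < 1 ∧ δ ≤ ε / 2 :=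
    ⟨min (ε / 2) (1 / 2), lt_min (by positivity) (by norm_num),
      (min_le_right _ _).trans_lt (by norm_num), min_le_left _ _⟩
  obtain ⟨C, hC⟩ : ∃ C, C = 2 + 1 / δ + Real.pi / (4 * δ ^ 2) := ⟨_, rfl⟩
  have hC0 : 0 < C := by
    have := Real.pi_pos
    rw [hC]
    positivity
  refine ⟨⌈2 * C / ε⌉₊ + 1, ?_⟩
  intro L hL
  have hL0 : 0 < L := by omega
  have hL' : (0 : ℝ) < L := by exact_mod_cast hL0
  have hLC : 2 * C / ε < L := by
    have h1 : 2 * C / ε ≤ ⌈2 * C / ε⌉₊ := Nat.le_ceil _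
    have h2 : ((⌈2 * C / ε⌉₊ : ℕ) : ℝ) + 1 ≤ L := by exact_mod_cast hL
    linarith
  have hb := chC_bound L δ hδ0 hδ1 hL0
  rw [← hC] at hb
  rw [Real.dist_eq, sub_zero, abs_of_nonneg (by positivity), div_lt_iff₀ hL']
  rw [div_lt_iff₀ hε] at hLC
  have := mul_le_mul_of_nonneg_right hδε hL'.le
  linarith

end P130
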