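import Mathlib
import Vale.Agent.Lib.P130.Struct
import Vale.Agent.Lib.P130.Weyl

/-!
# P130: invariant vectors

For an invariant `p ∈ H_k`, `k ≥ 2`: `α_n^κ = ⟨e n i κ, p⟩` (`κ = ± k`) does not depend on `i < M n`
(`U_e`), so `‖P_n p‖² = M_n (|α_n^k|² + |α_n^{-k}|²)`, `P_n` the projection to `Hn n k`.  If block `n`
is of type `k` (`G.κ n = k`), `e_refine` gives
`α_n^κ = m^{-1/2} conj(S_κ) (α_{n+1}^κ + α_{n+1}^{-κ})`, `S_κ = ∑_{j < kL} χ_κ(a_j)`,
`|S_κ| = k |∑_{i < L} e(i²/(4L))| = k |chC 1 L 0|`.  Hence `‖P_n p‖² ≤ 4 (|S|/m)² ‖p‖²`,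
`|S| / m = |chC 1 L 0| / (2 L) → 0` (van der Corput / Weyl:
`|chC 1 L 0|² = ∑_{|l| < L} c_l`, `|c_l| ≤ L / l` for `l ≥ 1`, see `ChirpC.lean`).
-/

open MeasureTheory Filter Topology
open scoped ENNReal ComplexConjugate

namespace P130

/-- the component in `H_k` of an invariant vector is invariant -/
theorem inv_proj (B : Blk) (k : ℕ) (f : B.H) (hf : B.U f = f) :
    ∃ p q : B.H, f = p + q ∧ p ∈ B.Hk k ∧ q ∈ (B.Hk k)ᗮ ∧ B.U p = p := by
  have : CompleteSpace (B.Hk k) := (B.isClosed_Hk k).completeSpace_coe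
  obtain ⟨p, hp, q, hq, hpq⟩ := Submodule.exists_add_mem_mem_orthogonal (K := B.Hk k) f
  refine ⟨p, q, hpq, hp, hq, ?_⟩
  have h1 : B.U p + B.U q = p + q := by
    rw [← map_add, ← hpq, hf]
  have h2 : B.U p - p = q - B.U q := by
    rw [sub_eq_sub_iff_add_eq_add, h1, add_comm]
  have h3 : B.U p - p ∈ B.Hk k := Submodule.sub_mem _ (B.U_mem_Hk k p hp) hp
  have h4 : B.U p - p ∈ (B.Hk k)ᗮ := by
    rw [h2]
    exact Submodule.sub_mem _ hq (B.U_mem_Hk_orth k q hq)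
  have h5 : (inner ℂ (B.U p - p) (B.U p - p) : ℂ) = 0 :=
    (Submodule.mem_orthogonal _ _).1 h4 _ h3
  exact sub_eq_zero.1 (inner_self_eq_zero.1 h5)

/-- a vector of `H_k` orthogonal to all `e n i κ` vanishes -/
theorem erga_zero_of_orth (B : Blk) (k : ℕ) (q : B.H) (hq : q ∈ B.Hk k)
    (h : ∀ (n i : ℕ) (κ : ℤ), i < B.M n → κ.natAbs = k → (inner ℂ (B.e n i κ) q : ℂ) = 0) :
    q = 0 := by
  have h1 : B.Hk k ≤ (ℂ ∙ q)ᗮ := by
    refine Submodule.topologicalClosure_minimal _ ?_ (Submodule.isClosed_orthogonal _)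
    refine iSup_le fun n => ?_
    unfold Blk.Hn
    rw [Submodule.span_le]
    rintro _ ⟨i, κ, hi, hκ, rfl⟩
    rw [SetLike.mem_coe, Submodule.mem_orthogonal_singleton_iff_inner_left]
    exact h n i κ hi hκ
  have h2 := h1 hq
  rw [Submodule.mem_orthogonal_singleton_iff_inner_left] at h2
  exact inner_self_eq_zero.1 h2

/-- the coefficients of an invariant vector do not depend on the level -/
theorem erga_shift (B : Blk) (p : B.H) (hU : B.U p = p) (n : ℕ) (κ : ℤ) (i : ℕ)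
    (hi : i < B.M n) : (inner ℂ (B.e n i κ) p : ℂ) = inner ℂ (B.e n 0 κ) p := by
  induction i with
  | zero => rfl
  | succ i ih =>
    rw [← B.U_e n i κ hi]
    conv_lhs => rw [← hU]
    rw [LinearIsometry.inner_map_map]
    exact ih (by omega)

theorem erga_orthonormal (B : Blk) (n : ℕ) (κ : ℤ) :
    Orthonormal ℂ (fun i : Fin (B.M n) => B.e n i κ) :=
  (B.orthonormal_e n).comp (fun i : Fin (B.M n) => (i, κ)) fun _ _ h => (Prod.mk.inj h).1

/-- Bessel's inequality for the coefficients of an invariant vector -/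
theorem erga_bessel (B : Blk) (p : B.H) (hU : B.U p = p) (n : ℕ) (κ : ℤ) :
    Real.sqrt (B.M n) * ‖(inner ℂ (B.e n 0 κ) p : ℂ)‖ ≤ ‖p‖ := by
  have h1 := (erga_orthonormal B n κ).sum_inner_products_le (x := p) (s := Finset.univ)
  have h2 : ∑ i : Fin (B.M n), ‖(inner ℂ (B.e n i κ) p : ℂ)‖ ^ 2 =
      (B.M n : ℝ) * ‖(inner ℂ (B.e n 0 κ) p : ℂ)‖ ^ 2 := by
    rw [Finset.sum_congr rfl fun (i : Fin (B.M n)) _ => by
      rw [erga_shift B p hU n κ i i.2]]
    rw [Finset.sum_const, Finset.card_univ, Fintype.card_fin, nsmul_eq_mul]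
  rw [h2] at h1
  refine le_of_sq_le_sq ?_ (norm_nonneg _)
  rw [mul_pow, Real.sq_sqrt (Nat.cast_nonneg _)]
  exact h1

/-- sum of the moduli of the coefficients -/
theorem erga_l1 (B : Blk) (g : B.H) (n : ℕ) (κ : ℤ) :
    ∑ i ∈ Finset.range (B.M n), ‖(inner ℂ (B.e n i κ) g : ℂ)‖ ≤ Real.sqrt (B.M n) * ‖g‖ := by
  have h1 := (erga_orthonormal B n κ).sum_inner_products_le (x := g) (s := Finset.univ)
  rw [Finset.sum_range]
  refine le_of_sq_le_sq ?_ (by positivity)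
  rw [mul_pow, Real.sq_sqrt (Nat.cast_nonneg _)]
  have h2 := sq_sum_le_card_mul_sum_sq (s := (Finset.univ : Finset (Fin (B.M n))))
    (f := fun i => ‖(inner ℂ (B.e n i κ) g : ℂ)‖)
  rw [Finset.card_univ, Fintype.card_fin] at h2
  exact h2.trans (mul_le_mul_of_nonneg_left h1 (Nat.cast_nonneg _))

theorem erga_phase (k L j : ℕ) (hk : 0 < k) (hL : 0 < L) (hj : j < k * L) :
    (fourier (k : ℤ) (chA k L j) : ℂ) =
      fourier 1 (((((j % L : ℕ) : ℝ) ^ 2 / (4 * (1 : ℕ) * L) : ℝ)) : 𝕋) := by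
  unfold chA
  rw [Nat.mod_eq_of_lt hj, fourier_coe_apply, fourier_coe_apply,
    Complex.exp_eq_exp_iff_exists_int]
  refine ⟨((j / L) * (j % L) : ℕ), ?_⟩
  have hk' : (k : ℂ) ≠ 0 := by exact_mod_cast hk.ne'
  have hL' : (L : ℂ) ≠ 0 := by exact_mod_cast hL.ne'
  generalize j / L = u
  generalize j % L = v
  push_cast
  field_simp
  ring

theorem erga_sum_mod (F : ℕ → ℂ) (k L : ℕ) :
    ∑ j ∈ Finset.range (k * L), F (j % L) = k * ∑ i ∈ Finset.range L, F i := by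
  induction k with
  | zero => simp
  | succ k ih =>
    rw [Nat.succ_mul, Finset.sum_range_add, ih]
    have h1 : ∑ x ∈ Finset.range L, F ((k * L + x) % L) = ∑ i ∈ Finset.range L, F i := by
      refine Finset.sum_congr rfl fun i hi => ?_
      rw [Nat.add_comm, Nat.add_mul_mod_self_right, Nat.mod_eq_of_lt (Finset.mem_range.1 hi)]
    rw [h1]
    push_cast
    ring

theorem erga_S (k L : ℕ) (hk : 0 < k) (hL : 0 < L) (κ : ℤ) (hκ : κ.natAbs = k) :
    ‖∑ j ∈ Finset.range (k * L), (fourier κ (chA k L j) : ℂ)‖ = k * ‖chC 1 L 0‖ := by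
  have h1 : ∑ j ∈ Finset.range (k * L), (fourier (k : ℤ) (chA k L j) : ℂ) =
      k * chC 1 L 0 := by
    rw [Finset.sum_congr rfl fun j hj => erga_phase k L j hk hL (Finset.mem_range.1 hj),
      erga_sum_mod (fun i => (fourier 1 ((((i : ℝ) ^ 2 / (4 * (1 : ℕ) * L) : ℝ)) : 𝕋) : ℂ)) k L]
    congr 1
    unfold chC
    refine Finset.sum_congr rfl fun i _ => ?_
    rw [fourier_eval_zero, mul_one]
  have h2 : ‖∑ j ∈ Finset.range (k * L), (fourier (k : ℤ) (chA k L j) : ℂ)‖ =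
      k * ‖chC 1 L 0‖ := by
    rw [h1, norm_mul, Complex.norm_natCast]
  rcases Int.natAbs_eq κ with h | h
  · rw [hκ] at h
    rw [h]
    exact h2
  · rw [hκ] at h
    rw [h, ← h2, ← Complex.norm_conj (∑ j ∈ Finset.range (k * L),
      (fourier (k : ℤ) (chA k L j) : ℂ)), map_sum]
    congr 1
    exact Finset.sum_congr rfl fun j _ => fourier_neg

/-- the recursion for the coefficients in a block of type `k` -/
theorem erga_rec {B : Blk} (G : Good B) (n k : ℕ) (hk : 0 < k) (hn : G.κ n = k) (κ : ℤ)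
    (hκ : κ.natAbs = k) (p : B.H) (hU : B.U p = p) :
    ‖(inner ℂ (B.e n 0 κ) p : ℂ)‖ ≤ (Real.sqrt (B.m n))⁻¹ * (k * ‖chC 1 (G.L n) 0‖) *
      (‖(inner ℂ (B.e (n + 1) 0 κ) p : ℂ)‖ + ‖(inner ℂ (B.e (n + 1) 0 (-κ)) p : ℂ)‖) := by
  have hm : B.m n = k * G.L n + k * G.L n := by
    rw [G.hm n, hn]
    ring
  have h1 : (inner ℂ (B.e n 0 κ) p : ℂ) = conj ((Real.sqrt (B.m n) : ℂ)⁻¹) *
      (conj (∑ j ∈ Finset.range (k * G.L n), (fourier κ (chA k (G.L n) j) : ℂ)) *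
        ((inner ℂ (B.e (n + 1) 0 κ) p : ℂ) + inner ℂ (B.e (n + 1) 0 (-κ)) p)) := by
    rw [B.e_refine n 0 κ (B.M_pos n), inner_smul_left, sum_inner]
    congr 1
    have h2 : ∀ j ∈ Finset.range (B.m n),
        (inner ℂ ((fourier κ (B.a n j) : ℂ) • B.e (n + 1) (j * B.M n + 0)
          ((B.s n j : ℤ) * κ)) p : ℂ) = conj (fourier κ (B.a n j) : ℂ) *
          inner ℂ (B.e (n + 1) 0 ((B.s n j : ℤ) * κ)) p := by
      intro j hj
      rw [inner_smul_left, erga_shift B p hU (n + 1) _ (j * B.M n + 0)]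
      rw [B.M_succ, add_zero, mul_comm]
      exact (Nat.mul_lt_mul_left (B.M_pos n)).2 (Finset.mem_range.1 hj)
    rw [Finset.sum_congr rfl h2, hm, Finset.sum_range_add, mul_add, map_sum]
    congr 1
    · rw [Finset.sum_mul]
      refine Finset.sum_congr rfl fun j hj => ?_
      rw [G.ha n j, G.hs n j, hn]
      unfold chS
      rw [if_pos (Finset.mem_range.1 hj), Units.val_one, one_mul]
    · rw [Finset.sum_mul]
      refine Finset.sum_congr rfl fun j hj => ?_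
      rw [G.ha n _, G.hs n _, hn]
      unfold chS
      rw [if_neg (by omega), Units.val_neg, Units.val_one, neg_one_mul]
      congr 2
      unfold chA
      rw [Nat.add_mod_left]
  rw [h1, norm_mul, norm_mul, Complex.norm_conj, Complex.norm_conj,
    erga_S k (G.L n) hk (G.hL n) κ hκ, norm_inv, Complex.norm_real,
    Real.norm_of_nonneg (Real.sqrt_nonneg _), ← mul_assoc]
  refine mul_le_mul_of_nonneg_left (norm_add_le _ _) ?_
  have h3 : 0 ≤ (Real.sqrt (B.m n))⁻¹ := inv_nonneg.2 (Real.sqrt_nonneg _)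
  have h4 : 0 ≤ ‖chC 1 (G.L n) 0‖ := norm_nonneg _
  positivity

theorem erga_bound {B : Blk} (G : Good B) (n k : ℕ) (hk : 0 < k) (hn : G.κ n = k) (κ : ℤ)
    (hκ : κ.natAbs = k) (p : B.H) (hU : B.U p = p) :
    Real.sqrt (B.M n) * ‖(inner ℂ (B.e n 0 κ) p : ℂ)‖ ≤
      (‖chC 1 (G.L n) 0‖ / G.L n) * ‖p‖ := by
  have h1 := erga_rec G n k hk hn κ hκ p hU
  have h2 := erga_bessel B p hU (n + 1) κ
  have h3 := erga_bessel B p hU (n + 1) (-κ)
  have hsM : 0 < Real.sqrt (B.M n) := Real.sqrt_pos.2 (by exact_mod_cast B.M_pos n)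
  have hsm : 0 < Real.sqrt (B.m n) := Real.sqrt_pos.2 (by exact_mod_cast B.m_pos n)
  have hs : Real.sqrt (B.M (n + 1)) = Real.sqrt (B.M n) * Real.sqrt (B.m n) := by
    rw [B.M_succ, Nat.cast_mul, Real.sqrt_mul (Nat.cast_nonneg _)]
  have hsm2 : Real.sqrt (B.m n) * Real.sqrt (B.m n) = 2 * k * G.L n := by
    rw [Real.mul_self_sqrt (Nat.cast_nonneg _), G.hm n, hn]
    push_cast
    ring
  have hL : (0 : ℝ) < G.L n := by exact_mod_cast G.hL n
  have hkr : (0 : ℝ) < k := by exact_mod_cast hk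
  rw [hs] at h2 h3
  obtain ⟨x, hx⟩ : ∃ x, x = ‖(inner ℂ (B.e (n + 1) 0 κ) p : ℂ)‖ := ⟨_, rfl⟩
  obtain ⟨y, hy⟩ : ∃ y, y = ‖(inner ℂ (B.e (n + 1) 0 (-κ)) p : ℂ)‖ := ⟨_, rfl⟩
  obtain ⟨C, hC⟩ : ∃ C, C = ‖chC 1 (G.L n) 0‖ := ⟨_, rfl⟩
  have hC0 : 0 ≤ C := by rw [hC]; exact norm_nonneg _
  rw [← hx, ← hy, ← hC] at h1
  rw [← hx] at h2
  rw [← hy] at h3
  rw [← hC]
  calc Real.sqrt (B.M n) * ‖(inner ℂ (B.e n 0 κ) p : ℂ)‖
      ≤ Real.sqrt (B.M n) * ((Real.sqrt (B.m n))⁻¹ * (k * C) * (x + y)) :=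
        mul_le_mul_of_nonneg_left h1 hsM.le
    _ = (k * C / (Real.sqrt (B.m n) * Real.sqrt (B.m n))) *
        (Real.sqrt (B.M n) * Real.sqrt (B.m n) * x + Real.sqrt (B.M n) * Real.sqrt (B.m n) * y) := by
        field_simp
    _ ≤ (k * C / (Real.sqrt (B.m n) * Real.sqrt (B.m n))) * (‖p‖ + ‖p‖) :=
        mul_le_mul_of_nonneg_left (add_le_add h2 h3) (by positivity)
    _ = (C / G.L n) * ‖p‖ := by
        rw [hsm2]
        field_simp
        ring

theorem inv_k {B : Blk} (G : Good B) (k : ℕ) (hk : 2 ≤ k) (p : B.H) (hp : p ∈ B.Hk k)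
    (hU : B.U p = p) : p = 0 := by
  refine erga_zero_of_orth B k p hp fun n₀ i₀ κ₀ hi₀ hκ₀ => ?_
  -- bound at level `n` of type `k`
  have key : ∀ n, n₀ ≤ n → G.κ n = k → ‖(inner ℂ (B.e n₀ i₀ κ₀) p : ℂ)‖ ≤
      2 * (‖chC 1 (G.L n) 0‖ / G.L n) * ‖p‖ * ‖B.e n₀ i₀ κ₀‖ := by
    intro n hn hκn
    have hg : B.e n₀ i₀ κ₀ ∈ B.Hn n k := by
      have h := B.e_mem_Hn n₀ i₀ κ₀ hi₀
      rw [hκ₀] at h
      exact B.Hn_mono k hn h
    obtain ⟨g, hge⟩ : ∃ g, g = B.e n₀ i₀ κ₀ := ⟨_, rfl⟩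
    rw [← hge] at hg ⊢
    have hex := B.expand n k g hg
    have h1 : (inner ℂ g p : ℂ) = ∑ i ∈ Finset.range (B.M n),
        ∑ κ ∈ ({(k : ℤ), -(k : ℤ)} : Finset ℤ),
        conj (inner ℂ (B.e n i κ) g : ℂ) * inner ℂ (B.e n 0 κ) p := by
      conv_lhs => rw [hex]
      rw [sum_inner]
      refine Finset.sum_congr rfl fun i hi => ?_
      rw [sum_inner]
      refine Finset.sum_congr rfl fun κ _ => ?_
      rw [inner_smul_left, erga_shift B p hU n κ i (Finset.mem_range.1 hi)]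
    rw [Finset.sum_comm] at h1
    rw [h1]
    refine (norm_sum_le _ _).trans ?_
    have h2 : ∀ κ ∈ ({(k : ℤ), -(k : ℤ)} : Finset ℤ),
        ‖∑ i ∈ Finset.range (B.M n), conj (inner ℂ (B.e n i κ) g : ℂ) *
          inner ℂ (B.e n 0 κ) p‖ ≤ (‖chC 1 (G.L n) 0‖ / G.L n) * ‖p‖ * ‖g‖ := by
      intro κ hκ
      have hκk : κ.natAbs = k := by
        rw [Finset.mem_insert, Finset.mem_singleton] at hκ
        rcases hκ with h | h
        · rw [h, Int.natAbs_natCast]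
        · rw [h, Int.natAbs_neg, Int.natAbs_natCast]
      rw [← Finset.sum_mul, norm_mul]
      have h3 : ‖∑ i ∈ Finset.range (B.M n), conj (inner ℂ (B.e n i κ) g : ℂ)‖ ≤
          Real.sqrt (B.M n) * ‖g‖ := by
        refine (norm_sum_le _ _).trans ?_
        refine le_trans (le_of_eq ?_) (erga_l1 B g n κ)
        exact Finset.sum_congr rfl fun i _ => Complex.norm_conj _
      have h4 := erga_bound G n k (by omega) hκn κ hκk p hU
      calc _ ≤ Real.sqrt (B.M n) * ‖g‖ * ‖(inner ℂ (B.e n 0 κ) p : ℂ)‖ :=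
            mul_le_mul_of_nonneg_right h3 (norm_nonneg _)
        _ = (Real.sqrt (B.M n) * ‖(inner ℂ (B.e n 0 κ) p : ℂ)‖) * ‖g‖ := by ring
        _ ≤ _ := mul_le_mul_of_nonneg_right h4 (norm_nonneg _)
    refine (Finset.sum_le_sum h2).trans ?_
    rw [Finset.sum_const, nsmul_eq_mul]
    have hcard : ((({(k : ℤ), -(k : ℤ)} : Finset ℤ).card : ℕ) : ℝ) ≤ 2 := by
      exact_mod_cast Finset.card_le_two
    have h5 : 0 ≤ (‖chC 1 (G.L n) 0‖ / G.L n) * ‖p‖ * ‖g‖ := by positivity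
    calc _ ≤ 2 * ((‖chC 1 (G.L n) 0‖ / G.L n) * ‖p‖ * ‖g‖) :=
          mul_le_mul_of_nonneg_right hcard h5
      _ = _ := by ring
  -- conclusion
  have hlim := chC_zero_tendsto
  by_contra hne
  have hpos : 0 < ‖(inner ℂ (B.e n₀ i₀ κ₀) p : ℂ)‖ := norm_pos_iff.2 hne
  obtain ⟨D, hD⟩ : ∃ D, D = 2 * ‖p‖ * ‖B.e n₀ i₀ κ₀‖ + 1 := ⟨_, rfl⟩
  have hD0 : 0 < D := by rw [hD]; positivity
  have hev := hlim.eventually (gt_mem_nhds
    (show (0 : ℝ) < ‖(inner ℂ (B.e n₀ i₀ κ₀) p : ℂ)‖ / D from div_pos hpos hD0))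
  obtain ⟨N, hN⟩ := Filter.eventually_atTop.1 hev
  obtain ⟨n, hn, hκn⟩ := G.hfreq k hk (max N n₀)
  have h1 := key n (le_trans (le_max_right _ _) hn) hκn
  have h2 := hN (G.L n) (le_trans (le_trans (le_max_left _ _) hn) (G.hLn n))
  rw [lt_div_iff₀ hD0] at h2
  have h3 : 0 ≤ ‖chC 1 (G.L n) 0‖ / G.L n := by positivity
  have h4 : 2 * (‖chC 1 (G.L n) 0‖ / G.L n) * ‖p‖ * ‖B.e n₀ i₀ κ₀‖ ≤
      ‖chC 1 (G.L n) 0‖ / G.L n * D := by
    rw [hD]
    nlinarith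
  linarith

/-- the constant function in terms of level `n` -/
theorem erga_one (B : Blk) (n : ℕ) : B.e 0 0 0 = ((Real.sqrt (B.M n) : ℂ)⁻¹) •
    ∑ i ∈ Finset.range (B.M n), B.e n i 0 := by
  have h1 : B.EC 0 0 0 = ((Real.sqrt (B.M n) : ℂ)⁻¹) •
      ∑ i ∈ Finset.range (B.M n), B.EC n i 0 := by
    ext y
    rw [ContinuousMap.smul_apply, ContinuousMap.sum_apply, smul_eq_mul]
    change B.E 0 0 0 y = (Real.sqrt (B.M n) : ℂ)⁻¹ * ∑ i ∈ Finset.range (B.M n), B.E n i 0 y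
    have hs0 : (Real.sqrt (B.M n) : ℂ) ≠ 0 := by
      have h1 : 0 < Real.sqrt (B.M n) := Real.sqrt_pos.2 (by exact_mod_cast B.M_pos n)
      exact_mod_cast h1.ne'
    have h2 : B.E 0 0 0 y = 1 := by
      unfold Blk.E
      have h3 := B.idx_lt 0 y.1
      rw [B.M_zero] at h3
      rw [if_pos (by omega), fourier_zero, B.M_zero]
      simp
    have h3 : ∑ i ∈ Finset.range (B.M n), B.E n i 0 y = (Real.sqrt (B.M n) : ℂ) := by
      rw [Finset.sum_eq_single (B.idx n y.1)]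
      · unfold Blk.E
        rw [if_pos rfl, fourier_zero, mul_one]
      · intro i _ hi
        unfold Blk.E
        rw [if_neg (Ne.symm hi)]
      · intro h
        exact absurd (Finset.mem_range.2 (B.idx_lt n y.1)) h
    rw [h2, h3, inv_mul_cancel₀ hs0]
  have h2 := congrArg (ContinuousMap.toLp 2 B.mu ℂ) h1
  rw [map_smul, map_sum] at h2
  exact h2

/-- invariant vectors of `H_0` are constant (the odometer is ergodic):
`⟨e n i 0, p⟩` does not depend on `i`. -/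
theorem inv_zero (B : Blk) (p : B.H) (hp : p ∈ B.Hk 0) (hU : B.U p = p) :
    ∃ c : ℂ, (p : B.Y → ℂ) =ᵐ[B.mu] fun _ => c := by
  obtain ⟨c, hc⟩ : ∃ c : ℂ, c = inner ℂ (B.e 0 0 0) p := ⟨_, rfl⟩
  have hq : p - c • B.e 0 0 0 = 0 := by
    refine erga_zero_of_orth B 0 _ ?_ ?_
    · refine Submodule.sub_mem _ hp (Submodule.smul_mem _ _ ?_)
      exact B.Hn_le_Hk 0 0 (B.e_mem_Hn 0 0 0 (B.M_pos 0))
    · intro n i κ hi hκ
      rw [Int.natAbs_eq_zero] at hκ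
      subst hκ
      have hs0 : (Real.sqrt (B.M n) : ℂ) ≠ 0 := by
        have h1 : 0 < Real.sqrt (B.M n) := Real.sqrt_pos.2 (by exact_mod_cast B.M_pos n)
        exact_mod_cast h1.ne'
      have h1 : (inner ℂ (B.e n i 0) (B.e 0 0 0) : ℂ) = (Real.sqrt (B.M n) : ℂ)⁻¹ := by
        rw [erga_one B n, inner_smul_right, inner_sum]
        rw [Finset.sum_eq_single i]
        · rw [B.inner_e n i i 0 0 hi, if_pos ⟨rfl, rfl⟩, mul_one]
        · intro j _ hj
          rw [B.inner_e n i j 0 0 hi, if_neg (fun h => hj h.1.symm)]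
        · intro h
          exact absurd (Finset.mem_range.2 hi) h
      have h2 : c = (Real.sqrt (B.M n) : ℂ) * inner ℂ (B.e n i 0) p := by
        rw [hc]
        conv_lhs => rw [erga_one B n]
        rw [inner_smul_left, sum_inner, Finset.sum_congr rfl fun j hj =>
          erga_shift B p hU n 0 j (Finset.mem_range.1 hj), Finset.sum_const, Finset.card_range,
          erga_shift B p hU n 0 i hi, nsmul_eq_mul, map_inv₀, Complex.conj_ofReal, ← mul_assoc]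
        congr 1
        have h3 : ((B.M n : ℕ) : ℂ) = (Real.sqrt (B.M n) : ℂ) * (Real.sqrt (B.M n) : ℂ) := by
          rw [← Complex.ofReal_mul, Real.mul_self_sqrt (Nat.cast_nonneg _)]
          push_cast
          rfl
        rw [h3, inv_mul_cancel_left₀ hs0]
      rw [inner_sub_right, inner_smul_right, h1, h2]
      field_simp
      ring
  have hp2 : p = c • B.e 0 0 0 := sub_eq_zero.1 hq
  refine ⟨c, ?_⟩
  rw [hp2]
  filter_upwards [Lp.coeFn_smul c (B.e 0 0 0), B.coeFn_e 0 0 0] with y e1 e2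
  rw [e1, Pi.smul_apply, e2]
  unfold Blk.E
  have h3 := B.idx_lt 0 y.1
  rw [B.M_zero] at h3
  rw [if_pos (by omega), fourier_zero, B.M_zero]
  simp

end P130
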