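import Mathlib
import Vale.Agent.Lib.P130.ErgA
import Vale.Agent.Lib.P130.Char

/-!
# P130: ergodicity
-/

open MeasureTheory Filter Topology
open scoped ENNReal ComplexConjugate

namespace P130

private theorem erg_iter {B : Blk} {p : B.H} (h : B.U p = p) (n : ℕ) : B.U^[n] p = p := by
  induction n with
  | zero => rfl
  | succ n ih => rw [Function.iterate_succ_apply', ih, h]

private theorem erg_one {B : Blk} (G : Good B) (p : B.H) (hp : p ∈ B.Hk 1) (hU : B.U p = p) :
    p = 0 := by
  obtain ⟨σ, hσ, hac, hc⟩ := ac_of_mem G p hp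
  have h1 := tendsto_fourier_ac σ hac
  have h2 : ∀ n : ℕ, ∫ t, fourier (n : ℤ) t ∂σ = (inner ℂ p p : ℂ) := by
    intro n
    rw [hc n, erg_iter hU n]
  have h3 : Tendsto (fun n : ℕ => ∫ t, fourier (n : ℤ) t ∂σ) atTop (𝓝 (inner ℂ p p : ℂ)) := by
    simp_rw [h2]
    exact tendsto_const_nhds
  exact inner_self_eq_zero.1 (tendsto_nhds_unique h3 h1)

private theorem erg_comp {B : Blk} (G : Good B) (k : ℕ) (hk : k ≠ 0) (f : B.H)
    (hf : B.U f = f) (g : B.H) (hg : g ∈ B.Hk k) : (inner ℂ g f : ℂ) = 0 := by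
  obtain ⟨p, q, hpq, hp, hq, hUp⟩ := inv_proj B k f hf
  have hp0 : p = 0 := by
    by_cases h1 : k = 1
    · subst h1
      exact erg_one G p hp hUp
    · exact inv_k G k (by omega) p hp hUp
  rw [hpq, hp0, zero_add]
  exact (Submodule.mem_orthogonal _ _).1 hq g hg

/-- `T` is ergodic: for an invariant set `A`, `f = 1_A ∈ L²` is invariant, its components in `H_k`
are invariant (`inv_proj`), so `0` for `k ≥ 2` (`inv_k`), `0` for `k = 1` (an invariant vector of
`H_1` is mixing: `ac_of_mem`, `tendsto_fourier_ac`), and constant for `k = 0` (`inv_zero`).  So `f` is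
a.e. constant. -/
theorem ergodic_T {B : Blk} (G : Good B) : Ergodic B.T B.mu := by
  refine ⟨B.measurePreserving_T, ⟨fun A hA hinv => ?_⟩⟩
  set f : B.H := indicatorConstLp 2 hA (measure_ne_top B.mu A) (1 : ℂ) with hfdef
  have hfA : (f : B.Y → ℂ) =ᵐ[B.mu] A.indicator fun _ => (1 : ℂ) := indicatorConstLp_coeFn
  have hU : B.U f = f := by
    apply Lp.ext
    have h1 := B.measurePreserving_T.quasiMeasurePreserving.ae_eq_comp hfA
    filter_upwards [B.coeFn_U f, h1, hfA] with y e1 e2 e3
    rw [e1, e3]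
    have e4 : f (B.T y) = A.indicator (fun _ => (1 : ℂ)) (B.T y) := e2
    rw [e4]
    have e5 : B.T y ∈ A ↔ y ∈ A := by
      have : y ∈ B.T ⁻¹' A ↔ y ∈ A := by rw [hinv]
      exact this
    by_cases hy : y ∈ A
    · rw [Set.indicator_of_mem hy, Set.indicator_of_mem (e5.2 hy)]
    · rw [Set.indicator_of_notMem hy, Set.indicator_of_notMem fun h => hy (e5.1 h)]
  obtain ⟨p, q, hpq, hp, hq, hUp⟩ := inv_proj B 0 f hU
  have hq0 : q = 0 := by
    refine B.eq_zero_of_orth q fun k g hg => ?_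
    by_cases hk : k = 0
    · subst hk
      exact (Submodule.mem_orthogonal _ _).1 hq g hg
    · have h1 := erg_comp G k hk f hU g hg
      have h2 : (inner ℂ g p : ℂ) = 0 := (B.Hk_orth k 0 hk).inner_eq hg hp
      rw [hpq, inner_add_right, h2, zero_add] at h1
      exact h1
  obtain ⟨c, hc⟩ := inv_zero B p hp hUp
  have hfc : (f : B.Y → ℂ) =ᵐ[B.mu] fun _ => c := by
    rw [hpq, hq0, add_zero]
    exact hc
  have hAc : A.indicator (fun _ => (1 : ℂ)) =ᵐ[B.mu] fun _ => c := hfA.symm.trans hfc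
  rw [eventuallyConst_set]
  by_cases hc1 : c = 1
  · left
    filter_upwards [hAc] with y hy
    by_contra hyA
    rw [Set.indicator_of_notMem hyA, hc1] at hy
    exact zero_ne_one hy
  · right
    filter_upwards [hAc] with y hy hyA
    rw [Set.indicator_of_mem hyA] at hy
    exact hc1 hy.symm

end P130
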