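import Mathlib
import Vale.Agent.Lib.P130.CycA

/-!
# P130, simple spectrum: separating components by weak limits of powers
-/

open Filter Topology

namespace P130

variable {H : Type*} [NormedAddCommGroup H] [InnerProductSpace ℂ H]

/-- cyclic subspaces are weakly closed (`Zc` is a closed subspace, so equal to its double
orthogonal complement). -/
theorem weak_mem_Zc [CompleteSpace H] (U : H ≃ₗᵢ[ℂ] H) (v x x' : H) (s : ℕ → ℕ)
    (hx : x ∈ Zc U v)
    (hw : ∀ y : H, Tendsto (fun n => (inner ℂ y ((U ^ (s n)) x) : ℂ)) atTop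
      (𝓝 (inner ℂ y x'))) : x' ∈ Zc U v := by
  have hc : CompleteSpace (Zc U v) := (isClosed_Zc U v).completeSpace_coe
  have h1 : x' ∈ (Zc U v)ᗮᗮ := by
    rw [Submodule.mem_orthogonal]
    intro y hy
    have h2 : ∀ n, (inner ℂ y ((U ^ (s n)) x) : ℂ) = 0 := by
      intro n
      have h3 : (U ^ (s n)) x ∈ Zc U v := by
        have h4 := zpow_mem_Zc U v x (s n : ℤ) hx
        rwa [zpow_natCast] at h4
      exact Submodule.inner_left_of_mem_orthogonal h3 hy
    have h5 := hw y
    simp only [h2] at h5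
    exact tendsto_nhds_unique h5 tendsto_const_nhds
  rwa [Submodule.orthogonal_orthogonal] at h1

/-- Separation.  Let `W_κ` be the weak limit of `U^(s n)`: `v 0 ↦ v 0`, `v i ↦ 0` for
`0 < i < κ`, `v κ ↦ γ v κ`, `γ = (κ-1)/κ`.  If `x = ∑_{i ≤ κ} v i ∈ Z := Zc U w` then
`W x - W² x = γ (1 - γ) v κ ∈ Z` (`weak_mem_Zc`; note `W x` is again a combination of the `v i`), so
`v κ ∈ Z` and `∑_{i < κ} v i ∈ Z`; go down to `κ = 2`, where finally `W (v 0 + v 1) = v 0 ∈ Z`. -/
theorem sep [CompleteSpace H] (U : H ≃ₗᵢ[ℂ] H) (v : ℕ → H)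
    (hw : ∀ κ : ℕ, 2 ≤ κ → ∃ s : ℕ → ℕ, ∀ y : H,
      Tendsto (fun n => (inner ℂ y ((U ^ (s n)) (v 0)) : ℂ)) atTop (𝓝 (inner ℂ y (v 0))) ∧
      (∀ i, 0 < i → i < κ →
        Tendsto (fun n => (inner ℂ y ((U ^ (s n)) (v i)) : ℂ)) atTop (𝓝 0)) ∧
      Tendsto (fun n => (inner ℂ y ((U ^ (s n)) (v κ)) : ℂ)) atTop
        (𝓝 ((((κ : ℂ) - 1) / κ) * inner ℂ y (v κ))))
    (K : ℕ) (w : H) (hK : ∑ i ∈ Finset.range (K + 1), v i ∈ Zc U w) :
    ∀ i ≤ K, v i ∈ Zc U w := by
  induction K with
  | zero =>
    intro i hi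
    obtain rfl : i = 0 := by omega
    simpa using hK
  | succ K ih =>
    -- it is enough to show that the last vector is in the cyclic space
    suffices hlast : v (K + 1) ∈ Zc U w by
      intro i hi
      rcases Nat.lt_or_ge i (K + 1) with h | h
      · refine ih ?_ i (by omega)
        have h1 := Submodule.sub_mem _ hK hlast
        rw [Finset.sum_range_succ] at h1
        simpa using h1
      · obtain rfl : i = K + 1 := by omega
        exact hlast
    rcases Nat.eq_zero_or_pos K with rfl | hKpos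
    · -- `K + 1 = 1`
      obtain ⟨s, hs⟩ := hw 2 le_rfl
      have h0 : v 0 ∈ Zc U w := by
        refine weak_mem_Zc U w _ (v 0) s hK fun y => ?_
        have h1 := (hs y).1.add ((hs y).2.1 1 (by omega) (by omega))
        rw [add_zero] at h1
        refine h1.congr fun n => ?_
        rw [Finset.sum_range_succ, Finset.sum_range_one, map_add, inner_add_right]
      have h1 := Submodule.sub_mem _ hK h0
      rw [Finset.sum_range_succ, Finset.sum_range_one] at h1
      simpa using h1
    · obtain ⟨s, hs⟩ := hw (K + 1) (by omega)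
      set γ : ℂ := (((K + 1 : ℕ) : ℂ) - 1) / ((K + 1 : ℕ) : ℂ) with hγ
      have hW1 : v 0 + γ • v (K + 1) ∈ Zc U w := by
        refine weak_mem_Zc U w _ _ s hK fun y => ?_
        have h1 : Tendsto (fun n => ∑ i ∈ Finset.range K,
            (inner ℂ y ((U ^ (s n)) (v (i + 1))) : ℂ)) atTop
            (𝓝 (∑ _i ∈ Finset.range K, (0 : ℂ))) :=
          tendsto_finsetSum _ fun i hi =>
            (hs y).2.1 (i + 1) (by omega) (by have := Finset.mem_range.1 hi; omega)
        rw [Finset.sum_const_zero] at h1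
        have h2 := (h1.add (hs y).1).add (hs y).2.2
        rw [zero_add] at h2
        have e : (inner ℂ y (v 0 + γ • v (K + 1)) : ℂ)
            = inner ℂ y (v 0) + γ * inner ℂ y (v (K + 1)) := by
          rw [inner_add_right, inner_smul_right]
        rw [e]
        refine h2.congr fun n => ?_
        rw [map_sum, inner_sum, Finset.sum_range_succ, Finset.sum_range_succ']
      have hW2 : v 0 + (γ * γ) • v (K + 1) ∈ Zc U w := by
        refine weak_mem_Zc U w _ _ s hW1 fun y => ?_
        have h2 := (hs y).1.add ((hs y).2.2.const_mul γ)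
        have e : (inner ℂ y (v 0 + (γ * γ) • v (K + 1)) : ℂ)
            = inner ℂ y (v 0) + γ * (γ * inner ℂ y (v (K + 1))) := by
          rw [inner_add_right, inner_smul_right, mul_assoc]
        rw [e]
        refine h2.congr fun n => ?_
        rw [map_add, map_smul, inner_add_right, inner_smul_right]
      have h3 := Submodule.sub_mem _ hW1 hW2
      have e3 : v 0 + γ • v (K + 1) - (v 0 + (γ * γ) • v (K + 1))
          = (γ * (1 - γ)) • v (K + 1) := by
        rw [mul_sub, mul_one, sub_smul]
        abel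
      rw [e3] at h3
      have hK1 : ((K + 1 : ℕ) : ℂ) ≠ 0 := Nat.cast_ne_zero.2 (by omega)
      have hK0 : (K : ℂ) ≠ 0 := Nat.cast_ne_zero.2 (by omega)
      have hγ0 : γ ≠ 0 := by
        rw [hγ]
        refine div_ne_zero ?_ hK1
        push_cast
        simpa using hK0
      have hγ1 : 1 - γ ≠ 0 := by
        rw [hγ, one_sub_div hK1]
        refine div_ne_zero ?_ hK1
        rw [sub_sub_cancel]
        exact one_ne_zero
      exact (Submodule.smul_mem_iff _ (mul_ne_zero hγ0 hγ1)).1 h3

end P130
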