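import Mathlib
import Vale.Agent.Lib.P130.Char
import Vale.Agent.Lib.P130.CycA

/-!
# P130, simple spectrum: the unitary Koopman operator and supports on the levels
-/

open MeasureTheory Filter Topology
open scoped ENNReal ComplexConjugate

namespace P130

namespace Blk

variable (B : Blk)

/-- the Koopman operator as a unitary operator -/
noncomputable def Ue : B.H ≃ₗᵢ[ℂ] B.H := (exists_Ue B).choose

theorem Ue_apply (f : B.H) : B.Ue f = B.U f := (exists_Ue B).choose_spec f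

theorem Ue_pow_apply (n : ℕ) (f : B.H) : (B.Ue ^ n) f = B.U^[n] f := by
  induction n with
  | zero => rfl
  | succ n ih =>
    rw [pow_succ', Function.iterate_succ_apply', ← ih, ← B.Ue_apply]
    rfl

theorem Ue_zpow_natCast_apply (n : ℕ) (f : B.H) : (B.Ue ^ (n : ℤ)) f = B.U^[n] f := by
  rw [zpow_natCast, B.Ue_pow_apply]

/-- iterate of `U_e` -/
theorem iter_e (n i h : ℕ) (k : ℤ) (hi : i + h < B.M n) :
    B.U^[h] (B.e n i k) = B.e n (i + h) k := by
  induction h with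
  | zero => rfl
  | succ h ih =>
    rw [Function.iterate_succ_apply', ih (by omega), B.U_e n (i + h) k (by omega), add_assoc]

private theorem idx_mul (n j : ℕ) (x : B.X) :
    B.idx n (x - (j * B.M n) • B.one) = B.idx n x := by
  unfold idx
  rw [AddSubgroup.coe_sub, Pi.sub_apply, B.nsmul_one_coord, Nat.cast_mul, ZMod.natCast_self,
    mul_zero, sub_zero]

/-- Different levels stay orthogonal under the powers of `U^(M n)`: `E n i' q (T^(j M_n) y)` is
supported on level `i'` (`T_iterate_fst`, `idx_sub_nsmul`: `idx n` is invariant under subtracting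
`(j * M n) • one`), `E n i p` on level `i`. -/
theorem inner_e_iter_ne (n j i i' : ℕ) (p q : ℤ) (hi : i < B.M n) (hi' : i' < B.M n)
    (hne : i ≠ i') :
    (inner ℂ (B.e n i p) (B.U^[j * B.M n] (B.e n i' q)) : ℂ) = 0 := by
  rw [L2.inner_def]
  have h1 := B.coeFn_iter (j * B.M n) (B.e n i' q)
  have h2 := (B.quasi_iter (j * B.M n)).ae_eq_comp (B.coeFn_e n i' q)
  have h3 : (fun y => (inner ℂ ((B.e n i p : B.Y → ℂ) y)
      ((B.U^[j * B.M n] (B.e n i' q) : B.Y → ℂ) y) : ℂ)) =ᵐ[B.mu] fun _ => 0 := by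
    filter_upwards [B.coeFn_e n i p, h1, h2] with y e1 e2 e3
    change (B.e n i' q : B.Y → ℂ) (B.T^[j * B.M n] y) = B.E n i' q (B.T^[j * B.M n] y) at e3
    rw [e1, e2, e3, RCLike.inner_apply']
    unfold E
    rw [B.T_iterate_fst, B.idx_mul]
    by_cases h : B.idx n y.1 = i
    · rw [if_neg (show ¬ B.idx n y.1 = i' from fun h' => hne (h.symm.trans h')), mul_zero]
    · rw [if_neg h, map_zero, zero_mul]
  rw [integral_congr_ae h3]
  exact integral_zero _ _

/-- on a level the inner product does not depend on the level (`iter_e`, `inner_iter`). -/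
theorem inner_e_iter_eq (n j i : ℕ) (p q : ℤ) (hi : i < B.M n) :
    (inner ℂ (B.e n i p) (B.U^[j * B.M n] (B.e n i q)) : ℂ) =
      inner ℂ (B.e n 0 p) (B.U^[j * B.M n] (B.e n 0 q)) := by
  have h1 := B.iter_e n 0 i p (by rwa [zero_add])
  have h2 := B.iter_e n 0 i q (by rwa [zero_add])
  rw [zero_add] at h1 h2
  rw [← h1, ← h2, ← Function.iterate_add_apply, Nat.add_comm (j * B.M n) i,
    Function.iterate_add_apply, B.inner_iter]

private theorem zpow_comm_apply (a b : ℤ) (x : B.H) :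
    (B.Ue ^ a) ((B.Ue ^ b) x) = (B.Ue ^ b) ((B.Ue ^ a) x) := by
  change (B.Ue ^ a * B.Ue ^ b) x = (B.Ue ^ b * B.Ue ^ a) x
  rw [← zpow_add, ← zpow_add, add_comm]

private theorem inner_le (n i i' : ℕ) (p q : ℤ) (hi : i < B.M n) (hi' : i' < B.M n)
    (hne : i ≠ i') (a : ℤ) (c : ℕ) :
    (inner ℂ ((B.Ue ^ (a * (B.M n : ℤ))) (B.e n i p))
      ((B.Ue ^ ((a + c) * (B.M n : ℤ))) (B.e n i' q)) : ℂ) = 0 := by
  have h1 : (B.Ue ^ ((a + c) * (B.M n : ℤ))) (B.e n i' q) =
      (B.Ue ^ (a * (B.M n : ℤ))) (B.U^[c * B.M n] (B.e n i' q)) := by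
    rw [← B.Ue_zpow_natCast_apply]
    change _ = (B.Ue ^ (a * (B.M n : ℤ)) * B.Ue ^ ((c * B.M n : ℕ) : ℤ)) (B.e n i' q)
    rw [← zpow_add, add_mul]
    push_cast
    rfl
  rw [h1, LinearIsometryEquiv.inner_map_map, B.inner_e_iter_ne n c i i' p q hi hi' hne]

private theorem inner_zpow (n i i' : ℕ) (p q : ℤ) (hi : i < B.M n) (hi' : i' < B.M n)
    (hne : i ≠ i') (a b : ℤ) :
    (inner ℂ ((B.Ue ^ (a * (B.M n : ℤ))) (B.e n i p))
      ((B.Ue ^ (b * (B.M n : ℤ))) (B.e n i' q)) : ℂ) = 0 := by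
  rcases le_total a b with h | h
  · obtain ⟨c, hc⟩ := Int.le.dest h
    rw [← hc]
    exact B.inner_le n i i' p q hi hi' hne a c
  · obtain ⟨c, hc⟩ := Int.le.dest h
    rw [← hc, ← inner_conj_symm, B.inner_le n i' i q p hi' hi (Ne.symm hne) b c, map_zero]

private theorem Ue_zpow_e (n i : ℕ) (p : ℤ) (hi : i < B.M n) (a : ℤ) :
    (B.Ue ^ (i : ℤ)) ((B.Ue ^ a) (B.e n 0 p)) = (B.Ue ^ a) (B.e n i p) := by
  rw [B.zpow_comm_apply, B.Ue_zpow_natCast_apply, B.iter_e n 0 i p (by rwa [zero_add]), zero_add]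

/-- The subspaces `U^i (span of the U^(j M_n) e n 0 (±k))`, `0 ≤ i < M n`, are orthogonal. -/
theorem inner_levels (n i i' : ℕ) (k : ℤ) (hi : i < B.M n) (hi' : i' < B.M n) (hne : i ≠ i')
    (r r' : B.H)
    (hr : r ∈ Submodule.span ℂ (Set.range fun jq : ℤ × ℤˣ =>
      (B.Ue ^ (jq.1 * (B.M n : ℤ))) (B.e n 0 ((jq.2 : ℤ) * k))))
    (hr' : r' ∈ Submodule.span ℂ (Set.range fun jq : ℤ × ℤˣ =>
      (B.Ue ^ (jq.1 * (B.M n : ℤ))) (B.e n 0 ((jq.2 : ℤ) * k)))) :
    (inner ℂ ((B.Ue ^ (i : ℤ)) r) ((B.Ue ^ (i' : ℤ)) r') : ℂ) = 0 := by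
  induction hr using Submodule.span_induction with
  | mem x hx =>
    obtain ⟨jq, rfl⟩ := hx
    induction hr' using Submodule.span_induction with
    | mem y hy =>
      obtain ⟨jq', rfl⟩ := hy
      dsimp only
      rw [B.Ue_zpow_e n i _ hi, B.Ue_zpow_e n i' _ hi']
      exact B.inner_zpow n i i' _ _ hi hi' hne _ _
    | zero => rw [map_zero, inner_zero_right]
    | add y z _ _ hy hz => rw [map_add, inner_add_right, hy, hz, add_zero]
    | smul c y _ hy => rw [map_smul, inner_smul_right, hy, mul_zero]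
  | zero => rw [map_zero, inner_zero_left]
  | add x y _ _ hx hy => rw [map_add, inner_add_left, hx, hy, add_zero]
  | smul c x _ hx => rw [map_smul, inner_smul_left, hx, mul_zero]

end Blk

end P130
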