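import Mathlib
import Vale.Agent.Lib.P130.UE

/-!
# P130, simple spectrum: polynomials in `U^(M n)` applied to the vectors of level `n + 1`
-/

open MeasureTheory Filter Topology Polynomial
open scoped ENNReal ComplexConjugate

namespace P130

/-- `U^(M n)` as a linear map -/
noncomputable def um (B : Blk) (n : ℕ) : Module.End ℂ B.H := ul B.Ue ^ B.M n

theorem um_apply (B : Blk) (n : ℕ) (x : B.H) : um B n x = B.U^[B.M n] x := by
  unfold um
  rw [ul_pow_apply, B.Ue_zpow_natCast_apply]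

theorem aeval_X_pow_apply (B : Blk) (n d : ℕ) (x : B.H) :
    aeval (um B n) (X ^ d : ℂ[X]) x = B.U^[d * B.M n] x := by
  rw [map_pow, aeval_X]
  unfold um
  rw [← pow_mul, ul_pow_apply, B.Ue_zpow_natCast_apply, mul_comm]

/-- `aeval (um B n) Q x` is in the cyclic subspace of `x` -/
theorem aeval_um_mem (B : Blk) (n : ℕ) (Q : ℂ[X]) (x : B.H) :
    aeval (um B n) Q x ∈ Zc B.Ue x := by
  unfold um
  rw [← expand_aeval]
  exact aeval_mem_Zc _ _ _

/-- the polynomial of half a block, with the phases to the power `k` -/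
noncomputable def PP {B : Blk} (G : Good B) (n : ℕ) (k : ℤ) : ℂ[X] :=
  ∑ j ∈ Finset.range (G.κ n * G.L n), C (fourier k (B.a n j) : ℂ) * X ^ j

private theorem aeval_eq_sum (B : Blk) (n : ℕ) (R : ℂ[X]) (N : ℕ) (hR : R.natDegree < N)
    (x : B.H) : aeval (um B n) R x = ∑ j ∈ Finset.range N, R.coeff j • B.U^[j * B.M n] x := by
  rw [aeval_eq_sum_range' hR, LinearMap.sum_apply]
  refine Finset.sum_congr rfl fun j _ => ?_
  rw [LinearMap.smul_apply, ← aeval_X_pow_apply, map_pow, aeval_X]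

private theorem fourier_one_pow (t : 𝕋) (j : ℕ) :
    (fourier 1 t : ℂ) ^ j = fourier (j : ℤ) t := by
  induction j with
  | zero => simp
  | succ j ih =>
    rw [pow_succ, ih]
    push_cast
    rw [fourier_add]

private theorem integral_eval_sq (N : ℕ) (c : ℕ → ℂ) :
    ∫ t, ‖∑ j ∈ Finset.range N, c j * (fourier (j : ℤ) t : ℂ)‖ ^ 2 ∂mT =
      ∑ j ∈ Finset.range N, ‖c j‖ ^ 2 := by
  have hc : ((∫ t, ‖∑ j ∈ Finset.range N, c j * (fourier (j : ℤ) t : ℂ)‖ ^ 2 ∂mT : ℝ) : ℂ) =
      ((∑ j ∈ Finset.range N, ‖c j‖ ^ 2 : ℝ) : ℂ) := by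
    rw [← integral_complex_ofReal]
    have h1 : ∀ t : 𝕋, ((‖∑ j ∈ Finset.range N, c j * (fourier (j : ℤ) t : ℂ)‖ ^ 2 : ℝ) : ℂ) =
        ∑ j ∈ Finset.range N, ∑ l ∈ Finset.range N,
          (conj (c j) * c l) * (fourier ((l : ℤ) - j) t : ℂ) := by
      intro t
      rw [← Complex.normSq_eq_norm_sq, Complex.normSq_eq_conj_mul_self, map_sum,
        Finset.sum_mul_sum]
      refine Finset.sum_congr rfl fun j _ => Finset.sum_congr rfl fun l _ => ?_
      rw [map_mul, ← fourier_neg, sub_eq_neg_add, fourier_add]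
      ring
    simp_rw [h1]
    have hint : ∀ (a : ℂ) (m : ℤ), Integrable (fun t : 𝕋 => a * (fourier m t : ℂ)) mT := by
      intro a m
      have hcont : Continuous (fun t : 𝕋 => a * (fourier m t : ℂ)) :=
        continuous_const.mul (map_continuous (fourier m))
      exact hcont.integrable_of_hasCompactSupport (HasCompactSupport.of_compactSpace _)
    rw [integral_finsetSum _ (fun j _ => integrable_finsetSum _ fun l _ => hint _ _)]
    push_cast
    refine Finset.sum_congr rfl fun j hj => ?_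
    rw [integral_finsetSum _ (fun l _ => hint _ _)]
    rw [Finset.sum_eq_single j]
    · rw [integral_const_mul, integral_fourier_eq, if_pos (by ring), mul_one,
        ← Complex.normSq_eq_conj_mul_self, Complex.normSq_eq_norm_sq]
      push_cast
      rfl
    · intro l _ hl
      rw [integral_const_mul, integral_fourier_eq, if_neg, mul_zero]
      intro h
      apply hl
      omega
    · intro h
      exact absurd hj h
  exact_mod_cast hc

/-- Both sides are the sum of the squares of the coefficients (`iter_e`: for `j < m n` the vector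
`U^(j M_n) e (n+1) 0 k` is `e (n+1) (j M_n) k`; orthonormality `orthonormal_e`; on the right
orthonormality of the characters, `integral_fourier_eq`). -/
theorem norm_aeval_e (B : Blk) (n : ℕ) (k : ℤ) (R : ℂ[X]) (hR : R.natDegree < B.m n) :
    ‖aeval (um B n) R (B.e (n + 1) 0 k)‖ ^ 2 =
      ∫ t, ‖R.eval (fourier 1 t : ℂ)‖ ^ 2 ∂mT := by
  have hlt : ∀ j, j < B.m n → j * B.M n < B.M (n + 1) := by
    intro j hj
    rw [B.M_succ, mul_comm (B.M n)]
    exact Nat.mul_lt_mul_of_pos_right hj (B.M_pos n)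
  have h1 : aeval (um B n) R (B.e (n + 1) 0 k) =
      ∑ j ∈ Finset.range (B.m n), R.coeff j • B.e (n + 1) (j * B.M n) k := by
    rw [aeval_eq_sum B n R (B.m n) hR]
    refine Finset.sum_congr rfl fun j hj => ?_
    have hj' := hlt j (Finset.mem_range.1 hj)
    rw [B.iter_e (n + 1) 0 (j * B.M n) k (by omega), zero_add]
  have h2 : ∀ t : 𝕋, R.eval (fourier 1 t : ℂ) =
      ∑ j ∈ Finset.range (B.m n), R.coeff j * (fourier (j : ℤ) t : ℂ) := by
    intro t
    rw [eval_eq_sum_range' hR]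
    refine Finset.sum_congr rfl fun j _ => ?_
    rw [fourier_one_pow]
  simp_rw [h2]
  rw [integral_eval_sq, h1]
  have h3 : (inner ℂ (∑ j ∈ Finset.range (B.m n), R.coeff j • B.e (n + 1) (j * B.M n) k)
      (∑ j ∈ Finset.range (B.m n), R.coeff j • B.e (n + 1) (j * B.M n) k) : ℂ) =
      ((∑ j ∈ Finset.range (B.m n), ‖R.coeff j‖ ^ 2 : ℝ) : ℂ) := by
    rw [sum_inner]
    push_cast
    refine Finset.sum_congr rfl fun j hj => ?_
    rw [inner_sum, Finset.sum_eq_single j]
    · rw [inner_smul_left, inner_smul_right,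
        B.inner_e (n + 1) _ _ k k (hlt j (Finset.mem_range.1 hj)), if_pos ⟨rfl, rfl⟩, mul_one,
        ← Complex.normSq_eq_conj_mul_self, Complex.normSq_eq_norm_sq]
      push_cast
      rfl
    · intro l _ hl
      rw [inner_smul_left, inner_smul_right,
        B.inner_e (n + 1) _ _ k k (hlt j (Finset.mem_range.1 hj)), if_neg, mul_zero, mul_zero]
      rintro ⟨h, _⟩
      exact hl (Nat.eq_of_mul_eq_mul_right (B.M_pos n) h).symm
    · intro h
      exact absurd hj h
  have h4 := inner_self_eq_norm_sq_to_K (𝕜 := ℂ)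
    (∑ j ∈ Finset.range (B.m n), R.coeff j • B.e (n + 1) (j * B.M n) k)
  rw [h3] at h4
  have h5 : (((∑ j ∈ Finset.range (B.m n), ‖R.coeff j‖ ^ 2 : ℝ)) : ℂ) =
      ((‖∑ j ∈ Finset.range (B.m n), R.coeff j • B.e (n + 1) (j * B.M n) k‖ ^ 2 : ℝ) : ℂ) := by
    rw [h4]
    push_cast
    rfl
  exact_mod_cast h5.symm

private theorem aeval_C_mul_X_pow (B : Blk) (n : ℕ) (c : ℂ) (j : ℕ) (x : B.H) :
    aeval (um B n) (C c * X ^ j) x = c • B.U^[j * B.M n] x := by
  rw [map_mul, aeval_C, Module.End.mul_apply, aeval_X_pow_apply, Module.algebraMap_end_apply]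

private theorem chA_add' (κ L j : ℕ) : chA κ L (κ * L + j) = chA κ L j := by
  unfold chA
  rw [Nat.add_mod_left]

/-- `e_refine` for a block of the chirp type: `a (κ L + j) = a j`, signs `1` then `-1`. -/
theorem e_eq_poly {B : Blk} (G : Good B) (n : ℕ) (k : ℤ) :
    B.e n 0 k = ((Real.sqrt (B.m n) : ℂ)⁻¹) •
      (aeval (um B n) (PP G n k) (B.e (n + 1) 0 k) +
        aeval (um B n) (X ^ (G.κ n * G.L n) * PP G n k) (B.e (n + 1) 0 (-k))) := by
  have hm : B.m n = G.κ n * G.L n + G.κ n * G.L n := by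
    rw [G.hm]; ring
  have hlt : ∀ j, j < B.m n → j * B.M n < B.M (n + 1) := by
    intro j hj
    rw [B.M_succ, mul_comm (B.M n)]
    exact Nat.mul_lt_mul_of_pos_right hj (B.M_pos n)
  rw [B.e_refine n 0 k (B.M_pos n)]
  congr 1
  have hr : Finset.range (B.m n) = Finset.range (G.κ n * G.L n + G.κ n * G.L n) := by rw [← hm]
  rw [hr, Finset.sum_range_add]
  congr 1
  · unfold PP
    rw [map_sum, LinearMap.sum_apply]
    refine Finset.sum_congr rfl fun j hj => ?_
    have hj1 := Finset.mem_range.1 hj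
    have hj' := hlt j (by rw [hm]; omega)
    rw [aeval_C_mul_X_pow, B.iter_e (n + 1) 0 (j * B.M n) k (by omega), G.hs]
    unfold chS
    rw [if_pos hj1, zero_add, add_zero]
    simp
  · unfold PP
    rw [Finset.mul_sum, map_sum, LinearMap.sum_apply]
    refine Finset.sum_congr rfl fun j hj => ?_
    have hj1 := Finset.mem_range.1 hj
    have hj' := hlt (G.κ n * G.L n + j) (by rw [hm]; omega)
    have e1 : (X ^ (G.κ n * G.L n) * (C (fourier k (B.a n j) : ℂ) * X ^ j) : ℂ[X]) =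
        C (fourier k (B.a n j) : ℂ) * X ^ (G.κ n * G.L n + j) := by
      rw [pow_add]; ring
    rw [e1, aeval_C_mul_X_pow, B.iter_e (n + 1) 0 ((G.κ n * G.L n + j) * B.M n) (-k) (by omega),
      G.hs]
    unfold chS
    rw [if_neg (by omega), zero_add, add_zero, G.ha, G.ha, chA_add']
    simp

private theorem natDegree_PP {B : Blk} (G : Good B) (n : ℕ) (k : ℤ) :
    (PP G n k).natDegree < G.κ n * G.L n := by
  have hpos : 0 < G.κ n * G.L n := Nat.mul_pos (by have := G.hκ n; omega) (G.hL n)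
  have h : (PP G n k).natDegree ≤ G.κ n * G.L n - 1 := by
    unfold PP
    refine natDegree_sum_le_of_forall_le _ _ fun j hj => ?_
    have := Finset.mem_range.1 hj
    exact (natDegree_C_mul_X_pow_le _ _).trans (by omega)
  omega

/-- `e_eq_poly`, `norm_aeval_e` for `Q * PP`, `U` isometric, `|a + b|² ≤ 2|a|² + 2|b|²`. -/
theorem norm_aeval_sq_le {B : Blk} (G : Good B) (n : ℕ) (k : ℤ) (Q : ℂ[X])
    (hQ : Q.natDegree ≤ G.κ n * G.L n) :
    ‖aeval (um B n) Q (B.e n 0 k)‖ ^ 2 ≤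
      4 * ∫ t, ‖Q.eval (fourier 1 t : ℂ)‖ ^ 2 *
        (‖(PP G n k).eval (fourier 1 t : ℂ)‖ ^ 2 / B.m n) ∂mT := by
  have hm : B.m n = G.κ n * G.L n + G.κ n * G.L n := by
    rw [G.hm]; ring
  have hmpos : (0 : ℝ) < B.m n := by exact_mod_cast B.m_pos n
  have hdeg : (Q * PP G n k).natDegree < B.m n := by
    have h1 := natDegree_PP G n k
    have h2 := natDegree_mul_le (p := Q) (q := PP G n k)
    omega
  have hI : (∫ t, ‖Q.eval (fourier 1 t : ℂ)‖ ^ 2 *
        (‖(PP G n k).eval (fourier 1 t : ℂ)‖ ^ 2 / B.m n) ∂mT) =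
      (∫ t, ‖(Q * PP G n k).eval (fourier 1 t : ℂ)‖ ^ 2 ∂mT) / B.m n := by
    rw [← integral_div]
    congr 1
    funext t
    rw [eval_mul, norm_mul]
    ring
  have hA := norm_aeval_e B n k (Q * PP G n k) hdeg
  have hB := norm_aeval_e B n (-k) (Q * PP G n k) hdeg
  have e1 : aeval (um B n) Q (B.e n 0 k) = ((Real.sqrt (B.m n) : ℂ)⁻¹) •
      (aeval (um B n) (Q * PP G n k) (B.e (n + 1) 0 k) +
        B.U^[G.κ n * G.L n * B.M n] (aeval (um B n) (Q * PP G n k) (B.e (n + 1) 0 (-k)))) := by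
    conv_lhs => rw [e_eq_poly G n k]
    rw [map_smul, map_add]
    congr 2
    · rw [map_mul, Module.End.mul_apply]
    · rw [← aeval_X_pow_apply, ← Module.End.mul_apply, ← Module.End.mul_apply, ← map_mul,
        ← map_mul]
      congr 2
      ring
  have hn1 : ‖B.U^[G.κ n * G.L n * B.M n]
      (aeval (um B n) (Q * PP G n k) (B.e (n + 1) 0 (-k)))‖ =
      ‖aeval (um B n) (Q * PP G n k) (B.e (n + 1) 0 (-k))‖ := B.norm_iter _ _
  rw [e1, norm_smul, mul_pow, hI]
  have hs : ‖((Real.sqrt (B.m n) : ℂ)⁻¹)‖ ^ 2 = (B.m n : ℝ)⁻¹ := by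
    rw [norm_inv, Complex.norm_real, Real.norm_of_nonneg (Real.sqrt_nonneg _), inv_pow,
      Real.sq_sqrt hmpos.le]
  rw [hs]
  have htri := norm_add_le (aeval (um B n) (Q * PP G n k) (B.e (n + 1) 0 k))
    (B.U^[G.κ n * G.L n * B.M n] (aeval (um B n) (Q * PP G n k) (B.e (n + 1) 0 (-k))))
  rw [hn1] at htri
  set a := ‖aeval (um B n) (Q * PP G n k) (B.e (n + 1) 0 k)‖ with ha
  set b := ‖aeval (um B n) (Q * PP G n k) (B.e (n + 1) 0 (-k))‖ with hb
  set I := ∫ t, ‖(Q * PP G n k).eval (fourier 1 t : ℂ)‖ ^ 2 ∂mT with hIdef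
  have hsq := pow_le_pow_left₀ (norm_nonneg _) htri 2
  have h4 : (a + b) ^ 2 ≤ 4 * I := by nlinarith [sq_nonneg (a - b)]
  calc _ ≤ (B.m n : ℝ)⁻¹ * (4 * I) :=
        mul_le_mul_of_nonneg_left (hsq.trans h4) (by positivity)
    _ = 4 * (I / B.m n) := by ring

end P130
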