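import Mathlib
import Vale.Agent.Lib.P130.PolyN

/-!
# P130, simple spectrum: bounds for the polynomials `PP`
-/

open MeasureTheory Filter Topology Polynomial
open scoped ENNReal ComplexConjugate

namespace P130

private theorem polyP_pow (j : ℕ) (t : 𝕋) : (fourier 1 t : ℂ) ^ j = fourier (j : ℤ) t := by
  rw [fourier_apply, fourier_apply, ← Circle.coe_pow, ← AddCircle.toCircle_nsmul, one_zsmul,
    natCast_zsmul]

private theorem polyP_eval {B : Blk} (G : Good B) (n : ℕ) (k : ℤ) (t : 𝕋) :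
    (PP G n k).eval (fourier 1 t : ℂ) = ∑ j ∈ Finset.range (G.κ n * G.L n),
      fourier k (chA (G.κ n) (G.L n) j) * fourier (j : ℤ) t := by
  unfold PP
  rw [eval_finsetSum]
  refine Finset.sum_congr rfl fun j _ => ?_
  rw [eval_mul, eval_C, eval_pow, eval_X, polyP_pow, G.ha]

/-- `PP` with exponent `1` is `chP` -/
theorem PP_one_eval {B : Blk} (G : Good B) (n : ℕ) (t : 𝕋) :
    (PP G n 1).eval (fourier 1 t : ℂ) = chP (G.κ n) (G.L n) t := by
  rw [polyP_eval]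
  rfl

private theorem polyP_sum (L : ℕ) (f : ℕ → ℂ) (κ : ℕ) :
    ∑ j ∈ Finset.range (κ * L), f j =
      ∑ r ∈ Finset.range κ, ∑ i ∈ Finset.range L, f (r * L + i) := by
  induction κ with
  | zero => simp
  | succ κ ih =>
    rw [Nat.succ_mul, Finset.sum_range_add, Finset.sum_range_succ, ih]

private theorem polyP_A (κ L r i : ℕ) (hr : r < κ) (hi : i < L) :
    chA κ L (r * L + i) = (((r : ℝ) * (i : ℝ) / κ + (i : ℝ) ^ 2 / (4 * κ * L) : ℝ) : 𝕋) := by
  have hL : 0 < L := by omega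
  have h1 : r * L + i < κ * L := by
    calc r * L + i < r * L + L := by omega
      _ = (r + 1) * L := by ring
      _ ≤ κ * L := Nat.mul_le_mul_right L hr
  have h2 : (r * L + i) / L = r := by
    rw [Nat.add_comm, Nat.add_mul_div_right _ _ hL, Nat.div_eq_of_lt hi, Nat.zero_add]
  have h3 : (r * L + i) % L = i := by
    rw [Nat.add_comm, Nat.add_mul_mod_self_right, Nat.mod_eq_of_lt hi]
  unfold chA
  rw [Nat.mod_eq_of_lt h1, h2, h3]

private theorem polyP_smul (κ L r i : ℕ) (hκ : 1 ≤ κ) :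
    (κ : ℤ) • (((r : ℝ) * (i : ℝ) / κ + (i : ℝ) ^ 2 / (4 * κ * L) : ℝ) : 𝕋) =
      (((i : ℝ) ^ 2 / (4 * L) : ℝ) : 𝕋) := by
  have hκ0 : (0 : ℝ) < κ := by exact_mod_cast hκ
  have e0 : (κ : ℝ) * ((r : ℝ) * (i : ℝ) / κ + (i : ℝ) ^ 2 / (4 * κ * L)) =
      (i : ℝ) ^ 2 / (4 * L) + ((r * i : ℕ) : ℝ) := by
    push_cast
    have e1 : (κ : ℝ) * ((r : ℝ) * (i : ℝ) / κ) = r * i := by field_simp
    have e2 : (κ : ℝ) * ((i : ℝ) ^ 2 / (4 * κ * L)) = (i : ℝ) ^ 2 / (4 * L) := by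
      rw [← mul_div_assoc, mul_comm (κ : ℝ), mul_assoc, mul_comm (κ : ℝ) (L : ℝ), ← mul_assoc,
        mul_div_mul_right _ _ hκ0.ne']
    rw [mul_add, e1, e2]
    ring
  rw [← AddCircle.coe_zsmul, zsmul_eq_mul, Int.cast_natCast, e0, AddCircle.coe_add]
  have e3 : (((r * i : ℕ) : ℝ) : 𝕋) = 0 := by
    rw [AddCircle.coe_eq_zero_iff]
    exact ⟨(r * i : ℕ), by rw [zsmul_eq_mul, mul_one, Int.cast_natCast]⟩
  rw [e3, add_zero]

private theorem polyP_chP_one (L : ℕ) (t : 𝕋) :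
    chP 1 L t = ∑ i ∈ Finset.range L, fourier 1 (((i : ℝ) ^ 2 / (4 * L) : ℝ) : 𝕋) *
      fourier (i : ℤ) t := by
  unfold chP
  rw [one_mul]
  refine Finset.sum_congr rfl fun i hi => ?_
  rw [Finset.mem_range] at hi
  have h1 := polyP_A 1 L 0 i Nat.one_pos hi
  rw [zero_mul, zero_add] at h1
  rw [h1]
  congr 3
  push_cast
  ring

/-- for a block of type `κ = l` the `l`-th powers of the phases are `L`-periodic:
`PP l = (∑_{r < l} z^(r L)) (∑_{i < L} e(i² / (4 L)) z^i)`, and `chP 1 L = chC 1 L`. -/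
theorem PP_kappa_le {B : Blk} (G : Good B) (n : ℕ) (t : 𝕋) :
    ‖(PP G n (G.κ n)).eval (fourier 1 t : ℂ)‖ ≤ G.κ n * ‖chP 1 (G.L n) t‖ := by
  have hκ : 1 ≤ G.κ n := le_trans (by norm_num) (G.hκ n)
  have h1 : (PP G n (G.κ n)).eval (fourier 1 t : ℂ) =
      ∑ r ∈ Finset.range (G.κ n), fourier ((r * G.L n : ℕ) : ℤ) t * chP 1 (G.L n) t := by
    rw [polyP_eval, polyP_sum]
    refine Finset.sum_congr rfl fun r hr => ?_
    rw [polyP_chP_one, Finset.mul_sum]
    refine Finset.sum_congr rfl fun i hi => ?_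
    rw [Finset.mem_range] at hr hi
    rw [polyP_A _ _ r i hr hi]
    simp only [fourier_apply, one_zsmul]
    rw [polyP_smul _ _ r i hκ, ← Circle.coe_mul, ← Circle.coe_mul, ← Circle.coe_mul,
      ← AddCircle.toCircle_add, ← AddCircle.toCircle_add, ← AddCircle.toCircle_add]
    congr 2
    rw [Nat.cast_add, add_smul]
    abel
  rw [h1]
  refine (norm_sum_le _ _).trans ?_
  have h2 : ∀ r ∈ Finset.range (G.κ n),
      ‖fourier ((r * G.L n : ℕ) : ℤ) t * chP 1 (G.L n) t‖ ≤ ‖chP 1 (G.L n) t‖ := by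
    intro r _
    rw [norm_mul, fourier_apply, Circle.norm_coe, one_mul]
  refine (Finset.sum_le_sum h2).trans (le_of_eq ?_)
  rw [Finset.sum_const, Finset.card_range, nsmul_eq_mul]

/-- negative exponents: complex conjugation and `t ↦ -t` -/
theorem PP_neg_eval {B : Blk} (G : Good B) (n : ℕ) (k : ℤ) (t : 𝕋) :
    ‖(PP G n (-k)).eval (fourier 1 t : ℂ)‖ = ‖(PP G n k).eval (fourier 1 (-t) : ℂ)‖ := by
  have h1 : (PP G n (-k)).eval (fourier 1 t : ℂ) =
      (starRingEnd ℂ) ((PP G n k).eval (fourier 1 (-t) : ℂ)) := by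
    rw [polyP_eval, polyP_eval, map_sum]
    refine Finset.sum_congr rfl fun j _ => ?_
    rw [map_mul, ← fourier_neg, ← fourier_neg]
    congr 1
    rw [fourier_apply, fourier_apply, neg_smul, smul_neg, neg_neg]
  rw [h1, RCLike.norm_conj]

/-- the type `κ'` of the flat polynomial which controls `PP l` on blocks of type `max l 2` -/
def kap (l : ℕ) : ℕ := if l = 1 then 2 else 1

/-- uniform form: on blocks of type `max l 2`,
`|PP l|² / m ≤ l² (|chP κ' L| / √(2 κ' L))²` with `κ' = kap l`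
(`m = 2 κ L`; for `l = 1`: `κ = 2 = κ'`, equality; for `l ≥ 2`: `κ = l`, `κ' = 1`). -/
theorem PP_bound {B : Blk} (G : Good B) (n l : ℕ) (hl : 1 ≤ l) (hn : G.κ n = max l 2) (t : 𝕋) :
    ‖(PP G n l).eval (fourier 1 t : ℂ)‖ ^ 2 / B.m n ≤
      (l : ℝ) ^ 2 * (‖chP (kap l) (G.L n) t‖ / Real.sqrt (2 * (kap l : ℕ) * G.L n)) ^ 2 := by
  have hL0 : (0 : ℝ) < G.L n := by exact_mod_cast G.hL n
  have hm : (B.m n : ℝ) = 2 * G.κ n * G.L n := by
    rw [G.hm n]
    push_cast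
    ring
  rcases Nat.lt_or_ge 1 l with h1 | h1
  · have hk : kap l = 1 := by
      unfold kap
      rw [if_neg (by omega)]
    have hκl : G.κ n = l := by rw [hn]; exact max_eq_left h1
    have h2 := PP_kappa_le G n t
    rw [hκl] at h2
    have hl0 : (1 : ℝ) ≤ l := by exact_mod_cast hl
    rw [hk, hm, hκl, div_pow, Nat.cast_one, mul_one,
      Real.sq_sqrt (by positivity : (0 : ℝ) ≤ 2 * G.L n)]
    have h3 : ‖(PP G n l).eval (fourier 1 t : ℂ)‖ ^ 2 ≤ (l * ‖chP 1 (G.L n) t‖) ^ 2 :=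
      pow_le_pow_left₀ (norm_nonneg _) h2 2
    rw [mul_pow] at h3
    rw [← mul_div_assoc]
    refine (div_le_div_of_nonneg_right h3 (by positivity)).trans ?_
    refine div_le_div_of_nonneg_left (by positivity) (by positivity) ?_
    nlinarith
  · have hl1 : l = 1 := by omega
    subst hl1
    have hk : kap 1 = 2 := by
      unfold kap
      rw [if_pos rfl]
    have hκ2 : G.κ n = 2 := by rw [hn]; rfl
    have h2 := PP_one_eval G n t
    rw [hκ2] at h2
    rw [Nat.cast_one, h2, hk, hm, hκ2, div_pow,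
      Real.sq_sqrt (by positivity : (0 : ℝ) ≤ 2 * (2 : ℕ) * G.L n)]
    simp

end P130
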