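import Mathlib
import Vale.Agent.Lib.P130.ChirpDefs

/-!
# P130, simple spectrum: trigonometric approximation of an indicator function
-/

open MeasureTheory Filter Topology Polynomial
open scoped ENNReal ComplexConjugate

namespace P130

private theorem trigQ_pow (k : ℕ) (t : 𝕋) :
    (fourier (k : ℤ) t : ℂ) = (fourier 1 t : ℂ) ^ k := by
  induction k with
  | zero => rw [Nat.cast_zero, fourier_zero, pow_zero]
  | succ k ih => rw [Nat.cast_succ, fourier_add, ih, pow_succ]

private theorem trigQ_norm (n : ℤ) (t : 𝕋) : ‖(fourier n t : ℂ)‖ = 1 := Circle.norm_coe _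

/-- trigonometric polynomials are Laurent polynomials in `fourier 1` -/
private theorem trigQ_span (p : C(𝕋, ℂ))
    (hp : p ∈ Submodule.span ℂ (Set.range (fun n : ℤ => (fourier n : C(𝕋, ℂ))))) :
    ∃ d₀ : ℕ, ∀ d : ℕ, d₀ ≤ d → ∃ Q : ℂ[X], ∀ t : 𝕋,
      Q.eval (fourier 1 t : ℂ) = fourier (d : ℤ) t * p t := by
  induction hp using Submodule.span_induction with
  | mem x hx =>
    obtain ⟨n, rfl⟩ := hx
    refine ⟨n.natAbs, fun d hd => ⟨X ^ ((d : ℤ) + n).toNat, fun t => ?_⟩⟩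
    have h0 : (0 : ℤ) ≤ (d : ℤ) + n := by omega
    rw [eval_pow, eval_X, ← trigQ_pow, Int.toNat_of_nonneg h0, fourier_add]
  | zero => exact ⟨0, fun d _ => ⟨0, fun t => by simp⟩⟩
  | add x y _ _ hx hy =>
    obtain ⟨d1, h1⟩ := hx
    obtain ⟨d2, h2⟩ := hy
    refine ⟨max d1 d2, fun d hd => ?_⟩
    obtain ⟨Q1, hQ1⟩ := h1 d (le_trans (le_max_left _ _) hd)
    obtain ⟨Q2, hQ2⟩ := h2 d (le_trans (le_max_right _ _) hd)
    refine ⟨Q1 + Q2, fun t => ?_⟩
    rw [eval_add, hQ1, hQ2, ContinuousMap.add_apply, mul_add]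
  | smul a x _ hx =>
    obtain ⟨d1, h1⟩ := hx
    refine ⟨d1, fun d hd => ?_⟩
    obtain ⟨Q1, hQ1⟩ := h1 d hd
    refine ⟨C a * Q1, fun t => ?_⟩
    rw [eval_mul, eval_C, hQ1, ContinuousMap.smul_apply, smul_eq_mul]
    ring

/-- a continuous function with values in `[0,1]` close to the indicator function -/
private theorem trigQ_cont (K : Set 𝕋) (hK : MeasurableSet K) (δ : ℝ) (hδ : 0 < δ) :
    ∃ g : C(𝕋, ℝ), (∀ t, 0 ≤ g t) ∧ (∀ t, g t ≤ 1) ∧
      Integrable (fun t => (K.indicator (fun _ => (1 : ℝ)) t - g t) ^ 2) mT ∧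
      ∫ t, (K.indicator (fun _ => (1 : ℝ)) t - g t) ^ 2 ∂mT ≤ δ := by
  have hf : MemLp (K.indicator (fun _ => (1 : ℝ))) (ENNReal.ofReal 2) mT :=
    memLp_indicator_const _ hK _ (Or.inr (measure_ne_top _ _))
  obtain ⟨g, hg1, hg2⟩ := hf.exists_boundedContinuous_integral_rpow_sub_le (by norm_num) hδ
  have h2 : (ENNReal.ofReal 2) = 2 := by norm_num
  rw [h2] at hf hg2
  have hint : Integrable (fun t => (K.indicator (fun _ => (1 : ℝ)) t - g t) ^ 2) mT :=
    (hf.sub hg2).integrable_sq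
  have hle : ∀ t, (K.indicator (fun _ => (1 : ℝ)) t - max 0 (min (g t) 1)) ^ 2 ≤
      (K.indicator (fun _ => (1 : ℝ)) t - g t) ^ 2 := by
    intro t
    have h01 : K.indicator (fun _ => (1 : ℝ)) t = 0 ∨ K.indicator (fun _ => (1 : ℝ)) t = 1 := by
      by_cases h : t ∈ K
      · right; simp [h]
      · left; simp [h]
    rw [sq_le_sq]
    rcases h01 with h | h <;> rw [h]
    · rw [zero_sub, zero_sub, abs_neg, abs_neg, abs_of_nonneg (le_max_left _ _)]
      refine max_le (abs_nonneg _) ((min_le_left _ _).trans (le_abs_self _))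
    · have h3 : max 0 (min (g t) 1) ≤ 1 := max_le zero_le_one (min_le_right _ _)
      rw [abs_of_nonneg (by linarith)]
      rcases le_total (g t) 1 with h4 | h4
      · rw [abs_of_nonneg (by linarith), min_eq_left h4]
        linarith [le_max_right 0 (g t)]
      · rw [min_eq_right h4, max_eq_right zero_le_one, sub_self]
        exact abs_nonneg _
  have hcont : Continuous (fun t => max 0 (min (g t) 1)) :=
    continuous_const.max (g.continuous.min continuous_const)
  have hind : Measurable (K.indicator (fun _ => (1 : ℝ))) := measurable_const.indicator hK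
  have hint' : Integrable
      (fun t => (K.indicator (fun _ => (1 : ℝ)) t - max 0 (min (g t) 1)) ^ 2) mT := by
    refine hint.mono' ((hind.sub hcont.measurable).pow_const 2).aestronglyMeasurable ?_
    refine Eventually.of_forall fun t => ?_
    rw [Real.norm_eq_abs, abs_of_nonneg (sq_nonneg _)]
    exact hle t
  refine ⟨⟨fun t => max 0 (min (g t) 1), hcont⟩, fun t => le_max_left _ _,
    fun t => max_le zero_le_one (min_le_right _ _), hint', ?_⟩
  refine (integral_mono hint' hint hle).trans ?_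
  refine le_trans (le_of_eq ?_) hg1
  refine integral_congr_ae (Eventually.of_forall fun t => ?_)
  show (K.indicator (fun _ => (1 : ℝ)) t - g t) ^ 2 =
    ‖K.indicator (fun _ => (1 : ℝ)) t - g t‖ ^ (2 : ℝ)
  rw [Real.norm_eq_abs, Real.rpow_two, sq_abs]

/-- Choose a continuous `g` with `|g| ≤ 1` and `∫ |g - 1_K|² ≤ δ / 4` (regularity of `mT`,
`MeasureTheory.exists_continuous_eLpNorm_sub_le_of_closed` or Lusin), then a trigonometric
polynomial `p` uniformly close to `g` (`span_fourier_closure_eq_top`), and write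
`fourier d t * p t = Q.eval (fourier 1 t)`. -/
theorem exists_Q (K : Set 𝕋) (hK : MeasurableSet K) (δ : ℝ) (hδ : 0 < δ) :
    ∃ (d : ℕ) (Q : ℂ[X]), (∀ t : 𝕋, ‖Q.eval (fourier 1 t : ℂ)‖ ≤ 2) ∧
      ∫ t, ‖Q.eval (fourier 1 t : ℂ) -
        fourier (d : ℤ) t * (((K.indicator (fun _ => (1 : ℝ)) t : ℝ)) : ℂ)‖ ^ 2 ∂mT ≤ δ := by
  obtain ⟨g, hg0, hg1, hgi, hgδ⟩ := trigQ_cont K hK (δ / 4) (by positivity)
  set gc : C(𝕋, ℂ) := ⟨fun t => ((g t : ℝ) : ℂ), Complex.continuous_ofReal.comp g.continuous⟩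
    with hgc
  set η : ℝ := min 1 (Real.sqrt δ / 2) with hη
  have hη0 : 0 < η := by rw [hη]; exact lt_min one_pos (by positivity)
  have hη2 : η ^ 2 ≤ δ / 4 := by
    have h1 : η ≤ Real.sqrt δ / 2 := min_le_right _ _
    have h2 := pow_le_pow_left₀ hη0.le h1 2
    rw [div_pow, Real.sq_sqrt hδ.le] at h2
    linarith
  have hmem : gc ∈ (Submodule.span ℂ
      (Set.range (fun n : ℤ => (fourier n : C(𝕋, ℂ))))).topologicalClosure := by
    have := span_fourier_closure_eq_top (T := (1 : ℝ))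
    rw [this]
    trivial
  have hmem' : gc ∈ closure ((Submodule.span ℂ
      (Set.range (fun n : ℤ => (fourier n : C(𝕋, ℂ)))) : Set C(𝕋, ℂ))) := hmem
  obtain ⟨p, hp, hpd⟩ := Metric.mem_closure_iff.mp hmem' η hη0
  have hpt : ∀ t, ‖p t - gc t‖ ≤ η := by
    intro t
    have h1 : ‖(gc - p) t‖ ≤ ‖gc - p‖ := ContinuousMap.norm_coe_le_norm _ t
    rw [dist_eq_norm] at hpd
    rw [ContinuousMap.sub_apply, norm_sub_rev] at h1
    exact h1.trans hpd.le
  obtain ⟨d, hd⟩ := trigQ_span p hp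
  obtain ⟨Q, hQ⟩ := hd d le_rfl
  refine ⟨d, Q, fun t => ?_, ?_⟩
  · rw [hQ, norm_mul, trigQ_norm, one_mul]
    have h1 : ‖p t‖ ≤ ‖p t - gc t‖ + ‖gc t‖ := by
      have := norm_add_le (p t - gc t) (gc t)
      rwa [sub_add_cancel] at this
    have h2 : ‖gc t‖ ≤ 1 := by
      show ‖((g t : ℝ) : ℂ)‖ ≤ 1
      rw [Complex.norm_real, Real.norm_eq_abs, abs_of_nonneg (hg0 t)]
      exact hg1 t
    have h3 : η ≤ 1 := min_le_left _ _
    linarith [hpt t]
  · have hle : ∀ t : 𝕋, ‖Q.eval (fourier 1 t : ℂ) -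
        fourier (d : ℤ) t * (((K.indicator (fun _ => (1 : ℝ)) t : ℝ)) : ℂ)‖ ^ 2 ≤
        2 * η ^ 2 + 2 * (K.indicator (fun _ => (1 : ℝ)) t - g t) ^ 2 := by
      intro t
      rw [hQ, ← mul_sub, norm_mul, trigQ_norm, one_mul]
      have h1 : ‖p t - (((K.indicator (fun _ => (1 : ℝ)) t : ℝ)) : ℂ)‖ ≤
          η + |K.indicator (fun _ => (1 : ℝ)) t - g t| := by
        have h2 : p t - (((K.indicator (fun _ => (1 : ℝ)) t : ℝ)) : ℂ) =
            (p t - gc t) + (gc t - (((K.indicator (fun _ => (1 : ℝ)) t : ℝ)) : ℂ)) := by ring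
        rw [h2]
        refine (norm_add_le _ _).trans (add_le_add (hpt t) (le_of_eq ?_))
        show ‖((g t : ℝ) : ℂ) - (((K.indicator (fun _ => (1 : ℝ)) t : ℝ)) : ℂ)‖ = _
        rw [← Complex.ofReal_sub, Complex.norm_real, Real.norm_eq_abs, abs_sub_comm]
      have h3 := pow_le_pow_left₀ (norm_nonneg _) h1 2
      have h4 : |K.indicator (fun _ => (1 : ℝ)) t - g t| ^ 2 =
          (K.indicator (fun _ => (1 : ℝ)) t - g t) ^ 2 := sq_abs _
      nlinarith [sq_nonneg (η - |K.indicator (fun _ => (1 : ℝ)) t - g t|)]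
    have hG : Integrable
        (fun t => 2 * η ^ 2 + 2 * (K.indicator (fun _ => (1 : ℝ)) t - g t) ^ 2) mT :=
      (integrable_const _).add (hgi.const_mul 2)
    refine (integral_mono_of_nonneg (Eventually.of_forall fun t => by positivity) hG
      (Eventually.of_forall hle)).trans ?_
    rw [integral_add (integrable_const _) (hgi.const_mul 2), integral_const, integral_const_mul]
    simp only [probReal_univ, one_smul]
    linarith

end P130
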