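import Mathlib
import Vale.Agent.Lib.P130.PolyP
import Vale.Agent.Lib.P130.TrigQ

/-!
# P130, simple spectrum: separating `e n 0 l` and `e n 0 (-l)`
-/

open MeasureTheory Filter Topology Polynomial
open scoped ENNReal ComplexConjugate

namespace P130

private theorem continuous_rho (κ L : ℕ) :
    Continuous fun t : 𝕋 => ‖chP κ L t‖ / Real.sqrt (2 * κ * L) := by
  have h1 : Continuous (chP κ L) := by
    have := continuous_chPs κ L 1
    have h2 : chPs κ L 1 = chP κ L := by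
      funext s
      exact chPs_one κ L s
    rwa [h2] at this
  exact h1.norm.div_const _

private theorem integrable_cont' {f : 𝕋 → ℝ} (hf : Continuous f) : Integrable f mT :=
  hf.integrable_of_hasCompactSupport (HasCompactSupport.of_compactSpace f)

private theorem integrable_ind (κ : ℕ) (F : 𝕋 → ℝ) (hF : Continuous F) :
    Integrable (fun t => F t * (Kset κ).indicator (fun _ => (1 : ℝ)) t) mT := by
  have h1 : (fun t => F t * (Kset κ).indicator (fun _ => (1 : ℝ)) t) = (Kset κ).indicator F := by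
    funext t
    by_cases ht : t ∈ Kset κ
    · rw [Set.indicator_of_mem ht, Set.indicator_of_mem ht, mul_one]
    · rw [Set.indicator_of_notMem ht, Set.indicator_of_notMem ht, mul_zero]
  rw [h1]
  exact (integrable_cont' hF).indicator (measurableSet_Kset κ)

private theorem integrable_flat (κ L : ℕ) :
    Integrable (fun t => (‖chP κ L t‖ / Real.sqrt (2 * κ * L) -
      (Kset κ).indicator (fun _ => (1 : ℝ)) t) ^ 2) mT := by
  have h1 : (fun t => (‖chP κ L t‖ / Real.sqrt (2 * κ * L) -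
      (Kset κ).indicator (fun _ => (1 : ℝ)) t) ^ 2) = fun t =>
      (‖chP κ L t‖ / Real.sqrt (2 * κ * L)) ^ 2 +
      (1 - 2 * (‖chP κ L t‖ / Real.sqrt (2 * κ * L))) *
        (Kset κ).indicator (fun _ => (1 : ℝ)) t := by
    funext t
    by_cases ht : t ∈ Kset κ
    · rw [Set.indicator_of_mem ht]
      ring
    · rw [Set.indicator_of_notMem ht]
      ring
  rw [h1]
  exact (integrable_cont' ((continuous_rho κ L).pow 2)).add (integrable_ind κ _
    (continuous_const.sub (continuous_const.mul (continuous_rho κ L))))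

/-- the flatness defect controls weighted integrals.  Pointwise `ρ² ≤ 2 1_K + 2 (ρ - 1_K)²` for
`ρ = |chP| / √(2κL)`. -/
theorem weight_le (κ L : ℕ) (hκ : 1 ≤ κ) (hL : 0 < L) (F : C(𝕋, ℝ)) (b : ℝ)
    (h0 : ∀ t, 0 ≤ F t) (hb : ∀ t, F t ≤ b) :
    ∫ t, F t * (‖chP κ L t‖ / Real.sqrt (2 * κ * L)) ^ 2 ∂mT ≤
      2 * ∫ t, F t * (Kset κ).indicator (fun _ => (1 : ℝ)) t ∂mT + 2 * b * flatErr κ L := by
  unfold flatErr
  rw [← integral_const_mul, ← integral_const_mul, ← integral_add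
    ((integrable_ind κ F F.continuous).const_mul 2) ((integrable_flat κ L).const_mul (2 * b))]
  refine integral_mono (integrable_cont' (F.continuous.mul ((continuous_rho κ L).pow 2)))
    (((integrable_ind κ F F.continuous).const_mul 2).add
      ((integrable_flat κ L).const_mul (2 * b))) fun t => ?_
  obtain ⟨r, hr⟩ : ∃ r, r = ‖chP κ L t‖ / Real.sqrt (2 * κ * L) := ⟨_, rfl⟩
  simp only []
  rw [← hr]
  have hF0 := h0 t
  have hFb := hb t
  by_cases ht : t ∈ Kset κ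
  · rw [Set.indicator_of_mem ht]
    have h1 : r ^ 2 ≤ 2 + 2 * (r - 1) ^ 2 := by nlinarith [sq_nonneg (r - 2)]
    have h2 : F t * r ^ 2 ≤ F t * (2 + 2 * (r - 1) ^ 2) := mul_le_mul_of_nonneg_left h1 hF0
    have h3 : F t * (r - 1) ^ 2 ≤ b * (r - 1) ^ 2 := mul_le_mul_of_nonneg_right hFb (sq_nonneg _)
    nlinarith
  · rw [Set.indicator_of_notMem ht]
    have h3 : F t * r ^ 2 ≤ b * r ^ 2 := mul_le_mul_of_nonneg_right hFb (sq_nonneg _)
    have h4 : 0 ≤ F t * r ^ 2 := mul_nonneg hF0 (sq_nonneg _)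
    nlinarith

private theorem kap_pos (l : ℕ) : 1 ≤ kap l := by
  unfold kap
  split_ifs <;> norm_num

private theorem norm_f1 (t : 𝕋) : ‖(fourier 1 t : ℂ)‖ = 1 := norm_fourier_apply 1 t

private theorem continuous_evalQ (Q : ℂ[X]) : Continuous fun t : 𝕋 => Q.eval (fourier 1 t : ℂ) :=
  Q.continuous.comp (map_continuous (fourier 1))

private theorem f1_pow (d : ℕ) (t : 𝕋) : (fourier 1 t : ℂ) ^ d = fourier (d : ℤ) t := by
  induction d with
  | zero => rw [pow_zero, Nat.cast_zero, fourier_zero]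
  | succ d ih => rw [pow_succ, ih, Nat.cast_succ, fourier_add]

/-- `Q(U^M)` keeps `e n 0 l` (up to `U^(d M)`):  `norm_aeval_sq_le` for `Q - X^d`, `PP_bound`,
`weight_le` with `F = |Q(e(t)) - e(dt)|² ≤ 9`, and `F 1_K ≤ |Q(e(t)) - e(dt) 1_K|²`. -/
theorem keep {B : Blk} (G : Good B) (n l : ℕ) (hl : 1 ≤ l) (hn : G.κ n = max l 2) (d : ℕ)
    (Q : ℂ[X]) (hQ2 : ∀ t : 𝕋, ‖Q.eval (fourier 1 t : ℂ)‖ ≤ 2) (δ : ℝ)
    (hQ : ∫ t, ‖Q.eval (fourier 1 t : ℂ) - fourier (d : ℤ) t *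
      ((((Kset (kap l)).indicator (fun _ => (1 : ℝ)) t : ℝ)) : ℂ)‖ ^ 2 ∂mT ≤ δ)
    (hdeg : Q.natDegree ≤ G.κ n * G.L n) (hd : d ≤ G.κ n * G.L n) :
    ‖aeval (um B n) Q (B.e n 0 l) - B.U^[d * B.M n] (B.e n 0 l)‖ ^ 2 ≤
      4 * (l : ℝ) ^ 2 * (2 * δ + 18 * flatErr (kap l) (G.L n)) := by
  have h1 : aeval (um B n) Q (B.e n 0 l) - B.U^[d * B.M n] (B.e n 0 l) =
      aeval (um B n) (Q - X ^ d) (B.e n 0 l) := by
    rw [map_sub, LinearMap.sub_apply, aeval_X_pow_apply]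
  rw [h1]
  refine (norm_aeval_sq_le G n l (Q - X ^ d) ?_).trans ?_
  · refine (natDegree_sub_le _ _).trans (max_le hdeg ?_)
    rw [natDegree_X_pow]
    exact hd
  obtain ⟨F, hF⟩ : ∃ F : C(𝕋, ℝ), ∀ t, F t = ‖(Q - X ^ d).eval (fourier 1 t : ℂ)‖ ^ 2 :=
    ⟨⟨fun t => ‖(Q - X ^ d).eval (fourier 1 t : ℂ)‖ ^ 2, (continuous_evalQ _).norm.pow 2⟩,
      fun t => rfl⟩
  have hFe : ∀ t, F t = ‖Q.eval (fourier 1 t : ℂ) - fourier (d : ℤ) t‖ ^ 2 := by
    intro t
    rw [hF, eval_sub, eval_pow, eval_X, f1_pow]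
  have hw := weight_le (kap l) (G.L n) (kap_pos l) (G.hL n) F 9 (fun t => by rw [hF]; positivity)
    (fun t => by
      rw [hFe]
      have h2 : ‖Q.eval (fourier 1 t : ℂ) - fourier (d : ℤ) t‖ ≤ 3 := by
        refine (norm_sub_le _ _).trans ?_
        have := hQ2 t
        rw [norm_fourier_apply]
        linarith
      nlinarith [norm_nonneg (Q.eval (fourier 1 t : ℂ) - fourier (d : ℤ) t)])
  have h3 : ∫ t, F t * (Kset (kap l)).indicator (fun _ => (1 : ℝ)) t ∂mT ≤ δ := by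
    refine le_trans ?_ hQ
    refine integral_mono (integrable_ind _ F F.continuous) ?_ fun t => ?_
    · have h4 : (fun t => ‖Q.eval (fourier 1 t : ℂ) - fourier (d : ℤ) t *
          ((((Kset (kap l)).indicator (fun _ => (1 : ℝ)) t : ℝ)) : ℂ)‖ ^ 2) = fun t =>
          ‖Q.eval (fourier 1 t : ℂ)‖ ^ 2 +
            (‖Q.eval (fourier 1 t : ℂ) - fourier (d : ℤ) t‖ ^ 2 -
              ‖Q.eval (fourier 1 t : ℂ)‖ ^ 2) * (Kset (kap l)).indicator (fun _ => (1 : ℝ)) t := by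
        funext t
        by_cases ht : t ∈ Kset (kap l)
        · rw [Set.indicator_of_mem ht, Complex.ofReal_one, mul_one, mul_one]
          ring
        · rw [Set.indicator_of_notMem ht, Complex.ofReal_zero, mul_zero, sub_zero, mul_zero,
            add_zero]
      rw [h4]
      exact (integrable_cont' ((continuous_evalQ Q).norm.pow 2)).add (integrable_ind _ _
        ((((continuous_evalQ Q).sub (map_continuous (fourier (d : ℤ)))).norm.pow 2).sub
          ((continuous_evalQ Q).norm.pow 2)))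
    · simp only []
      by_cases ht : t ∈ Kset (kap l)
      · rw [Set.indicator_of_mem ht, hFe, Complex.ofReal_one, mul_one, mul_one]
      · rw [Set.indicator_of_notMem ht, mul_zero]
        positivity
  have h5 : ∫ t, ‖(Q - X ^ d).eval (fourier 1 t : ℂ)‖ ^ 2 *
        (‖(PP G n l).eval (fourier 1 t : ℂ)‖ ^ 2 / B.m n) ∂mT ≤
      ∫ t, (l : ℝ) ^ 2 * (F t * (‖chP (kap l) (G.L n) t‖ /
        Real.sqrt (2 * (kap l : ℕ) * G.L n)) ^ 2) ∂mT := by
    refine integral_mono ?_ ?_ fun t => ?_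
    · exact integrable_cont' (((continuous_evalQ _).norm.pow 2).mul
        (((continuous_evalQ _).norm.pow 2).div_const _))
    · exact integrable_cont' (continuous_const.mul (F.continuous.mul
        ((continuous_rho (kap l) (G.L n)).pow 2)))
    · simp only []
      rw [← hF]
      have h6 := PP_bound G n l hl hn t
      have h7 : 0 ≤ F t := by rw [hF]; positivity
      nlinarith [mul_le_mul_of_nonneg_left h6 h7]
  rw [integral_const_mul] at h5
  have hl2 : (0 : ℝ) ≤ (l : ℝ) ^ 2 := by positivity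
  have h8 : (l : ℝ) ^ 2 * ∫ t, F t * (‖chP (kap l) (G.L n) t‖ /
        Real.sqrt (2 * (kap l : ℕ) * G.L n)) ^ 2 ∂mT ≤
      (l : ℝ) ^ 2 * (2 * δ + 18 * flatErr (kap l) (G.L n)) := by
    refine mul_le_mul_of_nonneg_left ?_ hl2
    refine hw.trans ?_
    linarith
  have h9 := h5.trans h8
  linarith

private theorem int_neg (F : 𝕋 → ℝ) : ∫ t, F (-t) ∂mT = ∫ t, F t ∂mT :=
  integral_neg_eq_self F mT

/-- `Q(U^M)` kills `e n 0 (-l)`: `norm_aeval_sq_le`, `PP_neg_eval`, `PP_bound`, `weight_le` with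
`F t = |Q(e(-t))|² ≤ 4` after the substitution `t ↦ -t`; `-t ∈ K ↔ t ∉ K` almost everywhere
(`neg_Kset_ae`). -/
theorem killQ {B : Blk} (G : Good B) (n l : ℕ) (hl : 1 ≤ l) (hn : G.κ n = max l 2) (d : ℕ)
    (Q : ℂ[X]) (hQ2 : ∀ t : 𝕋, ‖Q.eval (fourier 1 t : ℂ)‖ ≤ 2) (δ : ℝ)
    (hQ : ∫ t, ‖Q.eval (fourier 1 t : ℂ) - fourier (d : ℤ) t *
      ((((Kset (kap l)).indicator (fun _ => (1 : ℝ)) t : ℝ)) : ℂ)‖ ^ 2 ∂mT ≤ δ)
    (hdeg : Q.natDegree ≤ G.κ n * G.L n) :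
    ‖aeval (um B n) Q (B.e n 0 (-(l : ℤ)))‖ ^ 2 ≤
      4 * (l : ℝ) ^ 2 * (2 * δ + 8 * flatErr (kap l) (G.L n)) := by
  refine (norm_aeval_sq_le G n (-(l : ℤ)) Q hdeg).trans ?_
  obtain ⟨F, hF⟩ : ∃ F : C(𝕋, ℝ), ∀ t, F t = ‖Q.eval (fourier 1 (-t) : ℂ)‖ ^ 2 :=
    ⟨⟨fun t => ‖Q.eval (fourier 1 (-t) : ℂ)‖ ^ 2,
      (((continuous_evalQ Q).comp continuous_neg).norm.pow 2)⟩, fun t => rfl⟩
  have hw := weight_le (kap l) (G.L n) (kap_pos l) (G.hL n) F 4 (fun t => by rw [hF]; positivity)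
    (fun t => by
      rw [hF]
      have h2 := hQ2 (-t)
      nlinarith [norm_nonneg (Q.eval (fourier 1 (-t) : ℂ))])
  have h3 : ∫ t, F t * (Kset (kap l)).indicator (fun _ => (1 : ℝ)) t ∂mT ≤ δ := by
    rw [← int_neg]
    refine le_trans ?_ hQ
    have h4 : (fun t => ‖Q.eval (fourier 1 t : ℂ) - fourier (d : ℤ) t *
          ((((Kset (kap l)).indicator (fun _ => (1 : ℝ)) t : ℝ)) : ℂ)‖ ^ 2) = fun t =>
          ‖Q.eval (fourier 1 t : ℂ)‖ ^ 2 +
            (‖Q.eval (fourier 1 t : ℂ) - fourier (d : ℤ) t‖ ^ 2 -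
              ‖Q.eval (fourier 1 t : ℂ)‖ ^ 2) * (Kset (kap l)).indicator (fun _ => (1 : ℝ)) t := by
      funext t
      by_cases ht : t ∈ Kset (kap l)
      · rw [Set.indicator_of_mem ht, Complex.ofReal_one, mul_one, mul_one]
        ring
      · rw [Set.indicator_of_notMem ht, Complex.ofReal_zero, mul_zero, sub_zero, mul_zero,
          add_zero]
    refine integral_mono_ae ?_ ?_ ?_
    · exact (integrable_ind (kap l) F F.continuous).comp_neg
    · rw [h4]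
      exact (integrable_cont' ((continuous_evalQ Q).norm.pow 2)).add (integrable_ind _ _
        ((((continuous_evalQ Q).sub (map_continuous (fourier (d : ℤ)))).norm.pow 2).sub
          ((continuous_evalQ Q).norm.pow 2)))
    · filter_upwards [neg_Kset_ae (kap l) (kap_pos l)] with t ht
      rw [hF, neg_neg]
      by_cases h : t ∈ Kset (kap l)
      · have h5 : -t ∉ Kset (kap l) := fun h6 => (ht.1 h6) h
        rw [Set.indicator_of_notMem h5, mul_zero]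
        positivity
      · have h5 : -t ∈ Kset (kap l) := ht.2 h
        rw [Set.indicator_of_mem h5, Set.indicator_of_notMem h, Complex.ofReal_zero, mul_zero,
          sub_zero, mul_one]
  have h5 : ∫ t, ‖Q.eval (fourier 1 t : ℂ)‖ ^ 2 *
        (‖(PP G n (-(l : ℤ))).eval (fourier 1 t : ℂ)‖ ^ 2 / B.m n) ∂mT ≤
      ∫ t, (l : ℝ) ^ 2 * (F t * (‖chP (kap l) (G.L n) t‖ /
        Real.sqrt (2 * (kap l : ℕ) * G.L n)) ^ 2) ∂mT := by
    rw [← int_neg]
    refine integral_mono ?_ ?_ fun t => ?_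
    · have h7 : Continuous fun t : 𝕋 => ‖Q.eval (fourier 1 t : ℂ)‖ ^ 2 *
          (‖(PP G n (-(l : ℤ))).eval (fourier 1 t : ℂ)‖ ^ 2 / B.m n) :=
        ((continuous_evalQ _).norm.pow 2).mul (((continuous_evalQ _).norm.pow 2).div_const _)
      exact integrable_cont' (h7.comp continuous_neg)
    · exact integrable_cont' (continuous_const.mul (F.continuous.mul
        ((continuous_rho (kap l) (G.L n)).pow 2)))
    · simp only []
      rw [← hF, PP_neg_eval G n l (-t), neg_neg]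
      have h6 := PP_bound G n l hl hn t
      have h7 : 0 ≤ F t := by rw [hF]; positivity
      nlinarith [mul_le_mul_of_nonneg_left h6 h7]
  rw [integral_const_mul] at h5
  have hl2 : (0 : ℝ) ≤ (l : ℝ) ^ 2 := by positivity
  have h8 : (l : ℝ) ^ 2 * ∫ t, F t * (‖chP (kap l) (G.L n) t‖ /
        Real.sqrt (2 * (kap l : ℕ) * G.L n)) ^ 2 ∂mT ≤
      (l : ℝ) ^ 2 * (2 * δ + 8 * flatErr (kap l) (G.L n)) := by
    refine mul_le_mul_of_nonneg_left ?_ hl2
    refine hw.trans ?_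
    linarith
  have h9 := h5.trans h8
  linarith

private theorem zpow_span (B : Blk) (n : ℕ) (l c : ℤ) (x : B.H)
    (hx : x ∈ Submodule.span ℂ (Set.range fun jq : ℤ × ℤˣ =>
          (B.Ue ^ (jq.1 * (B.M n : ℤ))) (B.e n 0 ((jq.2 : ℤ) * l)))) :
    (B.Ue ^ (c * (B.M n : ℤ))) x ∈ Submodule.span ℂ (Set.range fun jq : ℤ × ℤˣ =>
          (B.Ue ^ (jq.1 * (B.M n : ℤ))) (B.e n 0 ((jq.2 : ℤ) * l))) := by
  induction hx using Submodule.span_induction with
  | mem y hy =>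
    obtain ⟨⟨j, q⟩, rfl⟩ := hy
    refine Submodule.subset_span ⟨(c + j, q), ?_⟩
    change (B.Ue ^ ((c + j) * (B.M n : ℤ))) (B.e n 0 ((q : ℤ) * l)) =
      ((B.Ue ^ (c * (B.M n : ℤ))) * (B.Ue ^ (j * (B.M n : ℤ)))) (B.e n 0 ((q : ℤ) * l))
    rw [← zpow_add, add_mul]
  | zero =>
    rw [map_zero]
    exact Submodule.zero_mem _
  | add y z _ _ hy hz =>
    rw [map_add]
    exact Submodule.add_mem _ hy hz
  | smul a y _ hy =>
    rw [map_smul]
    exact Submodule.smul_mem _ _ hy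

private theorem aeval_span (B : Blk) (n : ℕ) (l : ℤ) (Q : ℂ[X]) (x : B.H)
    (hx : x ∈ Submodule.span ℂ (Set.range fun jq : ℤ × ℤˣ =>
          (B.Ue ^ (jq.1 * (B.M n : ℤ))) (B.e n 0 ((jq.2 : ℤ) * l)))) :
    aeval (um B n) Q x ∈ Submodule.span ℂ (Set.range fun jq : ℤ × ℤˣ =>
          (B.Ue ^ (jq.1 * (B.M n : ℤ))) (B.e n 0 ((jq.2 : ℤ) * l))) := by
  rw [aeval_eq_sum_range, LinearMap.sum_apply]
  refine Submodule.sum_mem _ fun i _ => ?_
  rw [LinearMap.smul_apply]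
  refine Submodule.smul_mem _ _ ?_
  have h1 := aeval_X_pow_apply B n i x
  rw [map_pow, aeval_X] at h1
  rw [h1, ← B.Ue_zpow_natCast_apply]
  push_cast
  exact zpow_span B n l i x hx

/-- With `v = e n 0 l + e n 0 (-l)`: `p = U^(-dM) Q(U^M) v = e n 0 l + r` with `r` small
(`keep`, `killQ`, `exists_Q`, `flatErr_tendsto`, `hLn`). -/
theorem exists_r {B : Blk} (G : Good B) (l : ℕ) (hl : 1 ≤ l) (η : ℝ) (hη : 0 < η) :
    ∃ N, ∀ n ≥ N, G.κ n = max l 2 →
      ∃ r ∈ Submodule.span ℂ (Set.range fun jq : ℤ × ℤˣ =>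
          (B.Ue ^ (jq.1 * (B.M n : ℤ))) (B.e n 0 ((jq.2 : ℤ) * (l : ℤ)))),
        ‖r‖ ≤ η ∧ B.e n 0 l + r ∈ Zc B.Ue (B.e n 0 l + B.e n 0 (-(l : ℤ))) := by
  have hl0 : (0 : ℝ) < l := by exact_mod_cast hl
  obtain ⟨δ, hδ⟩ : ∃ δ : ℝ, δ = η ^ 2 / (64 * (l : ℝ) ^ 2) := ⟨_, rfl⟩
  have hδ0 : 0 < δ := by rw [hδ]; positivity
  obtain ⟨d, Q, hQ2, hQ⟩ := exists_Q (Kset (kap l)) (measurableSet_Kset _) δ hδ0
  have ht := flatErr_tendsto (kap l) (kap_pos l)
  have hc : 0 < η ^ 2 / (576 * (l : ℝ) ^ 2) := by positivity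
  obtain ⟨L₀, hL₀⟩ := (ht.eventually (gt_mem_nhds hc)).exists_forall_of_atTop
  refine ⟨max L₀ (max d Q.natDegree), fun n hn hκ => ?_⟩
  have hn1 : L₀ ≤ n := (le_max_left _ _).trans hn
  have hn2 : d ≤ n := ((le_max_left _ _).trans (le_max_right _ _)).trans hn
  have hn3 : Q.natDegree ≤ n := ((le_max_right _ _).trans (le_max_right _ _)).trans hn
  have hLn := G.hLn n
  have hκ1 : 1 ≤ G.κ n := le_trans (by norm_num) (G.hκ n)
  have hκL : G.L n ≤ G.κ n * G.L n := Nat.le_mul_of_pos_left _ hκ1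
  have hdeg : Q.natDegree ≤ G.κ n * G.L n := by omega
  have hd : d ≤ G.κ n * G.L n := by omega
  have hf := hL₀ (G.L n) (hn1.trans hLn)
  have hbound : 4 * (l : ℝ) ^ 2 * (2 * δ + 18 * flatErr (kap l) (G.L n)) ≤ (η / 2) ^ 2 := by
    have h1 : 4 * (l : ℝ) ^ 2 * (2 * δ + 18 * flatErr (kap l) (G.L n)) ≤
        4 * (l : ℝ) ^ 2 * (2 * δ + 18 * (η ^ 2 / (576 * (l : ℝ) ^ 2))) := by
      refine mul_le_mul_of_nonneg_left ?_ (by positivity)
      linarith
    have h2 : 4 * (l : ℝ) ^ 2 * (2 * δ + 18 * (η ^ 2 / (576 * (l : ℝ) ^ 2))) = (η / 2) ^ 2 := by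
      rw [hδ]
      field_simp
      ring
    linarith
  have hnn : 0 ≤ flatErr (kap l) (G.L n) := integral_nonneg fun t => sq_nonneg _
  have k1 : ‖aeval (um B n) Q (B.e n 0 l) - B.U^[d * B.M n] (B.e n 0 l)‖ ≤ η / 2 := by
    have h1 := (keep G n l hl hκ d Q hQ2 δ hQ hdeg hd).trans hbound
    exact (sq_le_sq₀ (norm_nonneg _) (by linarith)).1 h1
  have k2 : ‖aeval (um B n) Q (B.e n 0 (-(l : ℤ)))‖ ≤ η / 2 := by
    have h1 := killQ G n l hl hκ d Q hQ2 δ hQ hdeg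
    have h2 : 4 * (l : ℝ) ^ 2 * (2 * δ + 8 * flatErr (kap l) (G.L n)) ≤
        4 * (l : ℝ) ^ 2 * (2 * δ + 18 * flatErr (kap l) (G.L n)) := by
      refine mul_le_mul_of_nonneg_left ?_ (by positivity)
      linarith
    exact (sq_le_sq₀ (norm_nonneg _) (by linarith)).1 ((h1.trans h2).trans hbound)
  have s1 : B.e n 0 (l : ℤ) ∈ Submodule.span ℂ (Set.range fun jq : ℤ × ℤˣ =>
          (B.Ue ^ (jq.1 * (B.M n : ℤ))) (B.e n 0 ((jq.2 : ℤ) * (l : ℤ)))) :=
    Submodule.subset_span ⟨(0, 1), by simp⟩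
  have s2 : B.e n 0 (-(l : ℤ)) ∈ Submodule.span ℂ (Set.range fun jq : ℤ × ℤˣ =>
          (B.Ue ^ (jq.1 * (B.M n : ℤ))) (B.e n 0 ((jq.2 : ℤ) * (l : ℤ)))) :=
    Submodule.subset_span ⟨(0, -1), by simp⟩
  have hU : B.U^[d * B.M n] (B.e n 0 l) = (B.Ue ^ ((d : ℤ) * (B.M n : ℤ))) (B.e n 0 l) := by
    rw [← B.Ue_zpow_natCast_apply]
    push_cast
    rfl
  have hinv : ∀ x : B.H, (B.Ue ^ ((-(d : ℤ)) * (B.M n : ℤ)))
      ((B.Ue ^ ((d : ℤ) * (B.M n : ℤ))) x) = x := by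
    intro x
    change ((B.Ue ^ ((-(d : ℤ)) * (B.M n : ℤ))) * (B.Ue ^ ((d : ℤ) * (B.M n : ℤ)))) x = x
    rw [← zpow_add, ← add_mul, neg_add_cancel, zero_mul, zpow_zero]
    rfl
  refine ⟨(B.Ue ^ ((-(d : ℤ)) * (B.M n : ℤ))) (aeval (um B n) Q (B.e n 0 l) -
    B.U^[d * B.M n] (B.e n 0 l) + aeval (um B n) Q (B.e n 0 (-(l : ℤ)))), ?_, ?_, ?_⟩
  · refine zpow_span B n l _ _ (Submodule.add_mem _ (Submodule.sub_mem _ ?_ ?_) ?_)
    · exact aeval_span B n l Q _ s1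
    · rw [hU]
      exact zpow_span B n l _ _ s1
    · exact aeval_span B n l Q _ s2
  · rw [LinearIsometryEquiv.norm_map]
    refine (norm_add_le _ _).trans ?_
    linarith
  · have h1 : B.e n 0 l + (B.Ue ^ ((-(d : ℤ)) * (B.M n : ℤ))) (aeval (um B n) Q (B.e n 0 l) -
        B.U^[d * B.M n] (B.e n 0 l) + aeval (um B n) Q (B.e n 0 (-(l : ℤ)))) =
        (B.Ue ^ ((-(d : ℤ)) * (B.M n : ℤ))) (aeval (um B n) Q
          (B.e n 0 l + B.e n 0 (-(l : ℤ)))) := by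
      rw [map_add (aeval (um B n) Q), map_add, map_add, map_sub, hU, hinv]
      abel
    rw [h1]
    exact zpow_mem_Zc _ _ _ _ (aeval_um_mem B n Q _)

end P130
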