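import Mathlib
import Vale.Agent.Lib.P130.SimpA

/-!
# P130, simple spectrum: each `H_l` is approximately cyclic
-/

open MeasureTheory Filter Topology Polynomial
open scoped ENNReal ComplexConjugate

namespace P130

private theorem norm_sq_orth {H : Type*} [NormedAddCommGroup H] [InnerProductSpace ℂ H]
    (w : ℕ → H) (a : ℕ → ℂ) (s : Finset ℕ)
    (h : ∀ i ∈ s, ∀ j ∈ s, i ≠ j → (inner ℂ (w i) (w j) : ℂ) = 0) :
    ‖∑ i ∈ s, a i • w i‖ ^ 2 = ∑ i ∈ s, ‖a i‖ ^ 2 * ‖w i‖ ^ 2 := by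
  classical
  induction s using Finset.induction_on with
  | empty => simp
  | insert j s hj ih =>
    rw [Finset.sum_insert hj, Finset.sum_insert hj]
    have h1 : (inner ℂ (a j • w j) (∑ i ∈ s, a i • w i) : ℂ) = 0 := by
      rw [inner_sum]
      refine Finset.sum_eq_zero fun i hi => ?_
      rw [inner_smul_left, inner_smul_right, h j (Finset.mem_insert_self _ _) i
        (Finset.mem_insert_of_mem hi) (fun hji => hj (hji ▸ hi)), mul_zero, mul_zero]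
    have h2 := norm_add_sq_eq_norm_sq_add_norm_sq_of_inner_eq_zero _ _ h1
    have h3 := ih (fun i hi k hk hik => h i (Finset.mem_insert_of_mem hi) k
      (Finset.mem_insert_of_mem hk) hik)
    rw [pow_two, h2, ← pow_two ‖∑ i ∈ s, a i • w i‖, h3, norm_smul]
    ring

/-- `x = ∑ x_{i,±} U^i e n 0 (±l)`; approximate by
`∑ x_{i,+} U^i (e n 0 l + r) + x_{i,-} U^i (e n 0 (-l) - r)`, which is in the cyclic subspace of
`v = e n 0 l + e n 0 (-l)`; the error `∑ (x_{i,+} - x_{i,-}) U^i r` has norm at most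
`2 ‖r‖ ‖x‖` by orthogonality (`inner_levels`). -/
theorem approx_Hn {B : Blk} (n l : ℕ) (hl : 1 ≤ l) (r : B.H)
    (hr : r ∈ Submodule.span ℂ (Set.range fun jq : ℤ × ℤˣ =>
      (B.Ue ^ (jq.1 * (B.M n : ℤ))) (B.e n 0 ((jq.2 : ℤ) * (l : ℤ)))))
    (hv : B.e n 0 l + r ∈ Zc B.Ue (B.e n 0 l + B.e n 0 (-(l : ℤ)))) (x : B.H)
    (hx : x ∈ B.Hn n l) :
    ∃ q ∈ Zc B.Ue (B.e n 0 l + B.e n 0 (-(l : ℤ))), ‖x - q‖ ≤ 2 * ‖r‖ * ‖x‖ := by
  obtain ⟨c, hc⟩ : ∃ c : ℕ → ℂ, c = fun i => inner ℂ (B.e n i l) x := ⟨_, rfl⟩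
  obtain ⟨c', hc'⟩ : ∃ c' : ℕ → ℂ, c' = fun i => inner ℂ (B.e n i (-(l : ℤ))) x := ⟨_, rfl⟩
  have hne : (l : ℤ) ≠ -(l : ℤ) := by omega
  have hexp : x = ∑ i ∈ Finset.range (B.M n), (c i • B.e n i l + c' i • B.e n i (-(l : ℤ))) := by
    have h1 := B.expand n l x hx
    rw [hc, hc']
    refine h1.trans (Finset.sum_congr rfl fun i _ => ?_)
    rw [Finset.sum_pair hne]
  have hU : ∀ i < B.M n, ∀ k : ℤ, B.e n i k = (B.Ue ^ (i : ℤ)) (B.e n 0 k) := by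
    intro i hi k
    have h1 := B.iter_e n 0 i k (by omega)
    rw [B.Ue_zpow_natCast_apply, h1, zero_add]
  have hv' : B.e n 0 (-(l : ℤ)) - r ∈ Zc B.Ue (B.e n 0 l + B.e n 0 (-(l : ℤ))) := by
    have h1 : B.e n 0 (-(l : ℤ)) - r = (B.e n 0 l + B.e n 0 (-(l : ℤ))) - (B.e n 0 l + r) := by
      abel
    rw [h1]
    exact Submodule.sub_mem _ (self_mem_Zc _ _) hv
  refine ⟨∑ i ∈ Finset.range (B.M n), (c i • (B.Ue ^ (i : ℤ)) (B.e n 0 l + r) +
    c' i • (B.Ue ^ (i : ℤ)) (B.e n 0 (-(l : ℤ)) - r)), ?_, ?_⟩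
  · refine Submodule.sum_mem _ fun i _ => Submodule.add_mem _ ?_ ?_
    · exact Submodule.smul_mem _ _ (zpow_mem_Zc _ _ _ _ hv)
    · exact Submodule.smul_mem _ _ (zpow_mem_Zc _ _ _ _ hv')
  · have h1 : x - ∑ i ∈ Finset.range (B.M n), (c i • (B.Ue ^ (i : ℤ)) (B.e n 0 l + r) +
        c' i • (B.Ue ^ (i : ℤ)) (B.e n 0 (-(l : ℤ)) - r)) =
        ∑ i ∈ Finset.range (B.M n), (c' i - c i) • (B.Ue ^ (i : ℤ)) r := by
      conv_lhs => rw [hexp]
      rw [← Finset.sum_sub_distrib]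
      refine Finset.sum_congr rfl fun i hi => ?_
      rw [hU i (Finset.mem_range.1 hi), hU i (Finset.mem_range.1 hi), map_add, map_sub, smul_add,
        smul_sub, sub_smul]
      abel
    rw [h1]
    have h2 := norm_sq_orth (fun i => (B.Ue ^ (i : ℤ)) r) (fun i => c' i - c i)
      (Finset.range (B.M n)) (fun i hi j hj hij => B.inner_levels n i j l (Finset.mem_range.1 hi)
        (Finset.mem_range.1 hj) hij r r hr hr)
    simp only [LinearIsometryEquiv.norm_map] at h2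
    rw [← Finset.sum_mul] at h2
    have h3 : ∑ i ∈ Finset.range (B.M n), (‖c i‖ ^ 2 + ‖c' i‖ ^ 2) ≤ ‖x‖ ^ 2 := by
      have h4 := (B.orthonormal_e n).sum_inner_products_le x
        (s := Finset.univ ×ˢ ({(l : ℤ), -(l : ℤ)} : Finset ℤ))
      rw [Finset.sum_product] at h4
      rw [Finset.sum_range]
      refine le_trans (le_of_eq (Finset.sum_congr rfl fun i _ => ?_)) h4
      rw [Finset.sum_pair hne, hc, hc']
    have h5 : ∑ i ∈ Finset.range (B.M n), ‖c' i - c i‖ ^ 2 ≤ 2 * ‖x‖ ^ 2 := by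
      refine le_trans (Finset.sum_le_sum fun i _ => ?_)
        (le_trans (le_of_eq (Finset.mul_sum _ _ _).symm) (mul_le_mul_of_nonneg_left h3
          (by norm_num : (0 : ℝ) ≤ 2)))
      have h6 := norm_sub_le (c' i) (c i)
      nlinarith [norm_nonneg (c' i - c i), sq_nonneg (‖c' i‖ - ‖c i‖), norm_nonneg (c i),
        norm_nonneg (c' i)]
    have h7 : ‖∑ i ∈ Finset.range (B.M n), (c' i - c i) • (B.Ue ^ (i : ℤ)) r‖ ^ 2 ≤
        (2 * ‖r‖ * ‖x‖) ^ 2 := by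
      rw [h2]
      have h8 := mul_le_mul_of_nonneg_right h5 (sq_nonneg ‖r‖)
      have h9 : 0 ≤ ‖x‖ ^ 2 * ‖r‖ ^ 2 := by positivity
      nlinarith
    exact (sq_le_sq₀ (norm_nonneg _) (by positivity)).1 h7

/-- level `0` component -/
theorem Hn_zero_le (B : Blk) (n : ℕ) : B.Hn n 0 ≤ Zc B.Ue (B.e n 0 0) := by
  unfold Blk.Hn
  rw [Submodule.span_le]
  rintro f ⟨i, κ, hi, hκ, rfl⟩
  have h1 : κ = 0 := Int.natAbs_eq_zero.1 hκ
  have h2 := B.iter_e n 0 i 0 (by omega)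
  rw [h1, SetLike.mem_coe]
  rw [zero_add] at h2
  rw [← h2, ← B.Ue_zpow_natCast_apply]
  exact zpow_mem_Zc _ _ _ _ (self_mem_Zc _ _)

/-- summary: two vectors of `Hk l` are approximated from one cyclic subspace of a vector of
`Hk l` -/
theorem approx_pair {B : Blk} (G : Good B) (l n₀ : ℕ) (x y : B.H) (hx : x ∈ B.Hn n₀ l)
    (hy : y ∈ B.Hn n₀ l) (ε : ℝ) (hε : 0 < ε) :
    ∃ v ∈ B.Hk l, (∃ p ∈ Zc B.Ue v, ‖x - p‖ < ε) ∧ ∃ q ∈ Zc B.Ue v, ‖y - q‖ < ε := by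
  rcases Nat.eq_zero_or_pos l with hl | hl
  · subst hl
    refine ⟨B.e n₀ 0 0, B.Hn_le_Hk n₀ 0 (B.e_mem_Hn n₀ 0 0 (B.M_pos n₀)),
      ⟨x, Hn_zero_le B n₀ hx, ?_⟩, ⟨y, Hn_zero_le B n₀ hy, ?_⟩⟩
    · rw [sub_self, norm_zero]
      exact hε
    · rw [sub_self, norm_zero]
      exact hε
  · obtain ⟨η, hη⟩ : ∃ η : ℝ, η = ε / (4 * (‖x‖ + ‖y‖ + 1)) := ⟨_, rfl⟩
    have hx0 := norm_nonneg x
    have hy0 := norm_nonneg y
    have hη0 : 0 < η := by rw [hη]; positivity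
    obtain ⟨N, hN⟩ := exists_r G l hl η hη0
    obtain ⟨n, hn, hκ⟩ := G.hfreq (max l 2) (le_max_right _ _) (max N n₀)
    obtain ⟨r, hr, hrn, hrm⟩ := hN n ((le_max_left _ _).trans hn) hκ
    have hn₀ : n₀ ≤ n := (le_max_right _ _).trans hn
    have key : ∀ z : B.H, z ∈ B.Hn n₀ l → ‖z‖ ≤ ‖x‖ + ‖y‖ →
        ∃ p ∈ Zc B.Ue (B.e n 0 l + B.e n 0 (-(l : ℤ))), ‖z - p‖ < ε := by
      intro z hz hzn
      obtain ⟨q, hq, hzq⟩ := approx_Hn n l hl r hr hrm z (B.Hn_mono l hn₀ hz)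
      refine ⟨q, hq, hzq.trans_lt ?_⟩
      have h1 : 2 * ‖r‖ * ‖z‖ ≤ 2 * η * (‖x‖ + ‖y‖ + 1) := by
        refine mul_le_mul (by linarith) (by linarith) (norm_nonneg _) (by positivity)
      have h2 : 2 * η * (‖x‖ + ‖y‖ + 1) = ε / 2 := by
        rw [hη]
        field_simp
        ring
      linarith
    refine ⟨B.e n 0 l + B.e n 0 (-(l : ℤ)), ?_, key x hx (by linarith), key y hy (by linarith)⟩
    refine Submodule.add_mem _ ?_ ?_
    · have h1 := B.Hn_le_Hk n _ (B.e_mem_Hn n 0 l (B.M_pos n))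
      rwa [Int.natAbs_natCast] at h1
    · have h1 := B.Hn_le_Hk n _ (B.e_mem_Hn n 0 (-(l : ℤ)) (B.M_pos n))
      rwa [Int.natAbs_neg, Int.natAbs_natCast] at h1

end P130
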