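import Mathlib
import Vale.Agent.Lib.P130.UE

/-!
# P130, simple spectrum: inner products at a lag
-/

open MeasureTheory Filter Topology
open scoped ENNReal ComplexConjugate

namespace P130

namespace Blk

variable (B : Blk)

/-- `⟨e n 0 p, U^(M n) e n 0 q⟩` -/
noncomputable def RR (n : ℕ) (p q : ℤ) : ℂ := inner ℂ (B.e n 0 p) (B.U^[B.M n] (B.e n 0 q))

theorem norm_RR_le (n : ℕ) (p q : ℤ) : ‖B.RR n p q‖ ≤ 1 := by
  unfold RR
  refine (norm_inner_le_norm _ _).trans ?_
  rw [B.norm_iter]
  calc ‖B.e n 0 p‖ * ‖B.e n 0 q‖ ≤ 1 * 1 :=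
        mul_le_mul (B.norm_e_le _ _ _) (B.norm_e_le _ _ _) (norm_nonneg _) zero_le_one
    _ = 1 := one_mul _

/-- the iterates of `U` commute with finite sums -/
private theorem iter_sum_lag (h : ℕ) (s : Finset ℕ) (f : ℕ → B.H) :
    B.U^[h] (∑ j ∈ s, f j) = ∑ j ∈ s, B.U^[h] (f j) := by
  induction h with
  | zero => rfl
  | succ h ih =>
    rw [Function.iterate_succ_apply', ih, map_sum]
    refine Finset.sum_congr rfl fun j _ => ?_
    rw [Function.iterate_succ_apply']

/-- the inner products of the vectors of level `n + 1` at lag `q M_n`. -/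
private theorem inner_lag (n q i j : ℕ) (hq : q < B.m n) (hi : i < B.m n) (hj : j < B.m n)
    (p p' : ℤ) :
    (inner ℂ (B.e (n + 1) (i * B.M n) p) (B.U^[q * B.M n] (B.e (n + 1) (j * B.M n) p')) : ℂ) =
      (if i = j + q ∧ p = p' then 1 else 0) +
      (if i + B.m n = j + q then B.RR (n + 1) p p' else 0) := by
  have hM := B.M_pos n
  have hlt : ∀ a, a < B.m n → a * B.M n < B.M (n + 1) := by
    intro a ha
    rw [B.M_succ, mul_comm]
    exact Nat.mul_lt_mul_of_pos_left ha hM
  rcases lt_or_ge (j + q) (B.m n) with h | h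
  · have h1 : B.U^[q * B.M n] (B.e (n + 1) (j * B.M n) p') =
        B.e (n + 1) ((j + q) * B.M n) p' := by
      rw [B.iter_e (n + 1) (j * B.M n) (q * B.M n) p' (by rw [← add_mul]; exact hlt _ h),
        ← add_mul]
    rw [h1, B.inner_e (n + 1) _ _ _ _ (hlt i hi), if_neg (show ¬ i + B.m n = j + q by omega),
      add_zero]
    have h4 : (i * B.M n = (j + q) * B.M n ∧ p = p') ↔ (i = j + q ∧ p = p') :=
      ⟨fun h' => ⟨Nat.eq_of_mul_eq_mul_right hM h'.1, h'.2⟩, fun h' => ⟨by rw [h'.1], h'.2⟩⟩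
    by_cases h2 : i = j + q ∧ p = p'
    · rw [if_pos h2, if_pos (h4.2 h2)]
    · rw [if_neg h2, if_neg (fun h' => h2 (h4.1 h'))]
  · obtain ⟨r, hr⟩ : ∃ r, j + q = B.m n + r := ⟨j + q - B.m n, by omega⟩
    have hr1 : r < B.m n := by omega
    have h1 : B.U^[q * B.M n] (B.e (n + 1) (j * B.M n) p') =
        B.U^[1 * B.M (n + 1)] (B.e (n + 1) (r * B.M n) p') := by
      have e1 : B.e (n + 1) (j * B.M n) p' = B.U^[j * B.M n] (B.e (n + 1) 0 p') := by
        rw [B.iter_e (n + 1) 0 (j * B.M n) p' (by rw [zero_add]; exact hlt j hj), zero_add]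
      have e2 : B.e (n + 1) (r * B.M n) p' = B.U^[r * B.M n] (B.e (n + 1) 0 p') := by
        rw [B.iter_e (n + 1) 0 (r * B.M n) p' (by rw [zero_add]; exact hlt r hr1), zero_add]
      have e3 : q * B.M n + j * B.M n = 1 * B.M (n + 1) + r * B.M n := by
        rw [← add_mul, one_mul, B.M_succ, mul_comm (B.M n), ← add_mul, ← hr, add_comm]
      rw [e1, e2, ← Function.iterate_add_apply, ← Function.iterate_add_apply, e3]
    rw [h1, if_neg (show ¬ (i = j + q ∧ p = p') by omega), zero_add]
    by_cases h2 : i + B.m n = j + q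
    · have h3 : i = r := by omega
      subst h3
      rw [if_pos h2, B.inner_e_iter_eq (n + 1) 1 _ p p' (hlt i hi), one_mul]
      rfl
    · rw [if_neg h2]
      refine B.inner_e_iter_ne (n + 1) 1 _ _ p p' (hlt i hi) (hlt r hr1) ?_
      intro h3
      have := Nat.eq_of_mul_eq_mul_right hM h3
      omega

/-- The inner product at lag `q M_n`, from `e_refine` on both sides.
`U^(q M_n) e (n+1) (j M_n) κ` is `e (n+1) ((j+q) M_n) κ` if `j + q < m n` (`iter_e`) and
`U^(M (n+1)) e (n+1) ((j + q - m) M_n) κ` otherwise; then `inner_e`, `inner_e_iter_ne`,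
`inner_e_iter_eq` at level `n + 1`. -/
theorem lag_formula (n q : ℕ) (hq : q < B.m n) (k k' : ℤ) :
    (inner ℂ (B.e n 0 k) (B.U^[q * B.M n] (B.e n 0 k')) : ℂ) = ((B.m n : ℂ))⁻¹ *
      (∑ j ∈ Finset.range (B.m n - q),
        (if (B.s n (j + q) : ℤ) * k = (B.s n j : ℤ) * k' then
          conj (fourier k (B.a n (j + q)) : ℂ) * fourier k' (B.a n j) else 0) +
       ∑ j ∈ Finset.range q,
        conj (fourier k (B.a n j) : ℂ) * fourier k' (B.a n (j + (B.m n - q))) *
          B.RR (n + 1) ((B.s n j : ℤ) * k) ((B.s n (j + (B.m n - q)) : ℤ) * k')) := by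
  have hsq : ((Real.sqrt (B.m n) : ℂ)⁻¹) * ((Real.sqrt (B.m n) : ℂ)⁻¹) = ((B.m n : ℂ))⁻¹ := by
    rw [← mul_inv, ← Complex.ofReal_mul, Real.mul_self_sqrt (Nat.cast_nonneg _)]
    push_cast
    rfl
  have hconj : conj ((Real.sqrt (B.m n) : ℂ)⁻¹) = ((Real.sqrt (B.m n) : ℂ)⁻¹) := by
    rw [map_inv₀, Complex.conj_ofReal]
  rw [B.e_refine n 0 k (B.M_pos n), B.e_refine n 0 k' (B.M_pos n), B.iter_smul,
    B.iter_sum_lag, inner_smul_left, inner_smul_right, ← mul_assoc, hconj, hsq]
  congr 1
  simp only [add_zero]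
  have h1 : (inner ℂ (∑ i ∈ Finset.range (B.m n), (fourier k (B.a n i) : ℂ) •
        B.e (n + 1) (i * B.M n) ((B.s n i : ℤ) * k))
      (∑ j ∈ Finset.range (B.m n), B.U^[q * B.M n] ((fourier k' (B.a n j) : ℂ) •
        B.e (n + 1) (j * B.M n) ((B.s n j : ℤ) * k'))) : ℂ) =
      ∑ j ∈ Finset.range (B.m n), ∑ i ∈ Finset.range (B.m n),
        (conj (fourier k (B.a n i) : ℂ) * fourier k' (B.a n j)) *
        ((if i = j + q ∧ (B.s n i : ℤ) * k = (B.s n j : ℤ) * k' then 1 else 0) +
          (if i + B.m n = j + q then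
            B.RR (n + 1) ((B.s n i : ℤ) * k) ((B.s n j : ℤ) * k') else 0)) := by
    rw [inner_sum]
    refine Finset.sum_congr rfl fun j hj => ?_
    rw [sum_inner]
    refine Finset.sum_congr rfl fun i hi => ?_
    rw [B.iter_smul, inner_smul_left, inner_smul_right,
      B.inner_lag n q i j hq (Finset.mem_range.1 hi) (Finset.mem_range.1 hj)]
    ring
  rw [h1]
  simp only [mul_add, Finset.sum_add_distrib]
  congr 1
  · -- the part without wrapping
    have h2 : Finset.range (B.m n - q) ⊆ Finset.range (B.m n) := by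
      intro a ha
      rw [Finset.mem_range] at ha ⊢
      omega
    rw [← Finset.sum_subset h2]
    · refine Finset.sum_congr rfl fun j hj => ?_
      rw [Finset.mem_range] at hj
      rw [Finset.sum_eq_single (j + q)]
      · by_cases h3 : (B.s n (j + q) : ℤ) * k = (B.s n j : ℤ) * k'
        · rw [if_pos ⟨rfl, h3⟩, if_pos h3, mul_one]
        · rw [if_neg (fun h => h3 h.2), if_neg h3, mul_zero]
      · intro i _ hi
        rw [if_neg (fun h => hi h.1), mul_zero]
      · intro h3
        exact absurd (Finset.mem_range.2 (by omega)) h3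
    · intro j hj hj2
      rw [Finset.mem_range] at hj hj2
      refine Finset.sum_eq_zero fun i hi => ?_
      rw [Finset.mem_range] at hi
      rw [if_neg (fun h => by omega), mul_zero]
  · -- the wrapped part
    rw [Finset.sum_comm]
    have h2 : Finset.range q ⊆ Finset.range (B.m n) := by
      intro a ha
      rw [Finset.mem_range] at ha ⊢
      omega
    rw [← Finset.sum_subset h2]
    · refine Finset.sum_congr rfl fun i hi => ?_
      rw [Finset.mem_range] at hi
      rw [Finset.sum_eq_single (i + (B.m n - q))]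
      · rw [if_pos (by omega)]
      · intro j _ hj
        rw [if_neg (by omega), mul_zero]
      · intro h3
        exact absurd (Finset.mem_range.2 (by omega)) h3
    · intro i hi hi2
      rw [Finset.mem_range] at hi hi2
      refine Finset.sum_eq_zero fun j hj => ?_
      rw [Finset.mem_range] at hj
      rw [if_neg (by omega), mul_zero]

/-- `lag_formula` with `q = 1`: `s (j+1) = - s j` only for `j = κ L - 1`. -/
theorem norm_RR_neg_le {B : Blk} (G : Good B) (n : ℕ) (k : ℤ) (hk : k ≠ 0) :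
    ‖B.RR n k (-k)‖ ≤ 2 / B.m n := by
  have hm := B.hm n
  have h1 := B.lag_formula n 1 (by omega) k (-k)
  rw [one_mul] at h1
  have hf : ∀ (l : ℤ) (t : 𝕋), ‖(fourier l t : ℂ)‖ = 1 := fun l t => Circle.norm_coe _
  unfold RR
  rw [h1, norm_mul, norm_inv, Complex.norm_natCast, div_eq_inv_mul]
  refine mul_le_mul_of_nonneg_left ?_ (by positivity)
  refine (norm_add_le _ _).trans ?_
  have hKL : 0 < G.κ n * G.L n := Nat.mul_pos (by have := G.hκ n; omega) (G.hL n)
  have h2 : ‖∑ j ∈ Finset.range (B.m n - 1),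
      (if (B.s n (j + 1) : ℤ) * k = (B.s n j : ℤ) * (-k) then
        conj (fourier k (B.a n (j + 1)) : ℂ) * fourier (-k) (B.a n j) else 0)‖ ≤ 1 := by
    have h3 : ∀ j ∈ Finset.range (B.m n - 1), j ≠ G.κ n * G.L n - 1 →
        (if (B.s n (j + 1) : ℤ) * k = (B.s n j : ℤ) * (-k) then
          conj (fourier k (B.a n (j + 1)) : ℂ) * fourier (-k) (B.a n j) else 0) = 0 := by
      intro j hj hne
      rw [if_neg]
      intro h4
      have h5 : B.s n (j + 1) = B.s n j := by
        rw [G.hs, G.hs]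
        unfold chS
        by_cases h6 : j < G.κ n * G.L n
        · rw [if_pos h6, if_pos (by omega)]
        · rw [if_neg h6, if_neg (by omega)]
      rw [h5] at h4
      rcases Int.units_eq_one_or (B.s n j) with h7 | h7
      · rw [h7] at h4
        simp only [Units.val_one, one_mul] at h4
        omega
      · rw [h7] at h4
        simp only [Units.val_neg, Units.val_one, neg_mul, one_mul, neg_neg] at h4
        omega
    by_cases h4 : G.κ n * G.L n - 1 ∈ Finset.range (B.m n - 1)
    · rw [Finset.sum_eq_single_of_mem _ h4 h3]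
      split_ifs
      · rw [norm_mul, RCLike.norm_conj, hf, hf, one_mul]
      · rw [norm_zero]
        exact zero_le_one
    · rw [Finset.sum_eq_zero]
      · rw [norm_zero]
        exact zero_le_one
      · intro j hj
        exact h3 j hj (fun h => h4 (h ▸ hj))
  have h3 : ‖∑ j ∈ Finset.range 1,
        conj (fourier k (B.a n j) : ℂ) * fourier (-k) (B.a n (j + (B.m n - 1))) *
          B.RR (n + 1) ((B.s n j : ℤ) * k) ((B.s n (j + (B.m n - 1)) : ℤ) * (-k))‖ ≤ 1 := by
    rw [Finset.sum_range_one, norm_mul, norm_mul, RCLike.norm_conj, hf, hf, one_mul, one_mul]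
    exact B.norm_RR_le _ _ _
  linarith

end Blk

end P130
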