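import Mathlib
import Vale.Agent.Lib.P130.ChirpDefs

/-!
# P130, simple spectrum: quadratic sums
-/

open MeasureTheory Filter Topology
open scoped ENNReal ComplexConjugate

namespace P130

private theorem WeylB_sq (L : ℕ) (z : ℕ → ℂ) (hz : ∀ i, ‖z i‖ = 1) :
    ‖∑ i ∈ Finset.range L, z i‖ ^ 2 = L + 2 * (∑ d ∈ Finset.Ico 1 L,
      ∑ i ∈ Finset.range (L - d), z (i + d) * conj (z i)).re := by
  induction L with
  | zero => simp
  | succ L ih =>
    have h1 : ∑ d ∈ Finset.Ico 1 (L + 1), ∑ i ∈ Finset.range (L + 1 - d), z (i + d) * conj (z i) =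
        (∑ d ∈ Finset.Ico 1 L, ∑ i ∈ Finset.range (L - d), z (i + d) * conj (z i)) +
          z L * conj (∑ i ∈ Finset.range L, z i) := by
      have e1 : ∀ d ∈ Finset.Ico 1 (L + 1), ∑ i ∈ Finset.range (L + 1 - d), z (i + d) * conj (z i) =
          (∑ i ∈ Finset.range (L - d), z (i + d) * conj (z i)) + z L * conj (z (L - d)) := by
        intro d hd
        rw [Finset.mem_Ico] at hd
        have e2 : L + 1 - d = (L - d) + 1 := by omega
        rw [e2, Finset.sum_range_succ]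
        have e3 : L - d + d = L := by omega
        rw [e3]
      rw [Finset.sum_congr rfl e1, Finset.sum_add_distrib]
      have e4 : ∑ d ∈ Finset.Ico 1 (L + 1), ∑ i ∈ Finset.range (L - d), z (i + d) * conj (z i) =
          ∑ d ∈ Finset.Ico 1 L, ∑ i ∈ Finset.range (L - d), z (i + d) * conj (z i) := by
        rcases Nat.eq_zero_or_pos L with hL | hL
        · subst hL
          simp
        · rw [Finset.sum_Ico_succ_top (by omega : 1 ≤ L)]
          simp
      rw [e4, map_sum, Finset.mul_sum]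
      congr 1
      rw [← Finset.sum_range_reflect (fun i => z L * conj (z i)) L,
        Finset.sum_Ico_eq_sum_range]
      rw [Nat.add_sub_cancel]
      refine Finset.sum_congr rfl fun j hj => ?_
      have e5 : L - (1 + j) = L - 1 - j := by omega
      rw [e5]
    rw [h1, Finset.sum_range_succ, Complex.add_re]
    set S := ∑ i ∈ Finset.range L, z i with hS
    have e6 : ‖S + z L‖ ^ 2 = ‖S‖ ^ 2 + 1 + 2 * (z L * conj S).re := by
      have hzL : Complex.normSq (z L) = 1 := by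
        rw [Complex.normSq_eq_norm_sq, hz, one_pow]
      rw [← Complex.normSq_eq_norm_sq, ← Complex.normSq_eq_norm_sq, Complex.normSq_add, hzL]
      have e7 : (S * conj (z L)).re = (z L * conj S).re := by
        rw [Complex.mul_re, Complex.mul_re, Complex.conj_re, Complex.conj_im, Complex.conj_re,
          Complex.conj_im]
        ring
      rw [e7]
    rw [e6, ih]
    push_cast
    ring

/-- `|∑_{i < L} z_i|² ≤ L + 2 ∑_{0 < d < L} |∑_{i < L - d} z_{i+d} conj z_i|` for unimodular `z`. -/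
theorem norm_sq_sum_le (L : ℕ) (z : ℕ → ℂ) (hz : ∀ i, ‖z i‖ = 1) :
    ‖∑ i ∈ Finset.range L, z i‖ ^ 2 ≤ L + 2 * ∑ d ∈ Finset.Ico 1 L,
      ‖∑ i ∈ Finset.range (L - d), z (i + d) * conj (z i)‖ := by
  rw [WeylB_sq L z hz]
  have h := (Complex.re_le_norm (∑ d ∈ Finset.Ico 1 L,
    ∑ i ∈ Finset.range (L - d), z (i + d) * conj (z i))).trans (norm_sum_le _ _)
  linarith

private theorem WeylB_fourier (n : ℤ) (x : ℝ) :
    (fourier n (x : 𝕋) : ℂ) = Complex.exp (2 * Real.pi * Complex.I * n * x) := by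
  rw [fourier_coe_apply]
  simp

private theorem WeylB_norm (n : ℤ) (t : 𝕋) : ‖(fourier n t : ℂ)‖ = 1 := by
  rw [fourier_apply]
  exact Circle.norm_coe _

/-- geometric sums: `|∑_{i < N} e(i x)| ≤ 1/(2x) + 1/(2(1-x))` for `0 < x < 1`
(`|1 - e(x)| = 2 sin πx ≥ 4 min(x, 1-x)`). -/
theorem norm_geom_le_two (x : ℝ) (h0 : 0 < x) (h1 : x < 1) (N : ℕ) :
    ‖∑ i ∈ Finset.range N, (fourier (i : ℤ) (x : 𝕋) : ℂ)‖ ≤ 1 / (2 * x) + 1 / (2 * (1 - x)) := by
  set q : ℂ := Complex.exp (Complex.I * ((2 * Real.pi * x : ℝ) : ℂ)) with hq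
  have e1 : ∀ i : ℕ, (fourier (i : ℤ) (x : 𝕋) : ℂ) = q ^ i := by
    intro i
    rw [WeylB_fourier, hq, ← Complex.exp_nat_mul]
    congr 1
    push_cast
    ring
  have hpi := Real.pi_pos
  have hqn : ‖q‖ = 1 := by
    rw [hq, mul_comm, Complex.norm_exp_ofReal_mul_I]
  have hsin : 2 * min x (1 - x) ≤ Real.sin (Real.pi * x) := by
    rcases le_total x (1 - x) with h | h
    · rw [min_eq_left h]
      have h2 := Real.mul_le_sin (x := Real.pi * x) (by positivity) (by nlinarith)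
      have h3 : 2 / Real.pi * (Real.pi * x) = 2 * x := by field_simp
      linarith
    · rw [min_eq_right h]
      have h1' : 0 ≤ 1 - x := by linarith
      have h2 := Real.mul_le_sin (x := Real.pi * (1 - x)) (by positivity) (by nlinarith)
      have h3 : 2 / Real.pi * (Real.pi * (1 - x)) = 2 * (1 - x) := by field_simp
      have h4 : Real.sin (Real.pi * (1 - x)) = Real.sin (Real.pi * x) := by
        rw [mul_sub, mul_one, Real.sin_pi_sub]
      linarith
  have hm : 0 < min x (1 - x) := lt_min h0 (by linarith)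
  have hsub : ‖q - 1‖ = 2 * Real.sin (Real.pi * x) := by
    rw [hq, Complex.norm_exp_I_mul_ofReal_sub_one, Real.norm_eq_abs]
    have e2 : 2 * Real.pi * x / 2 = Real.pi * x := by ring
    rw [e2, abs_of_nonneg (by linarith)]
  have hq1 : q ≠ 1 := by
    intro h
    rw [h, sub_self, norm_zero] at hsub
    linarith
  simp only [e1]
  rw [geom_sum_eq hq1, norm_div, hsub]
  have h2 : ‖q ^ N - 1‖ ≤ 2 := by
    refine (norm_sub_le _ _).trans ?_
    rw [norm_pow, hqn, one_pow, norm_one]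
    norm_num
  have h3 : ‖q ^ N - 1‖ / (2 * Real.sin (Real.pi * x)) ≤ 2 / (2 * (2 * min x (1 - x))) := by
    gcongr
  refine h3.trans ?_
  have h1' : 0 < 1 - x := by linarith
  rcases le_total x (1 - x) with h | h
  · rw [min_eq_left h]
    have e3 : 2 / (2 * (2 * x)) = 1 / (2 * x) := by field_simp
    have e4 : 0 ≤ 1 / (2 * (1 - x)) := by positivity
    linarith
  · rw [min_eq_right h]
    have e3 : 2 / (2 * (2 * (1 - x))) = 1 / (2 * (1 - x)) := by field_simp
    have e4 : 0 ≤ 1 / (2 * x) := by positivity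
    linarith

private theorem WeylB_mod (κ L r i : ℕ) (hi : i < L) (hκ : 0 < κ) :
    (r * L + i) % (κ * L) / L = r % κ ∧ (r * L + i) % (κ * L) % L = i := by
  have hL : 0 < L := by omega
  have h1 : (r * L + i) % (κ * L) = (r % κ) * L + i := by
    have h2 : r * L + i = ((r % κ) * L + i) + (κ * L) * (r / κ) := by
      conv_lhs => rw [← Nat.mod_add_div r κ]
      ring
    rw [h2, Nat.add_mul_mod_self_left, Nat.mod_eq_of_lt]
    have h3 : r % κ < κ := Nat.mod_lt _ hκ
    calc (r % κ) * L + i < (r % κ) * L + L := by omega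
      _ = (r % κ + 1) * L := by ring
      _ ≤ κ * L := Nat.mul_le_mul_right _ h3
  rw [h1]
  constructor
  · rw [mul_comm, Nat.mul_add_div hL, Nat.div_eq_of_lt hi, add_zero]
  · rw [mul_comm, Nat.mul_add_mod, Nat.mod_eq_of_lt hi]

private theorem WeylB_chA (κ L r i : ℕ) (hi : i < L) (hκ : 0 < κ) :
    chA κ L (r * L + i) = ((((r % κ : ℕ) : ℝ) * (i : ℝ) / κ + (i : ℝ) ^ 2 / (4 * κ * L) : ℝ) : 𝕋) := by
  obtain ⟨h1, h2⟩ := WeylB_mod κ L r i hi hκ
  unfold chA
  rw [h1, h2]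

/-- the phases in two consecutive segments of the same half differ by `i / κ`. -/
theorem chA_seg (κ L r i : ℕ) (hκ : 2 ≤ κ) (hi : i < L) (hr : (r + 1) % κ ≠ 0) :
    chA κ L ((r + 1) * L + i) = chA κ L (r * L + i) + (((i : ℝ) / κ : ℝ) : 𝕋) := by
  rw [WeylB_chA κ L (r + 1) i hi (by omega), WeylB_chA κ L r i hi (by omega)]
  have h1 : (r + 1) % κ = r % κ + 1 := by
    have h2 : r % κ < κ := Nat.mod_lt _ (by omega)
    rcases Nat.lt_or_ge (r % κ + 1) κ with h3 | h3
    · rw [Nat.add_mod, Nat.mod_eq_of_lt (by omega : 1 < κ), Nat.mod_eq_of_lt h3]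
    · exfalso
      apply hr
      have h4 : r % κ + 1 = κ := by omega
      rw [Nat.add_mod, Nat.mod_eq_of_lt (by omega : 1 < κ), h4, Nat.mod_self]
  rw [h1, ← AddCircle.coe_add]
  congr 1
  push_cast
  ring

private theorem WeylB_phase (κ L i : ℕ) (hκ : 2 ≤ κ) (hi : i < L) :
    chA κ L i + chA κ L ((κ - 1) * L + i) =
      (((((κ : ℝ) - 1) * i / κ + (i : ℝ) ^ 2 / (2 * κ * L)) : ℝ) : 𝕋) := by
  have h1 := WeylB_chA κ L 0 i hi (by omega)
  have h2 := WeylB_chA κ L (κ - 1) i hi (by omega)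
  rw [zero_mul, zero_add, Nat.zero_mod] at h1
  rw [Nat.mod_eq_of_lt (by omega : κ - 1 < κ)] at h2
  rw [h1, h2, ← AddCircle.coe_add]
  congr 1
  have h3 : ((κ - 1 : ℕ) : ℝ) = (κ : ℝ) - 1 := by
    rw [Nat.cast_sub (by omega)]
    simp
  have hκ0 : (κ : ℝ) ≠ 0 := by
    have : (0 : ℝ) < κ := by exact_mod_cast (by omega : 0 < κ)
    exact this.ne'
  have hL0 : (L : ℝ) ≠ 0 := by
    have : (0 : ℝ) < L := by exact_mod_cast (by omega : 0 < L)
    exact this.ne'
  rw [h3]
  field_simp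
  push_cast
  ring

private theorem WeylB_diff (κ k L d i : ℕ) (hκ : 2 ≤ κ) (hi : i + d < L) :
    (fourier (k : ℤ) (chA κ L (i + d) + chA κ L ((κ - 1) * L + (i + d))) : ℂ) *
      conj (fourier (k : ℤ) (chA κ L i + chA κ L ((κ - 1) * L + i)) : ℂ) =
    (fourier (k : ℤ) (((((κ : ℝ) - 1) * d / κ + (d : ℝ) ^ 2 / (2 * κ * L)) : ℝ) : 𝕋) : ℂ) *
      (fourier (i : ℤ) (((k : ℝ) * d / (κ * L) : ℝ) : 𝕋) : ℂ) := by
  rw [WeylB_phase κ L (i + d) hκ hi, WeylB_phase κ L i hκ (by omega), WeylB_fourier,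
    WeylB_fourier, WeylB_fourier, WeylB_fourier, ← Complex.exp_conj, ← Complex.exp_add,
    ← Complex.exp_add]
  congr 1
  have hκ0 : (κ : ℂ) ≠ 0 := by
    have : 0 < κ := by omega
    exact_mod_cast this.ne'
  have hL0 : (L : ℂ) ≠ 0 := by
    have : 0 < L := by omega
    exact_mod_cast this.ne'
  simp only [map_mul, Complex.conj_I, Complex.conj_ofReal, map_ofNat, map_intCast]
  push_cast
  field_simp
  ring

private theorem WeylB_bound (κ k L : ℕ) (hκ : 2 ≤ κ) (hk : 1 ≤ k) (hkκ : k ≤ κ) (hL : 0 < L) :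
    ‖∑ i ∈ Finset.range L,
      (fourier (k : ℤ) (chA κ L i + chA κ L ((κ - 1) * L + i)) : ℂ)‖ ^ 2 ≤
    L + (κ + 1) * L * (1 + Real.log L) := by
  refine (norm_sq_sum_le L _ (fun i => WeylB_norm _ _)).trans ?_
  have hL0 : (0 : ℝ) < L := by exact_mod_cast hL
  have hκ0 : (0 : ℝ) < κ := by exact_mod_cast (by omega : 0 < κ)
  have hk0 : (1 : ℝ) ≤ k := by exact_mod_cast hk
  have hkκ' : (k : ℝ) ≤ κ := by exact_mod_cast hkκ
  have hd : ∀ d ∈ Finset.Ico 1 L, ‖∑ i ∈ Finset.range (L - d),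
      (fourier (k : ℤ) (chA κ L (i + d) + chA κ L ((κ - 1) * L + (i + d))) : ℂ) *
      conj (fourier (k : ℤ) (chA κ L i + chA κ L ((κ - 1) * L + i)) : ℂ)‖ ≤
      κ * L / 2 * (1 / (d : ℝ)) + L / 2 * (1 / ((L - d : ℕ) : ℝ)) := by
    intro d hd
    rw [Finset.mem_Ico] at hd
    have e1 : ∀ i ∈ Finset.range (L - d),
        (fourier (k : ℤ) (chA κ L (i + d) + chA κ L ((κ - 1) * L + (i + d))) : ℂ) *
        conj (fourier (k : ℤ) (chA κ L i + chA κ L ((κ - 1) * L + i)) : ℂ) =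
        (fourier (k : ℤ) (((((κ : ℝ) - 1) * d / κ + (d : ℝ) ^ 2 / (2 * κ * L)) : ℝ) : 𝕋) : ℂ) *
        (fourier (i : ℤ) (((k : ℝ) * d / (κ * L) : ℝ) : 𝕋) : ℂ) := by
      intro i hi
      rw [Finset.mem_range] at hi
      exact WeylB_diff κ k L d i hκ (by omega)
    rw [Finset.sum_congr rfl e1, ← Finset.mul_sum, norm_mul, WeylB_norm, one_mul]
    have hd0 : (0 : ℝ) < d := by exact_mod_cast (by omega : 0 < d)
    have hdL : (d : ℝ) < L := by exact_mod_cast hd.2
    have hsub : ((L - d : ℕ) : ℝ) = (L : ℝ) - d := by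
      rw [Nat.cast_sub (by omega)]
    set x : ℝ := (k : ℝ) * d / (κ * L) with hx
    have hx0 : 0 < x := by positivity
    have hxd : x ≤ d / L := by
      rw [hx, div_le_div_iff₀ (by positivity) hL0]
      calc (k : ℝ) * d * L ≤ κ * d * L := by gcongr
        _ = d * (κ * L) := by ring
    have hx1 : x < 1 := lt_of_le_of_lt hxd (by rw [div_lt_one hL0]; exact hdL)
    refine (norm_geom_le_two x hx0 hx1 (L - d)).trans ?_
    refine add_le_add ?_ ?_
    · rw [hx]
      have e2 : 1 / (2 * ((k : ℝ) * d / (κ * L))) = κ * L / 2 * (1 / (d : ℝ)) / k := by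
        field_simp
      rw [e2]
      exact div_le_self (by positivity) hk0
    · rw [hsub]
      have h1 : 1 - d / (L : ℝ) ≤ 1 - x := by linarith
      have h2 : 0 < 1 - d / (L : ℝ) := by
        have : d / (L : ℝ) < 1 := by rw [div_lt_one hL0]; exact hdL
        linarith
      calc 1 / (2 * (1 - x)) ≤ 1 / (2 * (1 - d / (L : ℝ))) := by gcongr
        _ = L / 2 * (1 / ((L : ℝ) - d)) := by
          have h3 : (L : ℝ) - d ≠ 0 := by
            have : (0 : ℝ) < L - d := by linarith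
            exact this.ne'
          have h4 : 1 - d / (L : ℝ) = (L - d) / L := by field_simp
          rw [h4]
          field_simp
  have hsum := Finset.sum_le_sum hd
  rw [Finset.sum_add_distrib, ← Finset.mul_sum, ← Finset.mul_sum] at hsum
  have hH : ∑ d ∈ Finset.Ico 1 L, (1 / (d : ℝ)) ≤ 1 + Real.log L := by
    have h1 := harmonic_le_one_add_log L
    have h2 : ∑ d ∈ Finset.Ico 1 L, (1 / (d : ℝ)) ≤ ((harmonic L : ℚ) : ℝ) := by
      unfold harmonic
      push_cast
      rw [Finset.sum_Ico_eq_sum_range]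
      refine (Finset.sum_le_sum_of_subset_of_nonneg (Finset.range_mono (Nat.sub_le L 1))
        (fun i _ _ => by positivity)).trans (le_of_eq ?_)
      refine Finset.sum_congr rfl fun i _ => ?_
      push_cast
      rw [one_div, add_comm]
    exact h2.trans h1
  have hrefl : ∑ d ∈ Finset.Ico 1 L, (1 / ((L - d : ℕ) : ℝ)) =
      ∑ d ∈ Finset.Ico 1 L, (1 / (d : ℝ)) := by
    have h1 := Finset.sum_Ico_reflect (fun d : ℕ => (1 / (d : ℝ))) 1 (m := L) (n := L) (by omega)
    rw [h1]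
    have e1 : L + 1 - L = 1 := by omega
    have e2 : L + 1 - 1 = L := by omega
    rw [e1, e2]
  rw [hrefl] at hsum
  have h5 : (κ : ℝ) * L / 2 * (∑ d ∈ Finset.Ico 1 L, (1 / (d : ℝ))) +
      L / 2 * (∑ d ∈ Finset.Ico 1 L, (1 / (d : ℝ))) ≤
      ((κ : ℝ) * L / 2 + L / 2) * (1 + Real.log L) := by
    rw [← add_mul]
    gcongr
  calc (L : ℝ) + 2 * _ ≤ L + 2 * (((κ : ℝ) * L / 2 + L / 2) * (1 + Real.log L)) := by
        gcongr
        exact hsum.trans h5
    _ = L + (κ + 1) * L * (1 + Real.log L) := by ring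

/-- The quadratic sum: for `i < L` the phase is
`k (chA κ L i + chA κ L ((κ-1) L + i)) = k (κ-1) i / κ + k i² / (2 κ L)`.  Differencing
(`norm_sq_sum_le`): at distance `d` the sum is geometric with ratio `e(x)`, `x = k d / (κ L)`,
`0 < x ≤ d / L < 1`, so (`norm_geom_le_two`) it is at most `κ L / (2 k d) + L / (2 (L - d))`.
Hence `|.|² ≤ L + (κ + 1) L (1 + log L)`. -/
theorem Wsum_tendsto (κ k : ℕ) (hκ : 2 ≤ κ) (hk : 1 ≤ k) (hkκ : k ≤ κ) :
    Tendsto (fun L : ℕ => ‖∑ i ∈ Finset.range L,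
      (fourier (k : ℤ) (chA κ L i + chA κ L ((κ - 1) * L + i)) : ℂ)‖ / L) atTop (𝓝 0) := by
  have hlog : Tendsto (fun L : ℕ => Real.log L / L) atTop (𝓝 0) := by
    have h1 := Real.isLittleO_log_id_atTop.tendsto_div_nhds_zero
    exact h1.comp tendsto_natCast_atTop_atTop
  have hinv : Tendsto (fun L : ℕ => 1 / (L : ℝ)) atTop (𝓝 0) := tendsto_one_div_atTop_nhds_zero_nat
  have hg : Tendsto (fun L : ℕ => Real.sqrt (((κ : ℝ) + 2) * (1 / (L : ℝ)) +
      ((κ : ℝ) + 1) * (Real.log L / L))) atTop (𝓝 0) := by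
    have h1 := (hinv.const_mul ((κ : ℝ) + 2)).add (hlog.const_mul ((κ : ℝ) + 1))
    rw [mul_zero, mul_zero, add_zero] at h1
    have h2 := (Real.continuous_sqrt.tendsto 0).comp h1
    rw [Real.sqrt_zero] at h2
    exact h2
  refine squeeze_zero' (Eventually.of_forall fun L => by positivity) ?_ hg
  filter_upwards [eventually_gt_atTop 0] with L hL
  have hL0 : (0 : ℝ) < L := by exact_mod_cast hL
  apply Real.le_sqrt_of_sq_le
  rw [div_pow, div_le_iff₀ (by positivity)]
  refine (WeylB_bound κ k L hκ hk hkκ hL).trans (le_of_eq ?_)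
  field_simp
  ring

/-- geometric sum with ratio a nontrivial root of unity -/
theorem root_sum_tendsto (κ k : ℕ) (hk : 1 ≤ k) (hkκ : k < κ) :
    Tendsto (fun L : ℕ => ‖∑ i ∈ Finset.range L,
      (fourier (k : ℤ) (((i : ℝ) / κ : ℝ) : 𝕋) : ℂ)‖ / L) atTop (𝓝 0) := by
  have hκ0 : (0 : ℝ) < κ := by exact_mod_cast (by omega : 0 < κ)
  have hk0 : (0 : ℝ) < k := by exact_mod_cast (by omega : 0 < k)
  have hkκ' : (k : ℝ) < κ := by exact_mod_cast hkκ
  set x : ℝ := (k : ℝ) / κ with hx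
  have hx0 : 0 < x := by positivity
  have hx1 : x < 1 := by rw [hx, div_lt_one hκ0]; exact hkκ'
  have e1 : ∀ i : ℕ, (fourier (k : ℤ) (((i : ℝ) / κ : ℝ) : 𝕋) : ℂ) =
      (fourier (i : ℤ) (x : 𝕋) : ℂ) := by
    intro i
    rw [WeylB_fourier, WeylB_fourier, hx]
    congr 1
    push_cast
    ring
  simp only [e1]
  have hinv : Tendsto (fun L : ℕ => (1 / (2 * x) + 1 / (2 * (1 - x))) * (1 / (L : ℝ)))
      atTop (𝓝 0) := by
    have h := tendsto_one_div_atTop_nhds_zero_nat (𝕜 := ℝ).const_mul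
      (1 / (2 * x) + 1 / (2 * (1 - x)))
    rw [mul_zero] at h
    exact h
  refine squeeze_zero (fun L => by positivity) (fun L => ?_) hinv
  rw [div_eq_mul_one_div]
  gcongr
  exact norm_geom_le_two x hx0 hx1 L

end P130
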