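import Mathlib
import Vale.Agent.Lib.P130.LagF
import Vale.Agent.Lib.P130.WeylB

/-!
# P130, simple spectrum: the inner products at lag `L M_n` for blocks of type `κ`
-/

open MeasureTheory Filter Topology
open scoped ENNReal ComplexConjugate

namespace P130

/-- the inner product at lag `L_n M_n` -/
noncomputable def DD {B : Blk} (G : Good B) (n : ℕ) (k k' : ℤ) : ℂ :=
  inner ℂ (B.e n 0 k) (B.U^[G.L n * B.M n] (B.e n 0 k'))

private theorem LagC_seg (f : ℕ → ℂ) (R L : ℕ) :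
    ∑ j ∈ Finset.range (R * L), f j =
      ∑ r ∈ Finset.range R, ∑ i ∈ Finset.range L, f (r * L + i) := by
  induction R with
  | zero => simp
  | succ R ih => rw [Nat.succ_mul, Finset.sum_range_add, ih, Finset.sum_range_succ]

private theorem LagC_norm_fourier (k : ℤ) (t : 𝕋) : ‖(fourier k t : ℂ)‖ = 1 := by
  rw [fourier_apply]
  exact Circle.norm_coe _

private theorem LagC_fourier_add (k : ℤ) (s t : 𝕋) :
    (fourier k (s + t) : ℂ) = fourier k s * fourier k t := by
  rw [fourier_apply, fourier_apply, fourier_apply, smul_add, AddCircle.toCircle_add,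
    Circle.coe_mul]

private theorem LagC_conj_mul_self (k : ℤ) (t : 𝕋) :
    conj (fourier k t : ℂ) * fourier k t = 1 := by
  rw [mul_comm, Complex.mul_conj, Complex.normSq_eq_norm_sq, LagC_norm_fourier]
  simp

private theorem LagC_natAbs (k : ℤ) (L : ℕ) (x : ℕ → 𝕋) :
    ‖∑ i ∈ Finset.range L, conj (fourier k (x i) : ℂ)‖ =
      ‖∑ i ∈ Finset.range L, (fourier (k.natAbs : ℤ) (x i) : ℂ)‖ := by
  rcases Int.natAbs_eq k with h | h
  · have e : ∑ i ∈ Finset.range L, conj (fourier k (x i) : ℂ) =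
        conj (∑ i ∈ Finset.range L, (fourier k (x i) : ℂ)) := by
      rw [map_sum]
    rw [e, RCLike.norm_conj, ← h]
  · have e : ∀ i, conj (fourier k (x i) : ℂ) = (fourier (k.natAbs : ℤ) (x i) : ℂ) := by
      intro i
      conv_lhs => rw [h]
      rw [fourier_neg, Complex.conj_conj]
    simp only [e]

private theorem LagC_chA_add (κ L j : ℕ) : chA κ L (κ * L + j) = chA κ L j := by
  unfold chA
  rw [Nat.add_mod_left]

private theorem LagC_chS_lt {κ L r i : ℕ} (hi : i < L) (hr : r < κ) :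
    chS κ L (r * L + i) = 1 := by
  unfold chS
  rw [if_pos]
  calc r * L + i < r * L + L := by omega
    _ = (r + 1) * L := by ring
    _ ≤ κ * L := Nat.mul_le_mul_right L hr

private theorem LagC_chS_ge {κ L r i : ℕ} (hr : κ ≤ r) :
    chS κ L (r * L + i) = -1 := by
  unfold chS
  rw [if_neg]
  have : κ * L ≤ r * L := Nat.mul_le_mul_right L hr
  omega

private theorem LagC_formula {B : Blk} (G : Good B) (n : ℕ) (k k' : ℤ) :
    DD G n k k' = ((B.m n : ℂ))⁻¹ *
      (∑ r ∈ Finset.range (2 * G.κ n - 1), ∑ i ∈ Finset.range (G.L n),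
        (if (chS (G.κ n) (G.L n) ((r + 1) * G.L n + i) : ℤ) * k =
            (chS (G.κ n) (G.L n) (r * G.L n + i) : ℤ) * k' then
          conj (fourier k (chA (G.κ n) (G.L n) ((r + 1) * G.L n + i)) : ℂ) *
            fourier k' (chA (G.κ n) (G.L n) (r * G.L n + i)) else 0) +
       (∑ i ∈ Finset.range (G.L n), conj (fourier k (chA (G.κ n) (G.L n) i) : ℂ) *
        fourier k' (chA (G.κ n) (G.L n) ((G.κ n - 1) * G.L n + i))) *
          B.RR (n + 1) k (-k')) := by
  have hκ := G.hκ n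
  have hL := G.hL n
  have hm := G.hm n
  set κ := G.κ n with hκdef
  set L := G.L n with hLdef
  have hκL : L < 2 * κ * L := by
    have : 2 * L ≤ κ * L := Nat.mul_le_mul_right L hκ
    nlinarith
  have hmL : B.m n - L = (2 * κ - 1) * L := by
    rw [hm, Nat.sub_mul, one_mul]
  have hf := B.lag_formula n L (by rw [hm]; exact hκL) k k'
  have hDD : DD G n k k' = (inner ℂ (B.e n 0 k) (B.U^[L * B.M n] (B.e n 0 k')) : ℂ) := rfl
  rw [hDD, hf, hmL, LagC_seg]
  congr 1
  congr 1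
  · refine Finset.sum_congr rfl fun r _ => Finset.sum_congr rfl fun i _ => ?_
    have e : r * L + i + L = (r + 1) * L + i := by ring
    rw [e, G.hs, G.hs, G.ha, G.ha]
  · rw [Finset.sum_mul]
    refine Finset.sum_congr rfl fun i hi => ?_
    rw [Finset.mem_range] at hi
    have e : i + (2 * κ - 1) * L = κ * L + ((κ - 1) * L + i) := by
      have h1 : 2 * κ - 1 = κ + (κ - 1) := by omega
      rw [h1, Nat.add_mul]
      ring
    have e2 : i + (2 * κ - 1) * L = (2 * κ - 1) * L + i := by ring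
    have s1 : B.s n i = 1 := by
      rw [G.hs]
      have := LagC_chS_lt (κ := κ) (L := L) (r := 0) (i := i) hi (by omega)
      simpa using this
    have s2 : B.s n (i + (2 * κ - 1) * L) = -1 := by
      rw [G.hs, e2]
      exact LagC_chS_ge (by omega)
    rw [s1, s2, G.ha, G.ha, ← hκdef, ← hLdef, e, LagC_chA_add]
    simp

private theorem LagC_inner_same (κ L r : ℕ) (k : ℤ) (hκ : 2 ≤ κ) (hk : k ≠ 0)
    (hr : r < 2 * κ - 1) :
    ∑ i ∈ Finset.range L,
        (if (chS κ L ((r + 1) * L + i) : ℤ) * k = (chS κ L (r * L + i) : ℤ) * k then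
          conj (fourier k (chA κ L ((r + 1) * L + i)) : ℂ) *
            fourier k (chA κ L (r * L + i)) else 0) =
      if r = κ - 1 then 0 else
        ∑ i ∈ Finset.range L, conj (fourier k ((((i : ℝ) / κ : ℝ)) : 𝕋) : ℂ) := by
  split_ifs with h
  · refine Finset.sum_eq_zero fun i hi => ?_
    rw [Finset.mem_range] at hi
    rw [if_neg]
    rw [LagC_chS_ge (κ := κ) (L := L) (r := r + 1) (i := i) (by omega),
      LagC_chS_lt (κ := κ) (L := L) (r := r) (i := i) hi (by omega)]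
    intro h2
    apply hk
    simp only [Units.val_neg, Units.val_one, neg_mul, one_mul] at h2
    omega
  · refine Finset.sum_congr rfl fun i hi => ?_
    rw [Finset.mem_range] at hi
    have hs : chS κ L ((r + 1) * L + i) = chS κ L (r * L + i) := by
      by_cases h1 : r < κ - 1
      · rw [LagC_chS_lt hi (by omega), LagC_chS_lt hi (by omega)]
      · rw [LagC_chS_ge (by omega), LagC_chS_ge (by omega)]
    rw [hs, if_pos rfl]
    have hmod : (r + 1) % κ ≠ 0 := by
      by_cases h1 : r + 1 < κ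
      · rw [Nat.mod_eq_of_lt h1]
        omega
      · have h2 : r + 1 = κ + (r + 1 - κ) := by omega
        rw [h2, Nat.add_mod_left, Nat.mod_eq_of_lt (by omega)]
        omega
    rw [chA_seg κ L r i hκ hi hmod, LagC_fourier_add, map_mul]
    have := LagC_conj_mul_self k (chA κ L (r * L + i))
    calc conj (fourier k (chA κ L (r * L + i)) : ℂ) * conj (fourier k ((((i : ℝ) / κ : ℝ)) : 𝕋) : ℂ)
          * fourier k (chA κ L (r * L + i))
        = (conj (fourier k (chA κ L (r * L + i)) : ℂ) * fourier k (chA κ L (r * L + i))) *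
          conj (fourier k ((((i : ℝ) / κ : ℝ)) : 𝕋) : ℂ) := by ring
      _ = _ := by rw [this, one_mul]

private theorem LagC_inner_neg (κ L r : ℕ) (k : ℤ) (hκ : 2 ≤ κ) (hk : k ≠ 0)
    (hr : r < 2 * κ - 1) :
    ∑ i ∈ Finset.range L,
        (if (chS κ L ((r + 1) * L + i) : ℤ) * k = (chS κ L (r * L + i) : ℤ) * (-k) then
          conj (fourier k (chA κ L ((r + 1) * L + i)) : ℂ) *
            fourier (-k) (chA κ L (r * L + i)) else 0) =
      if r = κ - 1 then
        ∑ i ∈ Finset.range L, conj (fourier k (chA κ L i + chA κ L ((κ - 1) * L + i)) : ℂ)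
      else 0 := by
  split_ifs with h
  · refine Finset.sum_congr rfl fun i hi => ?_
    rw [Finset.mem_range] at hi
    have hr1 : r + 1 = κ := by omega
    rw [if_pos]
    · rw [hr1, LagC_chA_add, h, fourier_neg, LagC_fourier_add, map_mul]
    · rw [LagC_chS_ge (κ := κ) (L := L) (r := r + 1) (i := i) (by omega),
        LagC_chS_lt (κ := κ) (L := L) (r := r) (i := i) hi (by omega)]
      simp
  · refine Finset.sum_eq_zero fun i hi => ?_
    rw [Finset.mem_range] at hi
    rw [if_neg]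
    by_cases h1 : r < κ - 1
    · rw [LagC_chS_lt hi (by omega), LagC_chS_lt hi (by omega)]
      intro h2
      apply hk
      simp only [Units.val_one, one_mul] at h2
      omega
    · rw [LagC_chS_ge (by omega), LagC_chS_ge (by omega)]
      intro h2
      apply hk
      simp only [Units.val_neg, Units.val_one, neg_mul, one_mul] at h2
      omega

/-- cross terms tend to `0` along the levels of type `κ`, for `1 ≤ |k| ≤ κ`.
`lag_formula` with `q = L`, `k' = -k`: the first sum has only `j ∈ [(κ-1)L, κL)` (opposite signs),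
and is (up to conjugation) the sum of `Wsum_tendsto`; the second sum is `RR (n+1) k k` (all signs
are `1` for `j < L` and `-1` for `j + m - L`) times the same sum. -/
theorem DD_neg {B : Blk} (G : Good B) (κ : ℕ) (hκ : 2 ≤ κ) (k : ℤ) (hk : k ≠ 0)
    (hkκ : k.natAbs ≤ κ) (ε : ℝ) (hε : 0 < ε) :
    ∃ N, ∀ n ≥ N, G.κ n = κ → ‖DD G n k (-k)‖ < ε := by
  have hW := Wsum_tendsto κ k.natAbs hκ (Int.natAbs_pos.2 hk) hkκ
  rw [Metric.tendsto_atTop] at hW
  obtain ⟨N, hN⟩ := hW ε hε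
  refine ⟨N, fun n hn hκn => ?_⟩
  have hLn : N ≤ G.L n := hn.le.trans (G.hLn n)
  have h1 := hN (G.L n) hLn
  rw [dist_zero_right, Real.norm_of_nonneg (by positivity)] at h1
  have hL : 0 < (G.L n : ℝ) := by exact_mod_cast G.hL n
  have hf := LagC_formula G n k (-k)
  rw [hκn] at hf
  set L := G.L n with hLdef
  set W : ℂ := ∑ i ∈ Finset.range L, conj (fourier k (chA κ L i + chA κ L ((κ - 1) * L + i)) : ℂ)
    with hWdef
  have hWn : ‖W‖ = ‖∑ i ∈ Finset.range L,
      (fourier (k.natAbs : ℤ) (chA κ L i + chA κ L ((κ - 1) * L + i)) : ℂ)‖ :=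
    LagC_natAbs k L fun i => chA κ L i + chA κ L ((κ - 1) * L + i)
  rw [← hWn] at h1
  have e1 : ∑ r ∈ Finset.range (2 * κ - 1), ∑ i ∈ Finset.range L,
        (if (chS κ L ((r + 1) * L + i) : ℤ) * k = (chS κ L (r * L + i) : ℤ) * (-k) then
          conj (fourier k (chA κ L ((r + 1) * L + i)) : ℂ) *
            fourier (-k) (chA κ L (r * L + i)) else 0) = W := by
    rw [Finset.sum_congr rfl fun r hr =>
      LagC_inner_neg κ L r k hκ hk (Finset.mem_range.1 hr)]
    rw [Finset.sum_ite_eq' (Finset.range (2 * κ - 1)) (κ - 1), if_pos]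
    exact Finset.mem_range.2 (by omega)
  have e2 : ∑ i ∈ Finset.range L, conj (fourier k (chA κ L i) : ℂ) *
        fourier (-k) (chA κ L ((κ - 1) * L + i)) = W := by
    refine Finset.sum_congr rfl fun i _ => ?_
    rw [fourier_neg, LagC_fourier_add, map_mul]
  rw [e1, e2, G.hm n, hκn, ← hLdef] at hf
  rw [hf, norm_mul, norm_inv]
  have h2 : ‖W + W * B.RR (n + 1) k (- -k)‖ ≤ 2 * ‖W‖ := by
    refine (norm_add_le _ _).trans ?_
    rw [norm_mul]
    have := B.norm_RR_le (n + 1) k (- -k)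
    nlinarith [norm_nonneg W]
  have h3 : ‖((2 * κ * L : ℕ) : ℂ)‖ = 2 * κ * L := by
    rw [Complex.norm_natCast]
    push_cast
    ring
  rw [h3]
  have hκ' : (2 : ℝ) ≤ κ := by exact_mod_cast hκ
  calc (2 * (κ : ℝ) * L)⁻¹ * ‖W + W * B.RR (n + 1) k (- -k)‖
      ≤ (2 * (κ : ℝ) * L)⁻¹ * (2 * ‖W‖) := by gcongr
    _ = ‖W‖ / L / κ := by field_simp
    _ ≤ ‖W‖ / L := div_le_self (by positivity) (by linarith)
    _ < ε := h1

private theorem LagC_same {B : Blk} (G : Good B) (n : ℕ) (k : ℤ) (hk : k ≠ 0) :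
    ‖DD G n k k - (2 * (G.κ n : ℂ) * G.L n)⁻¹ * ((2 * (G.κ n : ℂ) - 2) *
      ∑ i ∈ Finset.range (G.L n), conj (fourier k ((((i : ℝ) / G.κ n : ℝ)) : 𝕋) : ℂ))‖ ≤
      1 / ((n : ℝ) + 1) := by
  have hκ := G.hκ n
  have hL := G.hL n
  have hf := LagC_formula G n k k
  set κ := G.κ n with hκdef
  set L := G.L n with hLdef
  set S : ℂ := ∑ i ∈ Finset.range L, conj (fourier k ((((i : ℝ) / κ : ℝ)) : 𝕋) : ℂ) with hS
  have e1 : ∑ r ∈ Finset.range (2 * κ - 1), ∑ i ∈ Finset.range L,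
        (if (chS κ L ((r + 1) * L + i) : ℤ) * k = (chS κ L (r * L + i) : ℤ) * k then
          conj (fourier k (chA κ L ((r + 1) * L + i)) : ℂ) *
            fourier k (chA κ L (r * L + i)) else 0) = (2 * (κ : ℂ) - 2) * S := by
    rw [Finset.sum_congr rfl fun r hr =>
      LagC_inner_same κ L r k hκ hk (Finset.mem_range.1 hr)]
    have e3 : ∀ r, (if r = κ - 1 then (0 : ℂ) else S) = S - (if r = κ - 1 then S else 0) := by
      intro r
      split_ifs <;> simp
    rw [Finset.sum_congr rfl fun r _ => e3 r, Finset.sum_sub_distrib, Finset.sum_const,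
      Finset.card_range, Finset.sum_ite_eq' (Finset.range (2 * κ - 1)) (κ - 1), if_pos
      (Finset.mem_range.2 (by omega)), nsmul_eq_mul, Nat.cast_sub (by omega)]
    push_cast
    ring
  rw [e1, G.hm n, ← hκdef, ← hLdef] at hf
  set V : ℂ := ∑ i ∈ Finset.range L, conj (fourier k (chA κ L i) : ℂ) *
        fourier k (chA κ L ((κ - 1) * L + i)) with hV
  have hVn : ‖V‖ ≤ L := by
    refine (norm_sum_le _ _).trans ?_
    have : ∀ i ∈ Finset.range L, ‖conj (fourier k (chA κ L i) : ℂ) *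
        fourier k (chA κ L ((κ - 1) * L + i))‖ ≤ 1 := fun i _ => by
      rw [norm_mul, RCLike.norm_conj, LagC_norm_fourier, LagC_norm_fourier, mul_one]
    refine (Finset.sum_le_sum this).trans ?_
    simp
  have e4 : DD G n k k - (2 * (κ : ℂ) * L)⁻¹ * ((2 * (κ : ℂ) - 2) * S) =
      (2 * (κ : ℂ) * L)⁻¹ * (V * B.RR (n + 1) k (-k)) := by
    rw [hf]
    push_cast
    ring
  rw [e4, norm_mul, norm_mul]
  have hRR := Blk.norm_RR_neg_le G (n + 1) k hk
  have hL0 : (0 : ℝ) < L := by exact_mod_cast hL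
  have hκ' : (2 : ℝ) ≤ κ := by exact_mod_cast hκ
  have h3 : ‖(2 * (κ : ℂ) * L)⁻¹‖ = (2 * (κ : ℝ) * L)⁻¹ := by
    rw [norm_inv, norm_mul, norm_mul, Complex.norm_natCast, Complex.norm_natCast]
    simp
  have hm1 : (n : ℝ) + 1 ≤ B.m (n + 1) := by
    have h5 : n + 1 ≤ G.L (n + 1) := G.hLn (n + 1)
    have h6 := G.hκ (n + 1)
    have h7 : n + 1 ≤ B.m (n + 1) := by
      rw [G.hm (n + 1)]
      nlinarith
    exact_mod_cast h7
  have hn0 : (0 : ℝ) < (n : ℝ) + 1 := by positivity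
  rw [h3]
  calc (2 * (κ : ℝ) * L)⁻¹ * (‖V‖ * ‖B.RR (n + 1) k (-k)‖)
      ≤ (2 * (κ : ℝ) * L)⁻¹ * (L * (2 / B.m (n + 1))) := by
        gcongr
    _ = 1 / κ * (1 / B.m (n + 1)) := by
        field_simp
    _ ≤ 1 * (1 / ((n : ℝ) + 1)) := by
        apply mul_le_mul _ _ (by positivity) zero_le_one
        · rw [div_le_one (by linarith)]
          linarith
        · exact one_div_le_one_div_of_le hn0 hm1
    _ = 1 / ((n : ℝ) + 1) := one_mul _

/-- diagonal terms, `|k| < κ`: `lag_formula` with `q = L`, `k' = k`.  First sum: `j` and `j + L` in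
the same half, phase difference `i / κ` (`chA_seg`), `root_sum_tendsto`.  Second sum: at most
`L` terms with `|RR (n+1) (±k) (∓k)| ≤ 2 / m (n+1)` (`norm_RR_neg_le`), and `m (n+1) ≥ n`. -/
theorem DD_lt {B : Blk} (G : Good B) (κ : ℕ) (hκ : 2 ≤ κ) (k : ℤ) (hk : k ≠ 0)
    (hkκ : k.natAbs < κ) (ε : ℝ) (hε : 0 < ε) :
    ∃ N, ∀ n ≥ N, G.κ n = κ → ‖DD G n k k‖ < ε := by
  have hW := root_sum_tendsto κ k.natAbs (Int.natAbs_pos.2 hk) hkκ
  rw [Metric.tendsto_atTop] at hW
  obtain ⟨N, hN⟩ := hW (ε / 2) (half_pos hε)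
  obtain ⟨N2, hN2⟩ := exists_nat_one_div_lt (half_pos hε)
  refine ⟨max N N2, fun n hn hκn => ?_⟩
  have hn1 : N ≤ n := (le_max_left _ _).trans hn
  have hn2 : N2 ≤ n := (le_max_right _ _).trans hn
  have h1 := hN (G.L n) (hn1.trans (G.hLn n))
  rw [dist_zero_right, Real.norm_of_nonneg (by positivity)] at h1
  have hL : 0 < (G.L n : ℝ) := by exact_mod_cast G.hL n
  have h2 := LagC_same G n k hk
  rw [hκn] at h2
  set L := G.L n with hLdef
  have hSn := LagC_natAbs k L fun i => (((i : ℝ) / κ : ℝ) : 𝕋)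
  set S : ℂ := ∑ i ∈ Finset.range L, conj (fourier k ((((i : ℝ) / κ : ℝ)) : 𝕋) : ℂ) with hS
  rw [← hSn] at h1
  have hκ' : (2 : ℝ) ≤ κ := by exact_mod_cast hκ
  have h3 : ‖(2 * (κ : ℂ) * L)⁻¹ * ((2 * (κ : ℂ) - 2) * S)‖ ≤ ‖S‖ / L := by
    have e : (2 * (κ : ℂ) - 2) = ((2 * (κ : ℝ) - 2 : ℝ) : ℂ) := by push_cast; ring
    rw [norm_mul, norm_mul, norm_inv, norm_mul, norm_mul, Complex.norm_natCast,
      Complex.norm_natCast, e, Complex.norm_real, Real.norm_of_nonneg (by linarith)]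
    simp only [Complex.norm_ofNat]
    calc (2 * (κ : ℝ) * L)⁻¹ * ((2 * κ - 2) * ‖S‖)
        ≤ (2 * (κ : ℝ) * L)⁻¹ * ((2 * κ) * ‖S‖) := by
          gcongr
          linarith
      _ = ‖S‖ / L := by field_simp
  have h4 : 1 / ((n : ℝ) + 1) ≤ 1 / ((N2 : ℝ) + 1) := by
    apply one_div_le_one_div_of_le (by positivity)
    have : (N2 : ℝ) ≤ n := by exact_mod_cast hn2
    linarith
  have h5 : DD G n k k = (DD G n k k - (2 * (κ : ℂ) * L)⁻¹ * ((2 * (κ : ℂ) - 2) * S)) +
      (2 * (κ : ℂ) * L)⁻¹ * ((2 * (κ : ℂ) - 2) * S) := by ring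
  rw [h5]
  refine (norm_add_le _ _).trans_lt ?_
  linarith

/-- diagonal terms, `|k| = κ`: as `DD_lt`, but now all `2 (κ-1) L` terms of the first sum are
`1`. -/
theorem DD_eq {B : Blk} (G : Good B) (κ : ℕ) (hκ : 2 ≤ κ) (k : ℤ)
    (hkκ : k.natAbs = κ) (ε : ℝ) (hε : 0 < ε) :
    ∃ N, ∀ n ≥ N, G.κ n = κ → ‖DD G n k k - ((κ : ℂ) - 1) / κ‖ < ε := by
  have hk : k ≠ 0 := by
    rintro rfl
    simp at hkκ
    omega
  obtain ⟨N2, hN2⟩ := exists_nat_one_div_lt hε
  refine ⟨N2, fun n hn hκn => ?_⟩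
  have hL : 0 < (G.L n : ℝ) := by exact_mod_cast G.hL n
  have h2 := LagC_same G n k hk
  rw [hκn] at h2
  set L := G.L n with hLdef
  have hκ0 : (κ : ℝ) ≠ 0 := by
    have : 0 < κ := by omega
    positivity
  have hterm : ∀ i : ℕ, conj (fourier k ((((i : ℝ) / κ : ℝ)) : 𝕋) : ℂ) = 1 := by
    intro i
    have h3 : (fourier k ((((i : ℝ) / κ : ℝ)) : 𝕋) : ℂ) = 1 := by
      rw [fourier_coe_apply]
      have hκc : (κ : ℂ) ≠ 0 := by
        have : 0 < κ := by omega
        exact_mod_cast this.ne'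
      rcases Int.natAbs_eq k with h | h
      · rw [h, hkκ]
        have e : 2 * (Real.pi : ℂ) * Complex.I * ((κ : ℤ) : ℂ) * (((i : ℝ) / κ : ℝ) : ℂ) /
            ((1 : ℝ) : ℂ) = (i : ℤ) * (2 * Real.pi * Complex.I) := by
          push_cast
          field_simp
        rw [e]
        exact Complex.exp_int_mul_two_pi_mul_I i
      · rw [h, hkκ]
        have e : 2 * (Real.pi : ℂ) * Complex.I * ((-(κ : ℤ) : ℤ) : ℂ) * (((i : ℝ) / κ : ℝ) : ℂ) /
            ((1 : ℝ) : ℂ) = (-(i : ℤ) : ℤ) * (2 * Real.pi * Complex.I) := by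
          push_cast
          field_simp
        rw [e]
        exact Complex.exp_int_mul_two_pi_mul_I _
    rw [h3, map_one]
  have hS : ∑ i ∈ Finset.range L, conj (fourier k ((((i : ℝ) / κ : ℝ)) : 𝕋) : ℂ) = L := by
    rw [Finset.sum_congr rfl fun i _ => hterm i]
    simp
  rw [hS] at h2
  have e : (2 * (κ : ℂ) * L)⁻¹ * ((2 * (κ : ℂ) - 2) * L) = ((κ : ℂ) - 1) / κ := by
    have hκc : (κ : ℂ) ≠ 0 := by
      have : 0 < κ := by omega
      exact_mod_cast this.ne'
    have hLc : (L : ℂ) ≠ 0 := by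
      exact_mod_cast hL.ne'
    field_simp
  rw [e] at h2
  have h4 : 1 / ((n : ℝ) + 1) ≤ 1 / ((N2 : ℝ) + 1) := by
    apply one_div_le_one_div_of_le (by positivity)
    have : (N2 : ℝ) ≤ n := by exact_mod_cast hn
    linarith
  linarith

end P130
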