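import Mathlib
import Vale.Agent.Lib.P130.LagC

/-!
# P130, simple spectrum: the weak limits of `U^(L_n M_n)` along the levels of type `κ`
-/

open MeasureTheory Filter Topology
open scoped ENNReal ComplexConjugate

namespace P130

/-- iterates of the Koopman operator as linear maps -/
private noncomputable def wlV (B : Blk) (h : ℕ) : B.H →ₗ[ℂ] B.H where
  toFun f := B.U^[h] f
  map_add' f g := B.iter_add h f g
  map_smul' c f := B.iter_smul h c f

private theorem wlV_apply (B : Blk) (h : ℕ) (f : B.H) : wlV B h f = B.U^[h] f := rfl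

private theorem wl_bessel (B : Blk) (n : ℕ) (p : ℤ) (f : B.H) :
    ∑ i ∈ Finset.range (B.M n), ‖(inner ℂ (B.e n i p) f : ℂ)‖ ^ 2 ≤ ‖f‖ ^ 2 := by
  have h1 : Orthonormal ℂ (fun i : Fin (B.M n) => B.e n i p) := by
    have h2 := (B.orthonormal_e n).comp (fun i : Fin (B.M n) => (i, p))
      (fun i j hij => (Prod.mk.inj hij).1)
    exact h2
  have h3 := h1.sum_inner_products_le f (s := Finset.univ)
  rw [← Fin.sum_univ_eq_sum_range (fun i => ‖(inner ℂ (B.e n i p) f : ℂ)‖ ^ 2)]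
  exact h3

private theorem wl_cs (B : Blk) (n : ℕ) (p q : ℤ) (x y : B.H) :
    ‖∑ i ∈ Finset.range (B.M n), conj (inner ℂ (B.e n i p) y : ℂ) * inner ℂ (B.e n i q) x‖ ≤
      ‖x‖ * ‖y‖ := by
  have h1 : ‖∑ i ∈ Finset.range (B.M n),
      conj (inner ℂ (B.e n i p) y : ℂ) * inner ℂ (B.e n i q) x‖ ≤
      ∑ i ∈ Finset.range (B.M n), ‖(inner ℂ (B.e n i p) y : ℂ)‖ *
        ‖(inner ℂ (B.e n i q) x : ℂ)‖ := by
    refine (norm_sum_le _ _).trans (le_of_eq (Finset.sum_congr rfl fun i _ => ?_))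
    rw [norm_mul, RCLike.norm_conj]
  refine h1.trans ?_
  have h2 := Finset.sum_mul_sq_le_sq_mul_sq (Finset.range (B.M n))
    (fun i => ‖(inner ℂ (B.e n i p) y : ℂ)‖) (fun i => ‖(inner ℂ (B.e n i q) x : ℂ)‖)
  have h3 := wl_bessel B n p y
  have h4 := wl_bessel B n q x
  refine le_of_sq_le_sq ?_ (by positivity)
  refine h2.trans ?_
  calc _ ≤ ‖y‖ ^ 2 * ‖x‖ ^ 2 := mul_le_mul h3 h4
        (Finset.sum_nonneg fun i _ => sq_nonneg _) (sq_nonneg _)
    _ = (‖x‖ * ‖y‖) ^ 2 := by ring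

private theorem wl_formula (B : Blk) (n k j : ℕ) (x y : B.H)
    (hx : x ∈ B.Hn n k) (hy : y ∈ B.Hn n k) :
    (inner ℂ y (B.U^[j * B.M n] x) : ℂ) =
      ∑ p ∈ ({(k : ℤ), -(k : ℤ)} : Finset ℤ), ∑ q ∈ ({(k : ℤ), -(k : ℤ)} : Finset ℤ),
        (inner ℂ (B.e n 0 p) (B.U^[j * B.M n] (B.e n 0 q)) : ℂ) *
        ∑ i ∈ Finset.range (B.M n),
          conj (inner ℂ (B.e n i p) y : ℂ) * inner ℂ (B.e n i q) x := by
  have hxe := B.expand n k x hx
  have hye := B.expand n k y hy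
  have h1 : B.U^[j * B.M n] x = ∑ i ∈ Finset.range (B.M n),
      ∑ q ∈ ({(k : ℤ), -(k : ℤ)} : Finset ℤ),
      (inner ℂ (B.e n i q) x : ℂ) • B.U^[j * B.M n] (B.e n i q) := by
    conv_lhs => rw [← wlV_apply, hxe]
    rw [map_sum]
    refine Finset.sum_congr rfl fun i _ => ?_
    rw [map_sum]
    refine Finset.sum_congr rfl fun q _ => ?_
    rw [map_smul, wlV_apply]
  have h2 : (inner ℂ y (B.U^[j * B.M n] x) : ℂ) = ∑ i ∈ Finset.range (B.M n),
      ∑ p ∈ ({(k : ℤ), -(k : ℤ)} : Finset ℤ), ∑ i' ∈ Finset.range (B.M n),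
      ∑ q ∈ ({(k : ℤ), -(k : ℤ)} : Finset ℤ),
      conj (inner ℂ (B.e n i p) y : ℂ) * (inner ℂ (B.e n i' q) x *
        inner ℂ (B.e n i p) (B.U^[j * B.M n] (B.e n i' q))) := by
    rw [h1]
    conv_lhs => rw [hye]
    rw [sum_inner]
    refine Finset.sum_congr rfl fun i _ => ?_
    rw [sum_inner]
    refine Finset.sum_congr rfl fun p _ => ?_
    rw [inner_smul_left, inner_sum, Finset.mul_sum]
    refine Finset.sum_congr rfl fun i' _ => ?_
    rw [inner_sum, Finset.mul_sum]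
    refine Finset.sum_congr rfl fun q _ => ?_
    rw [inner_smul_right]
  rw [h2]
  have h3 : ∀ i ∈ Finset.range (B.M n), ∀ p ∈ ({(k : ℤ), -(k : ℤ)} : Finset ℤ),
      (∑ i' ∈ Finset.range (B.M n), ∑ q ∈ ({(k : ℤ), -(k : ℤ)} : Finset ℤ),
        conj (inner ℂ (B.e n i p) y : ℂ) * (inner ℂ (B.e n i' q) x *
          inner ℂ (B.e n i p) (B.U^[j * B.M n] (B.e n i' q)))) =
      ∑ q ∈ ({(k : ℤ), -(k : ℤ)} : Finset ℤ),
        (inner ℂ (B.e n 0 p) (B.U^[j * B.M n] (B.e n 0 q)) : ℂ) *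
          (conj (inner ℂ (B.e n i p) y : ℂ) * inner ℂ (B.e n i q) x) := by
    intro i hi p _
    rw [Finset.sum_eq_single i]
    · refine Finset.sum_congr rfl fun q _ => ?_
      rw [B.inner_e_iter_eq n j i p q (Finset.mem_range.1 hi)]
      ring
    · intro i' hi' hne
      refine Finset.sum_eq_zero fun q _ => ?_
      rw [B.inner_e_iter_ne n j i i' p q (Finset.mem_range.1 hi) (Finset.mem_range.1 hi')
        (Ne.symm hne), mul_zero, mul_zero]
    · intro h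
      exact absurd hi h
  rw [Finset.sum_congr rfl fun i hi => Finset.sum_congr rfl fun p hp => h3 i hi p hp]
  rw [Finset.sum_comm]
  refine Finset.sum_congr rfl fun p _ => ?_
  rw [Finset.sum_comm]
  refine Finset.sum_congr rfl fun q _ => ?_
  rw [Finset.mul_sum]

/-- For `x`, `y` in `Hn n k`, `k ≥ 1`: the error in `⟨y, U^(L M) x⟩ ≈ c ⟨y, x⟩` is controlled by the four
numbers `DD`.  Expand `x`, `y` by `expand`; `inner_e_iter_ne`, `inner_e_iter_eq`, `inner_e`;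
Cauchy-Schwarz over the levels. -/
theorem inner_Hn_le {B : Blk} (G : Good B) (n k : ℕ) (hk : 1 ≤ k) (c : ℂ) (η : ℝ)
    (h1 : ‖DD G n k k - c‖ ≤ η) (h2 : ‖DD G n (-k) (-k) - c‖ ≤ η)
    (h3 : ‖DD G n k (-k)‖ ≤ η) (h4 : ‖DD G n (-k) k‖ ≤ η)
    (x y : B.H) (hx : x ∈ B.Hn n k) (hy : y ∈ B.Hn n k) :
    ‖(inner ℂ y (B.U^[G.L n * B.M n] x) : ℂ) - c * inner ℂ y x‖ ≤ 4 * η * ‖x‖ * ‖y‖ := by
  have hne : (k : ℤ) ≠ -(k : ℤ) := by omega
  set S : ℤ → ℤ → ℂ := fun p q => ∑ i ∈ Finset.range (B.M n),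
    conj (inner ℂ (B.e n i p) y : ℂ) * inner ℂ (B.e n i q) x with hS
  have e1 := wl_formula B n k (G.L n) x y hx hy
  have e2 : (inner ℂ y x : ℂ) = S k k + S (-k) (-k) := by
    have h5 := wl_formula B n k 0 x y hx hy
    rw [zero_mul] at h5
    simp only [Function.iterate_zero, id_eq] at h5
    have hM := B.M_pos n
    have i1 : (inner ℂ (B.e n 0 k) (B.e n 0 k) : ℂ) = 1 := by
      rw [B.inner_e n 0 0 k k hM, if_pos ⟨rfl, rfl⟩]
    have i2 : (inner ℂ (B.e n 0 k) (B.e n 0 (-k)) : ℂ) = 0 := by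
      rw [B.inner_e n 0 0 k (-k) hM, if_neg (fun h => hne h.2)]
    have i3 : (inner ℂ (B.e n 0 (-k)) (B.e n 0 k) : ℂ) = 0 := by
      rw [B.inner_e n 0 0 (-k) k hM, if_neg (fun h => hne h.2.symm)]
    have i4 : (inner ℂ (B.e n 0 (-k)) (B.e n 0 (-k)) : ℂ) = 1 := by
      rw [B.inner_e n 0 0 (-k) (-k) hM, if_pos ⟨rfl, rfl⟩]
    rw [h5, Finset.sum_pair hne, Finset.sum_pair hne, Finset.sum_pair hne, i1, i2, i3, i4]
    simp only [hS]
    ring
  have e3 : (inner ℂ y (B.U^[G.L n * B.M n] x) : ℂ) - c * inner ℂ y x =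
      (DD G n k k - c) * S k k + (DD G n (-k) (-k) - c) * S (-k) (-k) +
        DD G n k (-k) * S k (-k) + DD G n (-k) k * S (-k) k := by
    rw [e1, e2, Finset.sum_pair hne, Finset.sum_pair hne, Finset.sum_pair hne]
    simp only [hS, DD]
    ring
  have hSb : ∀ p q, ‖S p q‖ ≤ ‖x‖ * ‖y‖ := fun p q => wl_cs B n p q x y
  have hη : 0 ≤ η := (norm_nonneg _).trans h1
  have hb : ∀ (z : ℂ) (p q : ℤ), ‖z‖ ≤ η → ‖z * S p q‖ ≤ η * (‖x‖ * ‖y‖) := by
    intro z p q hz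
    rw [norm_mul]
    exact mul_le_mul hz (hSb p q) (norm_nonneg _) hη
  rw [e3]
  have t1 := hb _ k k h1
  have t2 := hb _ (-k) (-k) h2
  have t3 := hb _ k (-k) h3
  have t4 := hb _ (-k) k h4
  have n1 := norm_add_le ((DD G n k k - c) * S k k + (DD G n (-k) (-k) - c) * S (-k) (-k) +
        DD G n k (-k) * S k (-k)) (DD G n (-k) k * S (-k) k)
  have n2 := norm_add_le ((DD G n k k - c) * S k k + (DD G n (-k) (-k) - c) * S (-k) (-k))
        (DD G n k (-k) * S k (-k))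
  have n3 := norm_add_le ((DD G n k k - c) * S k k) ((DD G n (-k) (-k) - c) * S (-k) (-k))
  have : 4 * η * ‖x‖ * ‖y‖ = 4 * (η * (‖x‖ * ‖y‖)) := by ring
  linarith

/-- the scalars -/
noncomputable def cc (κ k : ℕ) : ℂ :=
  if k = 0 then 1 else if k = κ then ((κ : ℂ) - 1) / κ else 0

private theorem wl_cc_le (κ k : ℕ) (hκ : 2 ≤ κ) : ‖cc κ k‖ ≤ 1 := by
  unfold cc
  split_ifs
  · rw [norm_one]
  · have h1 : (0 : ℝ) < κ := by
      have : 0 < κ := by omega
      exact_mod_cast this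
    have h2 : ((κ : ℂ) - 1) / κ = (((κ : ℝ) - 1) / κ : ℝ) := by push_cast; rfl
    rw [h2, Complex.norm_real, Real.norm_eq_abs, abs_of_nonneg, div_le_one h1]
    · linarith
    · have : (2 : ℝ) ≤ κ := by exact_mod_cast hκ
      exact div_nonneg (by linarith) h1.le
  · rw [norm_zero]
    exact zero_le_one

/-- the numbers `DD` are close to their limits -/
private theorem wl_DD {B : Blk} (G : Good B) (κ k : ℕ) (hκ : 2 ≤ κ) (hk0 : 1 ≤ k) (hk : k ≤ κ)
    (η : ℝ) (hη : 0 < η) :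
    ∃ N, ∀ n ≥ N, G.κ n = κ → ‖DD G n k k - cc κ k‖ ≤ η ∧ ‖DD G n (-k) (-k) - cc κ k‖ ≤ η ∧
      ‖DD G n k (-k)‖ ≤ η ∧ ‖DD G n (-k) k‖ ≤ η := by
  have hkz : (k : ℤ) ≠ 0 := by omega
  have hkz' : -(k : ℤ) ≠ 0 := by omega
  have ha : (k : ℤ).natAbs = k := Int.natAbs_natCast k
  have ha' : (-(k : ℤ)).natAbs = k := by rw [Int.natAbs_neg, Int.natAbs_natCast]
  obtain ⟨N1, H1⟩ := DD_neg G κ hκ k hkz (by rw [ha]; exact hk) η hη
  obtain ⟨N2, H2⟩ := DD_neg G κ hκ (-k) hkz' (by rw [ha']; exact hk) η hη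
  have hdiag : ∀ z : ℤ, z ≠ 0 → z.natAbs = k → ∃ N, ∀ n ≥ N, G.κ n = κ →
      ‖DD G n z z - cc κ k‖ < η := by
    intro z hz hzk
    rcases Nat.lt_or_ge k κ with h | h
    · obtain ⟨N, H⟩ := DD_lt G κ hκ z hz (by rw [hzk]; exact h) η hη
      refine ⟨N, fun n hn hnκ => ?_⟩
      have hc : cc κ k = 0 := by
        unfold cc
        rw [if_neg (by omega), if_neg (by omega)]
      rw [hc, sub_zero]
      exact H n hn hnκ
    · have hkκ : k = κ := le_antisymm hk h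
      obtain ⟨N, H⟩ := DD_eq G κ hκ z (by rw [hzk, hkκ]) η hη
      refine ⟨N, fun n hn hnκ => ?_⟩
      have hc : cc κ k = ((κ : ℂ) - 1) / κ := by
        unfold cc
        rw [if_neg (by omega), if_pos hkκ]
      rw [hc]
      exact H n hn hnκ
  obtain ⟨N3, H3⟩ := hdiag k hkz ha
  obtain ⟨N4, H4⟩ := hdiag (-k) hkz' ha'
  refine ⟨max (max N1 N2) (max N3 N4), fun n hn hnκ => ?_⟩
  have g1 : N1 ≤ n := le_trans (le_trans (le_max_left _ _) (le_max_left _ _)) hn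
  have g2 : N2 ≤ n := le_trans (le_trans (le_max_right _ _) (le_max_left _ _)) hn
  have g3 : N3 ≤ n := le_trans (le_trans (le_max_left _ _) (le_max_right _ _)) hn
  have g4 : N4 ≤ n := le_trans (le_trans (le_max_right _ _) (le_max_right _ _)) hn
  have t2 := H2 n g2 hnκ
  rw [neg_neg] at t2
  exact ⟨(H3 n g3 hnκ).le, (H4 n g4 hnκ).le, (H1 n g1 hnκ).le, t2.le⟩

/-- Weak limits, `0 ≤ k ≤ κ`.  By density (`exists_approx` for `x`; decompose `y` in its component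
in `Hk k` and one orthogonal to it, which is orthogonal to `U^h x` as well; approximate the
component in `Hn`), `Hn_mono`, `inner_Hn_le` and `DD_neg`, `DD_lt`, `DD_eq`; for `k = 0` use
`U_iter_mul_M`. -/
theorem weak_lim {B : Blk} (G : Good B) (κ k : ℕ) (hκ : 2 ≤ κ) (hk : k ≤ κ) (x : B.H)
    (hx : x ∈ B.Hk k) (y : B.H) (ε : ℝ) (hε : 0 < ε) :
    ∃ N, ∀ n ≥ N, G.κ n = κ →
      ‖(inner ℂ y (B.U^[G.L n * B.M n] x) : ℂ) - cc κ k * inner ℂ y x‖ < ε := by
  -- reduction to `y ∈ Hk k`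
  have key : ∀ z ∈ B.Hk k, ∃ N, ∀ n ≥ N, G.κ n = κ →
      ‖(inner ℂ z (B.U^[G.L n * B.M n] x) : ℂ) - cc κ k * inner ℂ z x‖ < ε := by
    intro z hz
    set X : ℝ := ‖x‖ + 1 with hX
    set Z : ℝ := ‖z‖ + 1 with hZ
    have hX1 : 1 ≤ X := by have := norm_nonneg x; linarith
    have hZ1 : 1 ≤ Z := by have := norm_nonneg z; linarith
    have hXZ : 0 < X * Z := by positivity
    set δ : ℝ := min 1 (ε / (16 * (X * Z))) with hδ
    have hδ0 : 0 < δ := lt_min one_pos (by positivity)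
    have hδ1 : δ ≤ 1 := min_le_left _ _
    have hδ2 : δ * (16 * (X * Z)) ≤ ε := by
      have := min_le_right 1 (ε / (16 * (X * Z)))
      rw [← hδ, le_div_iff₀ (by positivity)] at this
      exact this
    obtain ⟨n1, x', hx', hxx⟩ := B.exists_approx k x hx δ hδ0
    obtain ⟨n2, z', hz', hzz⟩ := B.exists_approx k z hz δ hδ0
    have hx'n : ‖x'‖ ≤ X := by
      have h1 : ‖x'‖ ≤ ‖x‖ + ‖x - x'‖ := by
        have := norm_sub_le x (x - x')
        rwa [sub_sub_cancel] at this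
      linarith
    have hz'n : ‖z'‖ ≤ Z := by
      have h1 : ‖z'‖ ≤ ‖z‖ + ‖z - z'‖ := by
        have := norm_sub_le z (z - z')
        rwa [sub_sub_cancel] at this
      linarith
    -- the estimate for the approximations
    have happ : ∃ N, ∀ n ≥ N, G.κ n = κ →
        ‖(inner ℂ z' (B.U^[G.L n * B.M n] x') : ℂ) - cc κ k * inner ℂ z' x'‖ ≤
          4 * δ * ‖x'‖ * ‖z'‖ := by
      rcases Nat.eq_zero_or_pos k with h0 | h0
      · refine ⟨n1, fun n hn _ => ?_⟩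
        subst h0
        have hxn : x' ∈ B.Hn n 0 := B.Hn_mono 0 hn hx'
        rw [B.U_iter_mul_M n (G.L n) x' hxn]
        have hc : cc κ 0 = 1 := by
          unfold cc
          rw [if_pos rfl]
        rw [hc, one_mul, sub_self, norm_zero]
        positivity
      · obtain ⟨N, H⟩ := wl_DD G κ k hκ h0 hk δ hδ0
        refine ⟨max N (max n1 n2), fun n hn hnκ => ?_⟩
        have g1 : N ≤ n := le_trans (le_max_left _ _) hn
        have g2 : n1 ≤ n := le_trans (le_trans (le_max_left _ _) (le_max_right _ _)) hn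
        have g3 : n2 ≤ n := le_trans (le_trans (le_max_right _ _) (le_max_right _ _)) hn
        obtain ⟨a1, a2, a3, a4⟩ := H n g1 hnκ
        exact inner_Hn_le G n k h0 (cc κ k) δ a1 a2 a3 a4 x' z' (B.Hn_mono k g2 hx')
          (B.Hn_mono k g3 hz')
    obtain ⟨N, H⟩ := happ
    refine ⟨N, fun n hn hnκ => ?_⟩
    have h1 := H n hn hnκ
    set h := G.L n * B.M n with hh
    have hcn := wl_cc_le κ k hκ
    have e1 : (inner ℂ z (B.U^[h] x) : ℂ) - cc κ k * inner ℂ z x =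
        ((inner ℂ z' (B.U^[h] x') : ℂ) - cc κ k * inner ℂ z' x') +
        (inner ℂ (z - z') (B.U^[h] x') + inner ℂ z (B.U^[h] (x - x'))) -
        cc κ k * (inner ℂ (z - z') x' + inner ℂ z (x - x')) := by
      rw [B.iter_sub, inner_sub_left, inner_sub_right, inner_sub_left, inner_sub_right]
      ring
    have b1 : ‖(inner ℂ (z - z') (B.U^[h] x') : ℂ)‖ ≤ δ * X := by
      refine (norm_inner_le_norm _ _).trans ?_
      rw [B.norm_iter]
      exact mul_le_mul hzz.le hx'n (norm_nonneg _) hδ0.le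
    have b2 : ‖(inner ℂ z (B.U^[h] (x - x')) : ℂ)‖ ≤ Z * δ := by
      refine (norm_inner_le_norm _ _).trans ?_
      rw [B.norm_iter]
      exact mul_le_mul (by linarith) hxx.le (norm_nonneg _) (by linarith)
    have b3 : ‖(inner ℂ (z - z') x' : ℂ)‖ ≤ δ * X := by
      refine (norm_inner_le_norm _ _).trans ?_
      exact mul_le_mul hzz.le hx'n (norm_nonneg _) hδ0.le
    have b4 : ‖(inner ℂ z (x - x') : ℂ)‖ ≤ Z * δ := by
      refine (norm_inner_le_norm _ _).trans ?_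
      exact mul_le_mul (by linarith) hxx.le (norm_nonneg _) (by linarith)
    have b5 : 4 * δ * ‖x'‖ * ‖z'‖ ≤ 4 * δ * (X * Z) := by
      rw [mul_assoc (4 * δ)]
      exact mul_le_mul_of_nonneg_left (mul_le_mul hx'n hz'n (norm_nonneg _) (by linarith))
        (by positivity)
    have b6 : ‖cc κ k * ((inner ℂ (z - z') x' : ℂ) + inner ℂ z (x - x'))‖ ≤ δ * X + Z * δ := by
      rw [norm_mul]
      have := norm_add_le (inner ℂ (z - z') x' : ℂ) (inner ℂ z (x - x'))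
      calc _ ≤ 1 * ‖(inner ℂ (z - z') x' : ℂ) + inner ℂ z (x - x')‖ :=
            mul_le_mul_of_nonneg_right hcn (norm_nonneg _)
        _ ≤ δ * X + Z * δ := by linarith
    have hsum : X + Z ≤ 2 * (X * Z) := by nlinarith
    rw [e1]
    have m1 := norm_sub_le (((inner ℂ z' (B.U^[h] x') : ℂ) - cc κ k * inner ℂ z' x') +
        (inner ℂ (z - z') (B.U^[h] x') + inner ℂ z (B.U^[h] (x - x'))))
        (cc κ k * ((inner ℂ (z - z') x' : ℂ) + inner ℂ z (x - x')))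
    have m2 := norm_add_le ((inner ℂ z' (B.U^[h] x') : ℂ) - cc κ k * inner ℂ z' x')
        ((inner ℂ (z - z') (B.U^[h] x') : ℂ) + inner ℂ z (B.U^[h] (x - x')))
    have m3 := norm_add_le (inner ℂ (z - z') (B.U^[h] x') : ℂ) (inner ℂ z (B.U^[h] (x - x')))
    have m4 : δ * (X + Z) ≤ δ * (2 * (X * Z)) := mul_le_mul_of_nonneg_left hsum hδ0.le
    nlinarith [m1, m2, m3, b1, b2, b5, b6, h1, m4, hδ2, hε]
  have hcomp : CompleteSpace (B.Hk k) := (B.isClosed_Hk k).completeSpace_coe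
  obtain ⟨z, hz, w, hw, hzw⟩ := Submodule.exists_add_mem_mem_orthogonal (K := B.Hk k) y
  obtain ⟨N, H⟩ := key z hz
  refine ⟨N, fun n hn hnκ => ?_⟩
  have h1 := H n hn hnκ
  have h2 : (inner ℂ w (B.U^[G.L n * B.M n] x) : ℂ) = 0 := by
    have h3 := (Submodule.mem_orthogonal' (B.Hk k) w).1 hw
    exact h3 _ (B.iter_mem k _ x hx)
  have h3 : (inner ℂ w x : ℂ) = 0 := (Submodule.mem_orthogonal' (B.Hk k) w).1 hw x hx
  rw [hzw, inner_add_left, inner_add_left, h2, h3, add_zero, add_zero]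
  exact h1

/-- along a sequence of levels (`hfreq`), in the form needed for `sep`. -/
theorem exists_seq {B : Blk} (G : Good B) (v : ℕ → B.H) (hv : ∀ k, v k ∈ B.Hk k) (κ : ℕ)
    (hκ : 2 ≤ κ) : ∃ s : ℕ → ℕ, ∀ y : B.H,
      Tendsto (fun n => (inner ℂ y ((B.Ue ^ (s n)) (v 0)) : ℂ)) atTop (𝓝 (inner ℂ y (v 0))) ∧
      (∀ i, 0 < i → i < κ →
        Tendsto (fun n => (inner ℂ y ((B.Ue ^ (s n)) (v i)) : ℂ)) atTop (𝓝 0)) ∧
      Tendsto (fun n => (inner ℂ y ((B.Ue ^ (s n)) (v κ)) : ℂ)) atTop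
        (𝓝 ((((κ : ℂ) - 1) / κ) * inner ℂ y (v κ))) := by
  choose f hf hfκ using G.hfreq κ hκ
  refine ⟨fun n => G.L (f n) * B.M (f n), fun y => ?_⟩
  have main : ∀ k, k ≤ κ → Tendsto
      (fun n => (inner ℂ y ((B.Ue ^ (G.L (f n) * B.M (f n))) (v k)) : ℂ)) atTop
      (𝓝 (cc κ k * inner ℂ y (v k))) := by
    intro k hk
    rw [Metric.tendsto_atTop]
    intro ε hε
    obtain ⟨N, H⟩ := weak_lim G κ k hκ hk (v k) (hv k) y ε hε
    refine ⟨N, fun n hn => ?_⟩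
    rw [dist_eq_norm, B.Ue_pow_apply]
    exact H (f n) (le_trans hn (hf n)) (hfκ n)
  refine ⟨?_, ?_, ?_⟩
  · have h1 := main 0 (Nat.zero_le _)
    have hc : cc κ 0 = 1 := by
      unfold cc
      rw [if_pos rfl]
    rw [hc, one_mul] at h1
    exact h1
  · intro i hi hiκ
    have h1 := main i hiκ.le
    have hc : cc κ i = 0 := by
      unfold cc
      rw [if_neg (by omega), if_neg (by omega)]
    rw [hc, zero_mul] at h1
    exact h1
  · have h1 := main κ le_rfl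
    have hc : cc κ κ = ((κ : ℂ) - 1) / κ := by
      unfold cc
      rw [if_neg (by omega), if_pos rfl]
    rw [hc] at h1
    exact h1

end P130
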