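import Mathlib
import Vale.Agent.Lib.P130.SimpB
import Vale.Agent.Lib.P130.WeakL
import Vale.Agent.Lib.P130.CycB
import Vale.Agent.Lib.P130.Sep

/-!
# P130: the whole Koopman operator has simple spectrum
-/

open MeasureTheory Filter Topology Polynomial
open scoped ENNReal ComplexConjugate

namespace P130

/-- the algebraic part of `approx_sum` -/
private theorem span_sum (B : Blk) (a : B.H)
    (ha : a ∈ Submodule.span ℂ {f : B.H | ∃ (n i : ℕ) (κ : ℤ), i < B.M n ∧ f = B.e n i κ}) :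
    ∃ K₀ n₀ : ℕ, ∀ K ≥ K₀, ∀ n ≥ n₀, ∃ x : ℕ → B.H, (∀ l, x l ∈ B.Hn n l) ∧
      a = ∑ l ∈ Finset.range (K + 1), x l := by
  induction ha using Submodule.span_induction with
  | mem f hf =>
    obtain ⟨n, i, κ, hi, rfl⟩ := hf
    refine ⟨κ.natAbs, n, fun K hK n' hn' => ?_⟩
    refine ⟨fun l => if l = κ.natAbs then B.e n i κ else 0, fun l => ?_, ?_⟩
    · change (if l = κ.natAbs then B.e n i κ else 0) ∈ B.Hn n' l
      by_cases hl : l = κ.natAbs
      · rw [if_pos hl, hl]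
        exact B.Hn_mono κ.natAbs hn' (B.e_mem_Hn n i κ hi)
      · rw [if_neg hl]
        exact Submodule.zero_mem _
    · rw [Finset.sum_ite_eq' (Finset.range (K + 1)) κ.natAbs (fun _ => B.e n i κ),
        if_pos (Finset.mem_range.2 (by omega))]
  | zero => exact ⟨0, 0, fun K _ n _ => ⟨fun _ => 0, fun _ => Submodule.zero_mem _, by simp⟩⟩
  | add f g _ _ hf hg =>
    obtain ⟨K1, n1, h1⟩ := hf
    obtain ⟨K2, n2, h2⟩ := hg
    refine ⟨max K1 K2, max n1 n2, fun K hK n hn => ?_⟩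
    obtain ⟨x, hx, hx'⟩ := h1 K (le_trans (le_max_left _ _) hK) n (le_trans (le_max_left _ _) hn)
    obtain ⟨y, hy, hy'⟩ := h2 K (le_trans (le_max_right _ _) hK) n (le_trans (le_max_right _ _) hn)
    refine ⟨fun l => x l + y l, fun l => Submodule.add_mem _ (hx l) (hy l), ?_⟩
    rw [Finset.sum_add_distrib, ← hx', ← hy']
  | smul c f _ hf =>
    obtain ⟨K1, n1, h1⟩ := hf
    refine ⟨K1, n1, fun K hK n hn => ?_⟩
    obtain ⟨x, hx, hx'⟩ := h1 K hK n hn
    refine ⟨fun l => c • x l, fun l => Submodule.smul_mem _ _ (hx l), ?_⟩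
    rw [← Finset.smul_sum, ← hx']

/-- finite approximations (`dense_e`) -/
theorem approx_sum (B : Blk) (a b : B.H) (ε : ℝ) (hε : 0 < ε) :
    ∃ (K n₀ : ℕ) (x y : ℕ → B.H), (∀ l, x l ∈ B.Hn n₀ l) ∧ (∀ l, y l ∈ B.Hn n₀ l) ∧
      ‖a - ∑ l ∈ Finset.range (K + 1), x l‖ < ε ∧
      ‖b - ∑ l ∈ Finset.range (K + 1), y l‖ < ε := by
  have hd : ∀ c : B.H, ∃ c' ∈ Submodule.span ℂ {f : B.H | ∃ (n i : ℕ) (κ : ℤ), i < B.M n ∧
      f = B.e n i κ}, ‖c - c'‖ < ε := by
    intro c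
    have h1 : c ∈ (Submodule.span ℂ {f : B.H | ∃ (n i : ℕ) (κ : ℤ), i < B.M n ∧
      f = B.e n i κ}).topologicalClosure := by
      rw [B.dense_e]
      exact Submodule.mem_top
    have h2 : c ∈ closure ((Submodule.span ℂ {f : B.H | ∃ (n i : ℕ) (κ : ℤ), i < B.M n ∧
      f = B.e n i κ} : Submodule ℂ B.H) : Set B.H) := h1
    rw [Metric.mem_closure_iff] at h2
    obtain ⟨c', hc', hcc⟩ := h2 ε hε
    refine ⟨c', hc', ?_⟩
    rw [← dist_eq_norm]
    exact hcc
  obtain ⟨a', ha', haa⟩ := hd a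
  obtain ⟨b', hb', hbb⟩ := hd b
  obtain ⟨K1, n1, h1⟩ := span_sum B a' ha'
  obtain ⟨K2, n2, h2⟩ := span_sum B b' hb'
  obtain ⟨x, hx, hx'⟩ := h1 (max K1 K2) (le_max_left _ _) (max n1 n2) (le_max_left _ _)
  obtain ⟨y, hy, hy'⟩ := h2 (max K1 K2) (le_max_right _ _) (max n1 n2) (le_max_right _ _)
  refine ⟨max K1 K2, max n1 n2, x, y, hx, hy, ?_, ?_⟩
  · rw [← hx']
    exact haa
  · rw [← hy']
    exact hbb

/-- a cyclic vector (`exists_cyclic`, `approx_sum`, `approx_pair`, `exists_seq`, `sep`). -/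
theorem exists_simple {B : Blk} (G : Good B) : ∃ v : B.H, Zc B.Ue v = ⊤ := by
  refine exists_cyclic B.Ue (fun p : ℕ × ℕ × ℤ => B.e p.1 p.2.1 p.2.2) ?_ ?_
  · rw [eq_top_iff, ← B.dense_e]
    refine Submodule.topologicalClosure_mono (Submodule.span_mono ?_)
    rintro f ⟨n, i, κ, _, rfl⟩
    exact ⟨(n, i, κ), rfl⟩
  · intro a b ε hε
    obtain ⟨K, n₀, x, y, hx, hy, hxa, hyb⟩ := approx_sum B a b (ε / 2) (half_pos hε)
    obtain ⟨δ, hδ⟩ : ∃ δ : ℝ, δ = ε / 2 / (K + 1) := ⟨_, rfl⟩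
    have hK : (0 : ℝ) < (K : ℝ) + 1 := by positivity
    have hδ0 : 0 < δ := by rw [hδ]; positivity
    choose v hv hp hq using fun l => approx_pair G l n₀ (x l) (y l) (hx l) (hy l) δ hδ0
    choose p hp1 hp2 using hp
    choose q hq1 hq2 using hq
    have hsep := sep B.Ue v (fun κ hκ => exists_seq G v hv κ hκ) K
      (∑ i ∈ Finset.range (K + 1), v i) (self_mem_Zc _ _)
    have key : ∀ (c : B.H) (z r : ℕ → B.H), ‖c - ∑ l ∈ Finset.range (K + 1), z l‖ < ε / 2 →
        (∀ l, r l ∈ Zc B.Ue (v l)) → (∀ l, ‖z l - r l‖ < δ) →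
        ∃ w ∈ Zc B.Ue (∑ i ∈ Finset.range (K + 1), v i), ‖c - w‖ < ε := by
      intro c z r hc hr hzr
      refine ⟨∑ l ∈ Finset.range (K + 1), r l, Submodule.sum_mem _ fun l hl => ?_, ?_⟩
      · have hl' : l ≤ K := Nat.lt_succ_iff.1 (Finset.mem_range.1 hl)
        exact Zc_le B.Ue _ _ (hsep l hl') (hr l)
      · have h1 : c - ∑ l ∈ Finset.range (K + 1), r l = (c - ∑ l ∈ Finset.range (K + 1), z l) +
            ∑ l ∈ Finset.range (K + 1), (z l - r l) := by
          rw [Finset.sum_sub_distrib]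
          abel
        have h2 : ‖∑ l ∈ Finset.range (K + 1), (z l - r l)‖ ≤ (K + 1) * δ := by
          refine (norm_sum_le _ _).trans ?_
          refine (Finset.sum_le_sum fun l _ => (hzr l).le).trans ?_
          rw [Finset.sum_const, Finset.card_range, nsmul_eq_mul]
          push_cast
          exact le_rfl
        have h3 : ((K : ℝ) + 1) * δ = ε / 2 := by
          rw [hδ]
          field_simp
        rw [h1]
        refine (norm_add_le _ _).trans_lt ?_
        linarith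
    refine ⟨∑ i ∈ Finset.range (K + 1), v i, key a x p hxa hp1 hp2, key b y q hyb hq1 hq2⟩

/-- in terms of inner products -/
theorem exists_total {B : Blk} (G : Good B) : ∃ v : B.H, ∀ f : B.H,
    (∀ n : ℕ, inner ℂ f (B.U^[n] v) = 0 ∧ inner ℂ (B.U^[n] f) v = 0) → f = 0 := by
  obtain ⟨v, hv⟩ := exists_simple G
  refine ⟨v, fun f hf => ?_⟩
  have h1 : f ∈ (Submodule.span ℂ (Set.range fun n : ℤ => (B.Ue ^ n) v))ᗮ := by
    rw [Submodule.mem_orthogonal]
    intro u hu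
    induction hu using Submodule.span_induction with
    | mem x hx =>
      obtain ⟨n, rfl⟩ := hx
      change inner ℂ ((B.Ue ^ n) v) f = 0
      obtain ⟨m, rfl | rfl⟩ := Int.eq_nat_or_neg n
      · rw [B.Ue_zpow_natCast_apply, ← inner_conj_symm, (hf m).1, map_zero]
      · have h2 : (inner ℂ ((B.Ue ^ (-(m : ℤ))) v) f : ℂ) =
            inner ℂ ((B.Ue ^ (m : ℤ)) ((B.Ue ^ (-(m : ℤ))) v)) ((B.Ue ^ (m : ℤ)) f) := by
          rw [LinearIsometryEquiv.inner_map_map]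
        have h3 : (B.Ue ^ (m : ℤ)) ((B.Ue ^ (-(m : ℤ))) v) = v := by
          change ((B.Ue ^ (m : ℤ)) * (B.Ue ^ (-(m : ℤ)))) v = v
          rw [← zpow_add, add_neg_cancel, zpow_zero]
          rfl
        rw [h2, h3, B.Ue_zpow_natCast_apply, ← inner_conj_symm, (hf m).2, map_zero]
    | zero => exact inner_zero_left _
    | add x y _ _ hx hy => rw [inner_add_left, hx, hy, add_zero]
    | smul c x _ hx => rw [inner_smul_left, hx, mul_zero]
  rw [← Submodule.orthogonal_closure] at h1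
  have h4 : (Submodule.span ℂ (Set.range fun n : ℤ => (B.Ue ^ n) v)).topologicalClosure = ⊤ := hv
  rw [h4, Submodule.top_orthogonal_eq_bot] at h1
  exact (Submodule.mem_bot ℂ).1 h1

end P130
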