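import Mathlib
import Vale.Agent.Lib.P130.Final
import Vale.Agent.Lib.P130.SimpF

/-!
# P130: the final statement, with simple spectrum
-/

open MeasureTheory Filter Topology
open scoped ENNReal ComplexConjugate

namespace P130

/-- **There is an ergodic invertible measure-preserving transformation of a standard nonatomic
probability space whose Koopman operator has simple spectrum and a Lebesgue component of
multiplicity one.** -/
theorem main_simple : ∃ (Y : Type) (_ : MeasurableSpace Y) (_ : StandardBorelSpace Y)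
    (μ : Measure Y) (_ : IsProbabilityMeasure μ) (_ : NullSingletonClass μ) (T : Y ≃ᵐ Y)
    (hT : MeasurePreserving T μ μ), Ergodic T μ ∧
    (∃ v : Lp ℂ 2 μ, ∀ f : Lp ℂ 2 μ,
      (∀ n : ℕ, inner ℂ f ((Lp.compMeasurePreserving T hT)^[n] v) = 0 ∧
        inner ℂ ((Lp.compMeasurePreserving T hT)^[n] f) v = 0) → f = 0) ∧
    ∃ V : Lp ℂ 2 (AddCircle.haarAddCircle (T := 1)) →ₗᵢ[ℂ] Lp ℂ 2 μ,
      (∀ g g' : Lp ℂ 2 (AddCircle.haarAddCircle (T := 1)),
        ((g' : AddCircle (1 : ℝ) → ℂ) =ᵐ[AddCircle.haarAddCircle] fun t => fourier 1 t * g t) →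
          V g' = Lp.compMeasurePreserving T hT (V g)) ∧
      (∀ g, ∫ y, V g y ∂μ = 0) ∧
      (∀ f : Lp ℂ 2 μ, (∃ g, V g = f) ↔
        ∃ σ : Measure (AddCircle (1 : ℝ)), IsFiniteMeasure σ ∧
          σ ≪ AddCircle.haarAddCircle ∧ ∀ n : ℕ, ∫ t, fourier (n : ℤ) t ∂σ =
            inner ℂ f ((Lp.compMeasurePreserving T hT)^[n] f)) ∧
      (∀ f : Lp ℂ 2 μ, Tendsto (fun n : ℕ =>
        inner ℂ f ((Lp.compMeasurePreserving T hT)^[n] f)) atTop (𝓝 0) → ∃ g, V g = f) ∧
      (∀ f : Lp ℂ 2 μ, (∀ g, inner ℂ (V g) f = 0) →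
        ∀ σ : Measure (AddCircle (1 : ℝ)), IsFiniteMeasure σ →
          (∀ n : ℕ, ∫ t, fourier (n : ℤ) t ∂σ =
            inner ℂ f ((Lp.compMeasurePreserving T hT)^[n] f)) →
          σ ⟂ₘ AddCircle.haarAddCircle) := by
  obtain ⟨B, ⟨G⟩⟩ := exists_good
  obtain ⟨V, hV, hR⟩ := exists_V G
  have hU : (B.U : B.H → B.H) = Lp.compMeasurePreserving (B.Te : B.Y → B.Y)
      B.measurePreserving_T := rfl
  refine ⟨B.Y, inferInstance, inferInstance, B.mu, inferInstance, inferInstance, B.Te,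
    B.measurePreserving_T, ergodic_T G, exists_total G, V, ?_, ?_, ?_, ?_, ?_⟩
  · intro g g' hg
    have h1 : g' = mulF 1 g := by
      apply Lp.ext
      exact hg.trans (coeFn_mulF 1 g).symm
    rw [h1, hV]
    rfl
  · intro g
    exact integral_eq_zero _ ((hR _).2 ⟨g, rfl⟩)
  · intro f
    rw [← hR]
    constructor
    · intro hf
      exact ac_of_mem G f hf
    · rintro ⟨σ, hσ, hac, hc⟩
      exact mem_of_ac G f σ hac hc
  · intro f hf
    exact (hR f).1 (mem_of_mix G f hf)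
  · intro f hf σ hσ hc
    refine sing_of_orth G f ?_ σ hc
    rw [Submodule.mem_orthogonal]
    intro u hu
    obtain ⟨g, rfl⟩ := (hR u).1 hu
    exact hf g

end P130
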